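import Vale.Agent.P180.H897.MatD

/-!
P180, SL at primes dividing the order of the centre: a quaternion group of commutators
(helper897).
-/

set_option linter.all false

namespace Vale.Agent.P180.H897.MatD

open scoped commutatorElement

/-- a nonabelian `2`-group, abstractly -/
theorem quat_abs {G : Type*} [Group G] {x y : G} (hx : x ∈ commutator G) (hy : y ∈ commutator G)
    (hx4 : x ^ 4 = 1) (hy4 : y ^ 4 = 1) (h : y * x * y⁻¹ = x⁻¹) (hne : x * y ≠ y * x) :
    ∃ P : Subgroup G, IsPGroup 2 P ∧ P ≤ commutator G ∧ ∃ x ∈ P, ∃ y ∈ P, x * y ≠ y * x := by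
  have hz : ∀ {g : G}, g ^ 4 = 1 → IsPGroup 2 (Subgroup.zpowers g) := by
    rintro g hg ⟨_, j, rfl⟩
    refine ⟨2, Subtype.ext ?_⟩
    change (g ^ j) ^ 2 ^ 2 = 1
    rw [← zpow_natCast, ← zpow_mul, mul_comm, zpow_mul, zpow_natCast,
      show (2 ^ 2 : ℕ) = 4 from rfl, hg, one_zpow]
  have hn : Subgroup.zpowers y ≤ Subgroup.normalizer (Subgroup.zpowers x : Set G) := by
    rw [Subgroup.zpowers_le]
    have key : ∀ g : G, g * x * g⁻¹ = x⁻¹ → ∀ j : ℤ, g * x ^ j * g⁻¹ = (x ^ j)⁻¹ := by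
      intro g hg j
      rw [← conj_zpow, hg, inv_zpow]
    rw [Subgroup.mem_normalizer_iff]
    intro a
    constructor
    · rintro ⟨j, rfl⟩
      change y * x ^ j * y⁻¹ ∈ Subgroup.zpowers x
      rw [key y h]
      exact Subgroup.inv_mem _ (Subgroup.zpow_mem _ (Subgroup.mem_zpowers x) j)
    · rintro ⟨j, hj⟩
      change x ^ j = y * a * y⁻¹ at hj
      have h1 : a = y⁻¹ * x ^ j * y := by rw [hj]; group
      have h2 : y⁻¹ * x * y⁻¹⁻¹ = x⁻¹ := by
        rw [inv_inv]
        have h3 : x = y⁻¹ * x⁻¹ * y := by rw [← h]; group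
        calc y⁻¹ * x * y = (y⁻¹ * x⁻¹ * y)⁻¹ := by group
          _ = x⁻¹ := by rw [← h3]
      have h4 := key y⁻¹ h2 j
      rw [inv_inv] at h4
      rw [h1, h4]
      exact Subgroup.inv_mem _ (Subgroup.zpow_mem _ (Subgroup.mem_zpowers x) j)
  refine ⟨Subgroup.zpowers y ⊔ Subgroup.zpowers x,
    IsPGroup.to_sup_of_normal_right' (hz hy4) (hz hx4) hn,
    sup_le (by rwa [Subgroup.zpowers_le]) (by rwa [Subgroup.zpowers_le]), x,
    Subgroup.mem_sup_right (Subgroup.mem_zpowers x), y,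
    Subgroup.mem_sup_left (Subgroup.mem_zpowers y), hne⟩

section mat

variable {D : Type*} [Field D]

open Matrix

/-- the units of the `2 × 2` matrices -/
theorem quat_mat [Finite D] (h2 : (-1 : D) ≠ 1) :
    ∃ P : Subgroup (Matrix (Fin 2) (Fin 2) D)ˣ, IsPGroup 2 P ∧ P ≤ commutator _ ∧
      ∃ x ∈ P, ∃ y ∈ P, x * y ≠ y * x := by
  classical
  letI := Fintype.ofFinite D
  have h20 : (2 : D) ≠ 0 := by
    intro h
    apply h2
    linear_combination -h
  -- `a ^ 2 + b ^ 2 = -1`, `b ≠ 0`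
  obtain ⟨a, b, hab⟩ : ∃ a b : D, a ^ 2 + b ^ 2 = -1 := by
    have hodd : Fintype.card D % 2 = 1 := by
      refine FiniteField.odd_card_of_char_ne_two ?_
      intro h
      apply h20
      have h3 := (ringChar.spec D 2).2 (by rw [h])
      exact_mod_cast h3
    obtain ⟨a, b, h⟩ := FiniteField.exists_root_sum_quadratic (R := D)
      (f := Polynomial.X ^ 2) (g := Polynomial.X ^ 2 + Polynomial.C 1)
      (Polynomial.degree_X_pow 2) (Polynomial.degree_X_pow_add_C (by norm_num) 1) hodd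
    refine ⟨a, b, ?_⟩
    simp only [Polynomial.eval_pow, Polynomial.eval_X, Polynomial.eval_add,
      Polynomial.eval_C] at h
    linear_combination h
  obtain ⟨a, b, hab, hb⟩ : ∃ a b : D, a ^ 2 + b ^ 2 = -1 ∧ b ≠ 0 := by
    by_cases hb : b = 0
    · refine ⟨b, a, by rw [add_comm]; exact hab, ?_⟩
      rintro rfl
      rw [hb] at hab
      have h3 : (-1 : D) = 0 := by rw [← hab]; ring
      exact one_ne_zero (neg_eq_zero.1 h3)
    · exact ⟨a, b, hab, hb⟩
  -- the matrices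
  let mk : ∀ (M N : Matrix (Fin 2) (Fin 2) D), M * N = 1 → (Matrix (Fin 2) (Fin 2) D)ˣ :=
    fun M N h => ⟨M, N, h, mul_eq_one_comm.1 h⟩
  let x : (Matrix (Fin 2) (Fin 2) D)ˣ := mk !![0, 1; -1, 0] !![0, -1; 1, 0] (by
    rw [Matrix.mul_fin_two, Matrix.one_fin_two]; simp)
  let y : (Matrix (Fin 2) (Fin 2) D)ˣ := mk !![a, b; b, -a] !![-a, -b; -b, a] (by
    rw [Matrix.mul_fin_two, Matrix.one_fin_two]
    have e1 : a * -a + b * -b = 1 := by linear_combination -hab
    have e2 : a * -b + b * a = 0 := by ring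
    have e3 : b * -a + -a * -b = 0 := by ring
    have e4 : b * -b + -a * a = 1 := by linear_combination -hab
    rw [e1, e2, e3, e4])
  let s : (Matrix (Fin 2) (Fin 2) D)ˣ := mk !![1, 0; 0, -1] !![1, 0; 0, -1] (by
    rw [Matrix.mul_fin_two, Matrix.one_fin_two]; simp)
  let g : (Matrix (Fin 2) (Fin 2) D)ˣ := mk !![1, -1; 1, 1] !![2⁻¹, 2⁻¹; -2⁻¹, 2⁻¹] (by
    rw [Matrix.mul_fin_two, Matrix.one_fin_two]
    have e1 : (2⁻¹ : D) + 2⁻¹ = 1 := by
      rw [← two_mul, mul_inv_cancel₀ h20]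
    congr 1 <;> simp [e1])
  let h : (Matrix (Fin 2) (Fin 2) D)ˣ := mk !![a, 1; b, 0] !![0, b⁻¹; 1, -(a * b⁻¹)] (by
    rw [Matrix.mul_fin_two, Matrix.one_fin_two]
    have e2 : a * b⁻¹ + 1 * -(a * b⁻¹) = 0 := by ring
    have e4 : b * b⁻¹ + 0 * -(a * b⁻¹) = 1 := by rw [mul_inv_cancel₀ hb]; ring
    rw [e2, e4]
    simp)
  have ext2 : ∀ {u v : (Matrix (Fin 2) (Fin 2) D)ˣ}, (u : Matrix (Fin 2) (Fin 2) D) = v → u = v :=
    fun h => Units.ext h
  have hxc : x = ⁅s, g⁆ := by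
    have h1 : x * g * s = s * g := by
      apply ext2
      change !![0, 1; -1, 0] * !![1, -1; 1, 1] * !![1, 0; 0, -1] = !![1, 0; 0, -1] * !![1, -1; 1, 1]
      simp only [Matrix.mul_fin_two]
      congr 1 <;> simp
    rw [commutatorElement_def, ← h1]
    group
  have hyc : y = h * x * h⁻¹ := by
    have h1 : y * h = h * x := by
      apply ext2
      change !![a, b; b, -a] * !![a, 1; b, 0] = !![a, 1; b, 0] * !![0, 1; -1, 0]
      simp only [Matrix.mul_fin_two]
      have e1 : a * a + b * b = -1 := by linear_combination hab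
      have e2 : b * a + -a * b = 0 := by ring
      rw [e1, e2]
      simp
    rw [← h1]
    group
  have hx2 : x ^ 4 = 1 := by
    apply ext2
    change (!![0, 1; -1, 0] : Matrix (Fin 2) (Fin 2) D) ^ 4 = 1
    rw [show (4 : ℕ) = 2 + 2 from rfl, pow_add, pow_two]
    simp only [Matrix.mul_fin_two]
    rw [Matrix.one_fin_two]
    simp
  have hxm : x ∈ commutator (Matrix (Fin 2) (Fin 2) D)ˣ := by
    rw [hxc]
    exact Subgroup.commutator_mem_commutator (Subgroup.mem_top _) (Subgroup.mem_top _)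
  have hym : y ∈ commutator (Matrix (Fin 2) (Fin 2) D)ˣ := by
    rw [hyc]
    exact (inferInstance : (commutator (Matrix (Fin 2) (Fin 2) D)ˣ).Normal).conj_mem x hxm h
  have hy4 : y ^ 4 = 1 := by rw [hyc, conj_pow, hx2, mul_one, mul_inv_cancel]
  have hyx : y * x = x⁻¹ * y := by
    apply ext2
    change !![a, b; b, -a] * !![0, 1; -1, 0] = !![0, -1; 1, 0] * !![a, b; b, -a]
    simp only [Matrix.mul_fin_two]
    congr 1 <;> simp
  refine quat_abs hxm hym hx2 hy4 (by rw [hyx]; group) ?_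
  intro hcom
  rw [hyx] at hcom
  have h1 : x = x⁻¹ := mul_right_cancel hcom
  have h3 : (!![0, 1; -1, 0] : Matrix (Fin 2) (Fin 2) D) = !![0, -1; 1, 0] := congrArg Units.val h1
  have h4 := congrFun (congrFun h3 0) 1
  simp at h4
  exact h2 h4.symm

end mat

section comp

variable {A : Type*} [Ring A] {n : ℕ} {D : Type*} [Field D]

/-- the units of a corner, as units of the algebra -/
def upc (ι : Matrix (Fin n) (Fin n) D → A) (hm : ∀ M N, ι (M * N) = ι M * ι N) :
    (Matrix (Fin n) (Fin n) D)ˣ →* Aˣ where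
  toFun u := ⟨ι u + (1 - ι 1), ι (u⁻¹ : (Matrix (Fin n) (Fin n) D)ˣ) + (1 - ι 1), by
    have h1 : ι 1 * ι 1 = ι 1 := by rw [← hm, one_mul]
    have h2 : ι u * ι 1 = ι u := by rw [← hm, mul_one]
    have h3 : ι 1 * ι (u⁻¹ : (Matrix (Fin n) (Fin n) D)ˣ) =
      ι (u⁻¹ : (Matrix (Fin n) (Fin n) D)ˣ) := by rw [← hm, one_mul]
    rw [add_mul, mul_add, mul_add, ← hm, Units.mul_inv, mul_sub, mul_one, h2, sub_mul, one_mul, h3,
      mul_sub, mul_one, sub_mul, one_mul, h1]
    abel, by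
    have h1 : ι 1 * ι 1 = ι 1 := by rw [← hm, one_mul]
    have h2 : ι (u⁻¹ : (Matrix (Fin n) (Fin n) D)ˣ) * ι 1 =
      ι (u⁻¹ : (Matrix (Fin n) (Fin n) D)ˣ) := by rw [← hm, mul_one]
    have h3 : ι 1 * ι u = ι u := by rw [← hm, one_mul]
    rw [add_mul, mul_add, mul_add, ← hm, Units.inv_mul, mul_sub, mul_one, h2, sub_mul, one_mul, h3,
      mul_sub, mul_one, sub_mul, one_mul, h1]
    abel⟩
  map_one' := Units.ext (by
    change ι 1 + (1 - ι 1) = 1
    abel)
  map_mul' u v := Units.ext (by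
    change ι (u * v) + (1 - ι 1) = (ι u + (1 - ι 1)) * (ι v + (1 - ι 1))
    have h1 : ι 1 * ι 1 = ι 1 := by rw [← hm, one_mul]
    have h2 : ι u * ι 1 = ι u := by rw [← hm, mul_one]
    have h3 : ι 1 * ι v = ι v := by rw [← hm, one_mul]
    rw [add_mul, mul_add, mul_add, ← hm, mul_sub, mul_one, h2, sub_mul, one_mul, h3,
      mul_sub, mul_one, sub_mul, one_mul, h1]
    abel)

theorem upc_injective {ι : Matrix (Fin n) (Fin n) D → A} {hm : ∀ M N, ι (M * N) = ι M * ι N}
    (hi : Function.Injective ι) : Function.Injective (upc ι hm) := by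
  intro u v h
  have h1 : ι u + (1 - ι 1) = ι v + (1 - ι 1) := congrArg Units.val h
  exact Units.ext (hi (add_right_cancel h1))

/-- `p = 2` -/
theorem exists_units_two [Finite D] (hn : 2 ≤ n) (h2 : (-1 : D) ≠ 1)
    (ι : Matrix (Fin n) (Fin n) D → A) (hm : ∀ M N, ι (M * N) = ι M * ι N)
    (hi : Function.Injective ι) :
    ∃ P : Subgroup Aˣ, IsPGroup 2 P ∧ P ≤ commutator _ ∧ ∃ x ∈ P, ∃ y ∈ P, x * y ≠ y * x := by
  classical
  let E : Matrix (Fin n) (Fin 2) D := (1 : Matrix (Fin n) (Fin n) D).submatrix id (Fin.castLE hn)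
  let F : Matrix (Fin 2) (Fin n) D := (1 : Matrix (Fin n) (Fin n) D).submatrix (Fin.castLE hn) id
  have hFE : F * E = 1 := by
    change (1 : Matrix (Fin n) (Fin n) D).submatrix (Fin.castLE hn) id *
      (1 : Matrix (Fin n) (Fin n) D).submatrix id (Fin.castLE hn) = 1
    rw [← Matrix.submatrix_mul _ _ _ _ _ Function.bijective_id, one_mul,
      Matrix.submatrix_one _ (Fin.castLE_injective hn)]
  let κ : Matrix (Fin 2) (Fin 2) D → A := fun M => ι (E * M * F)
  have hκ : ∀ M N, κ (M * N) = κ M * κ N := by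
    intro M N
    change ι (E * (M * N) * F) = ι (E * M * F) * ι (E * N * F)
    rw [← hm]
    congr 1
    calc E * (M * N) * F = E * M * (1 : Matrix (Fin 2) (Fin 2) D) * N * F := by
          rw [Matrix.mul_one]; simp only [Matrix.mul_assoc]
      _ = E * M * F * (E * N * F) := by rw [← hFE]; simp only [Matrix.mul_assoc]
  have hκi : Function.Injective κ := by
    intro M N h
    have h1 : E * M * F = E * N * F := hi h
    have h3 : ∀ M : Matrix (Fin 2) (Fin 2) D, F * (E * M * F) * E = M := by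
      intro M
      calc F * (E * M * F) * E = (F * E) * M * (F * E) := by simp only [Matrix.mul_assoc]
        _ = M := by rw [hFE, Matrix.one_mul, Matrix.mul_one]
    rw [← h3 M, h1, h3]
  obtain ⟨P, h1, h3, x, hx, y, hy, hxy⟩ := quat_mat h2
  refine ⟨P.map (upc κ hκ), h1.map _, ?_, _, ⟨x, hx, rfl⟩, _, ⟨y, hy, rfl⟩, ?_⟩
  · refine (Subgroup.map_mono h3).trans ?_
    rw [commutator_def, commutator_def, Subgroup.map_commutator]
    exact Subgroup.commutator_mono le_top le_top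
  · rw [← map_mul, ← map_mul]
    exact fun h => hxy (upc_injective hκi h)

end comp

end Vale.Agent.P180.H897.MatD
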