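import Vale.Agent.P180.H897.LemD
import Vale.Agent.P180.H897.MatD2
import Vale.Agent.P180.H951.SlAll

/-!
P180, SL at primes dividing the order of the centre: LEMMA D for all primes (helper897).
-/

set_option linter.all false

namespace Vale.Agent.P180.H897.MatD

open Module

section

variable {K V : Type} [Field K] [Finite K] [AddCommGroup V] [Module K V] [Finite V] {p : ℕ}
  [hp : Fact p.Prime]

/-- **LEMMA D**, all primes. -/
theorem lemmaD_all (hK : ¬ p ∣ Nat.card K) (S : Subgroup (V ≃ₗ[K] V))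
    (hS : IsPGroup p S)
    (hmax : ∀ P : Subgroup (V ≃ₗ[K] V), S ≤ P → IsPGroup p P → (∀ x ∈ P,
      (x : V →ₗ[K] V) ∈ Submodule.span K (Set.range fun s : S => ((s : V ≃ₗ[K] V) : V →ₗ[K] V))) →
      P = S)
    (hT : ∀ x ∈ S, ∀ y ∈ S, LinearMap.det (x : V →ₗ[K] V) = 1 →
      LinearMap.det (y : V →ₗ[K] V) = 1 → x * y = y * x) :
    ∀ x ∈ S, ∀ y ∈ S, x * y = y * x := by
  classical
  by_contra hcon
  push Not at hcon
  obtain ⟨a, ha, b, hb, hab⟩ := hcon
  have hfin : Finite (V ≃ₗ[K] V) := DFunLike.finite _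
  have hfinE : Finite (Module.End K V) := DFunLike.finite _
  have hfinU : Finite (sp S)ˣ := inferInstance
  haveI := semisimple_sp hS hK
  obtain ⟨x, y, z, hz, hzp, hz1, hxy⟩ := exists_comm (S := S) hS ⟨⟨a, ha⟩, ⟨b, hb⟩, fun h =>
    hab (congrArg Subtype.val h)⟩
  have hfd : Module.Finite K (sp S) := Module.Finite.of_finite
  -- the central element
  have hzc : ∀ w : sp S, ((us S z : (sp S)ˣ) : sp S) * w = w * (us S z : (sp S)ˣ) := by
    rintro ⟨w, hw⟩
    apply Subtype.ext
    change ((us S z : (sp S)ˣ) : Module.End K V) * w = w * ((us S z : (sp S)ˣ) : Module.End K V)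
    rw [mem_sp] at hw
    induction hw using Submodule.span_induction with
    | mem w hw =>
      obtain ⟨s, rfl⟩ := hw
      have h1 := congrArg (fun t : S => ((t : V ≃ₗ[K] V) : V →ₗ[K] V)) (hz s)
      exact h1
    | zero => rw [mul_zero, zero_mul]
    | add a b _ _ ha hb => rw [mul_add, add_mul, ha, hb]
    | smul c a _ ha => rw [mul_smul_comm, smul_mul_assoc, ha]
  obtain ⟨n, D, fD, finD, _, φ, ι, ζ, hpn, -, hφι, hm, -, hc, -, -, hζ, hζ1⟩ :=
    R2.H47.Bm.exists_comp (K := K) (A := sp S) (p := p) (x := us S x) (y := us S y) (z := us S z)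
      (Units.isUnit _) (Units.isUnit _) (by
        have h1 := congrArg (us S) hxy
        rw [map_mul, map_mul, map_mul] at h1
        have h2 := congrArg Units.val h1
        exact h2) hzc (by
        have h1 := congrArg (us S) hzp
        rw [map_pow, map_one] at h1
        have h2 := congrArg Units.val h1
        rw [Units.val_pow_eq_pow_val] at h2
        exact h2) (by
        intro h
        apply hz1
        apply Subtype.ext
        rw [← ut_us S z]
        have h1 : us S z = 1 := Units.ext h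
        rw [h1, map_one]
        rfl)
  have hinj : Function.Injective ι := fun M N h => by rw [← hφι M, h, hφι]
  obtain ⟨P, hP, hPc, u, hu, v, hv, huv⟩ : ∃ P : Subgroup (sp S)ˣ, IsPGroup p P ∧
      P ≤ commutator _ ∧ ∃ x ∈ P, ∃ y ∈ P, x * y ≠ y * x := by
    by_cases hp2 : p = 2
    · subst hp2
      refine exists_units_two hpn ?_ ι hm hinj
      rcases sq_eq_one_iff.1 hζ with h | h
      · exact absurd h hζ1
      · rw [← h]
        exact hζ1
    · exact exists_units hp.out hp2 hpn hζ hζ1 ι hm hc hinj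
  -- the Sylow subgroup
  have husi : Function.Injective (us S) := by
    intro s t h
    apply Subtype.ext
    rw [← ut_us S s, h, ut_us]
  let SU : Sylow p (sp S)ˣ :=
    { toSubgroup := (us S).range
      isPGroup' := by
        intro ⟨w, hw⟩
        obtain ⟨s, rfl⟩ := hw
        obtain ⟨k, hk⟩ := hS s
        refine ⟨k, Subtype.ext ?_⟩
        change (us S s) ^ p ^ k = 1
        rw [← map_pow, hk, map_one]
      is_maximal' := by
        intro R hR hle
        have h1 : R.map (ut S) = S := by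
          apply hmax
          · intro s hs
            exact ⟨us S ⟨s, hs⟩, hle ⟨⟨s, hs⟩, rfl⟩, ut_us S ⟨s, hs⟩⟩
          · exact hR.map _
          · rintro _ ⟨w, hw, rfl⟩
            rw [ut_coe]
            exact w.1.2
        apply le_antisymm _ hle
        intro w hw
        have h2 : ut S w ∈ S := h1.le ⟨w, hw, rfl⟩
        refine ⟨⟨ut S w, h2⟩, ut_injective S ?_⟩
        rw [ut_us] }
  refine huv (comm_of_sylow SU ?_ P hP hPc u hu v hv)
  rintro _ ⟨s, rfl⟩ _ ⟨t, rfl⟩ h1 h2
  have e1 := det_of_comm h1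
  have e2 := det_of_comm h2
  rw [ut_us] at e1 e2
  have e3 := hT s s.2 t t.2 e1 e2
  rw [← map_mul, ← map_mul]
  congr 1
  exact Subtype.ext e3

/-- **Row (A)**, all primes. -/
theorem rowA2 (hpK : ¬ p ∣ Nat.card K) (S : Subgroup (V ≃ₗ[K] V)) (hS : IsPGroup p S)
    (hmax : H951.MaxIn p S)
    (hT : ∀ x ∈ S, ∀ y ∈ S, LinearMap.det (x : V →ₗ[K] V) = 1 →
      LinearMap.det (y : V →ₗ[K] V) = 1 → x * y = y * x) : ∀ x ∈ S, ∀ y ∈ S, x * y = y * x :=
  lemmaD_all hpK S hS hmax hT

end

end Vale.Agent.P180.H897.MatD
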