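import Vale.Agent.P180.H897.C1
import Vale.Agent.P180.H568.Inst

/-!
P180 theorem A, block C1 (helper897): the multiplicity bound, with the positive self-adjoint Hopf
algebra of all general linear groups over a finite field.
-/

set_option linter.all false

namespace Vale.Agent.P180.H897

universe u

open Vale.Agent.P180 Vale.Agent.P180.R2.H799 Vale.Agent.P180.H393 Vale.Agent.P180.H951
open Module (finrank)

/-- **Block C1.** For an irreducible character `χ` of `GL(V)`, a parabolic subgroup `MU` and an
idempotent `x` of `K[M]` the number `χ(e_U x)` is natural and at most `t! dim x K[M] x`. -/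
theorem c1 {K : Type u} [Field K] [IsAlgClosed K] [CharZero K] {F : Type} [Field F] [Finite F]
    {V : Type} [AddCommGroup V] [Module F V] [Finite V] [Fintype (V ≃ₗ[F] V)]
    {M U : Subgroup (V ≃ₗ[F] V)} {t : ℕ} (h : IsLevi F V M U t) (χ : (V ≃ₗ[F] V) → K)
    (hχ : IsIr K (V ≃ₗ[F] V) χ) (x : MonoidAlgebra K (V ≃ₗ[F] V)) (hx : x ∈ SubAlg K M)
    (hxx : x * x = x) :
    ∃ m : ℕ, ev χ (BN.av K U * x) = m ∧
      m ≤ t.factorial * finrank K (NN (SubAlg K M) x x) := by
  classical
  exact c1_of (P := Vale.Agent.P180.H568.glPSH K F) (fun _ _ _ => rfl) (fun _ => rfl) h hχ hx hxx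

end Vale.Agent.P180.H897
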