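import Mathlib

/-!
P180, abstract TOWER THEOREM, combinatorial part (helper897).
-/

set_option linter.all false

namespace Vale.Agent.P180.H897

section

variable {Λ : Type*} [DecidableEq Λ] {I : ℕ → Type*} [∀ i, Fintype (I i)] [∀ i, DecidableEq (I i)]
  {m : ℕ} {M : ∀ i, Λ → I (i + 1) → I i → ℕ}

/-- the numerical input -/
structure Num (m : ℕ) (M : ∀ i, Λ → I (i + 1) → I i → ℕ) : Prop where
  hA : ∀ i, i + 1 < m → ∀ l χ ψ φ, M (i + 1) l χ ψ * M i l ψ φ = 0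
  hD0 : 0 < m → ∀ l l' ψ θ, ∑ χ, M 0 l χ ψ * M 0 l' χ θ ≤ if l = l' ∧ ψ = θ then 1 else 0
  hD : ∀ i, i + 1 < m → ∀ l l' ψ θ, ∑ χ, M (i + 1) l χ ψ * M (i + 1) l' χ θ ≤
    (if l = l' ∧ ψ = θ then 1 else 0) + ∑ φ, M i l' ψ φ * M i l θ φ

theorem le_sum_one {ι : Type*} [Fintype ι] (f : ι → ℕ) (i : ι) : f i ≤ ∑ j, f j :=
  Finset.single_le_sum (f := f) (fun _ _ => Nat.zero_le _) (Finset.mem_univ i)

theorem exists_ne_of_pos {ι : Type*} [Fintype ι] {f g : ι → ℕ} (h : 1 ≤ ∑ j, f j * g j) :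
    ∃ j, f j ≠ 0 ∧ g j ≠ 0 := by
  by_contra hc
  push Not at hc
  have : ∑ j, f j * g j = 0 := Finset.sum_eq_zero fun j _ => by
    by_cases h1 : f j = 0
    · rw [h1, zero_mul]
    · rw [hc j h1, mul_zero]
  omega

/-- the content of an irreducible -/
noncomputable def cont (M : ∀ i, Λ → I (i + 1) → I i → ℕ) : ∀ i, I i → Multiset Λ
  | 0 => fun _ => 0
  | i + 1 => fun χ => by
      classical
      exact if h : ∃ p : Λ × I i, M i p.1 χ p.2 ≠ 0 then
        h.choose.1 ::ₘ cont M i h.choose.2 else 0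

theorem cont_succ (M : ∀ i, Λ → I (i + 1) → I i → ℕ) (i : ℕ) {χ : I (i + 1)}
    (h : ∃ p : Λ × I i, M i p.1 χ p.2 ≠ 0) : ∃ l' θ, M i l' χ θ ≠ 0 ∧
      cont M (i + 1) χ = l' ::ₘ cont M i θ := by
  classical
  refine ⟨h.choose.1, h.choose.2, h.choose_spec, ?_⟩
  rw [cont]
  exact dif_pos h

theorem Num.cont_eq (hN : Num m M) : ∀ i < m, ∀ l χ ψ, M i l χ ψ ≠ 0 →
    cont M (i + 1) χ = l ::ₘ cont M i ψ := by
  intro i
  induction i with
  | zero =>
    intro hi l χ ψ h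
    obtain ⟨l', θ, h', hc⟩ := cont_succ M 0 ⟨(l, ψ), h⟩
    rw [hc]
    have h1 := hN.hD0 hi l l' ψ θ
    have h2 : M 0 l χ ψ * M 0 l' χ θ ≤ _ := le_sum_one (fun χ => M 0 l χ ψ * M 0 l' χ θ) χ
    have h3 : M 0 l χ ψ * M 0 l' χ θ ≠ 0 := mul_ne_zero h h'
    by_cases hE : l = l' ∧ ψ = θ
    · rw [hE.1, hE.2]
    · rw [if_neg hE] at h1
      omega
  | succ i ih =>
    intro hi l χ ψ h
    obtain ⟨l', θ, h', hc⟩ := cont_succ M (i + 1) ⟨(l, ψ), h⟩
    rw [hc]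
    have h1 := hN.hD i hi l l' ψ θ
    have h2 : M (i + 1) l χ ψ * M (i + 1) l' χ θ ≤ _ :=
      le_sum_one (fun χ => M (i + 1) l χ ψ * M (i + 1) l' χ θ) χ
    have h3 : M (i + 1) l χ ψ * M (i + 1) l' χ θ ≠ 0 := mul_ne_zero h h'
    by_cases hE : l = l' ∧ ψ = θ
    · rw [hE.1, hE.2]
    · rw [if_neg hE] at h1
      have h4 : 1 ≤ ∑ φ, M i l' ψ φ * M i l θ φ := by omega
      obtain ⟨φ, h5, h6⟩ := exists_ne_of_pos h4
      rw [ih (by omega) l' ψ φ h5, ih (by omega) l θ φ h6, Multiset.cons_swap]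

theorem Num.unique (hN : Num m M) : ∀ i < m, ∀ l χ ψ θ, M i l χ ψ ≠ 0 → M i l χ θ ≠ 0 → ψ = θ := by
  intro i hi l χ ψ θ h h'
  by_contra hne
  rcases i with _ | i
  · have h1 := hN.hD0 hi l l ψ θ
    have h2 : M 0 l χ ψ * M 0 l χ θ ≤ _ := le_sum_one (fun χ => M 0 l χ ψ * M 0 l χ θ) χ
    have h3 : M 0 l χ ψ * M 0 l χ θ ≠ 0 := mul_ne_zero h h'
    rw [if_neg (fun hE => hne hE.2)] at h1
    omega
  · have h1 := hN.hD i hi l l ψ θ
    have h2 : M (i + 1) l χ ψ * M (i + 1) l χ θ ≤ _ :=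
      le_sum_one (fun χ => M (i + 1) l χ ψ * M (i + 1) l χ θ) χ
    have h3 : M (i + 1) l χ ψ * M (i + 1) l χ θ ≠ 0 := mul_ne_zero h h'
    rw [if_neg (fun hE => hne hE.2)] at h1
    have h4 : 1 ≤ ∑ φ, M i l ψ φ * M i l θ φ := by omega
    obtain ⟨φ, h5, h6⟩ := exists_ne_of_pos h4
    have h7 := hN.hA i hi l χ ψ φ
    rcases mul_eq_zero.1 h7 with h8 | h8
    · exact h h8
    · exact h5 h8

theorem Num.le_one (hN : Num m M) : ∀ i < m, ∀ l χ ψ, M i l χ ψ ≤ 1 := by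
  intro i hi l χ ψ
  have hsq : ∀ n : ℕ, n * n ≤ 1 → n ≤ 1 := by
    intro n hn
    nlinarith
  rcases i with _ | i
  · have h1 := hN.hD0 hi l l ψ ψ
    have h2 : M 0 l χ ψ * M 0 l χ ψ ≤ _ := le_sum_one (fun χ => M 0 l χ ψ * M 0 l χ ψ) χ
    rw [if_pos ⟨rfl, rfl⟩] at h1
    exact hsq _ (h2.trans h1)
  · by_cases hz : ∃ φ, M i l ψ φ ≠ 0
    · obtain ⟨φ, h5⟩ := hz
      have h7 := hN.hA i hi l χ ψ φ
      rcases mul_eq_zero.1 h7 with h8 | h8
      · omega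
      · exact absurd h8 h5
    · push Not at hz
      have h1 := hN.hD i hi l l ψ ψ
      have h2 : M (i + 1) l χ ψ * M (i + 1) l χ ψ ≤ _ :=
        le_sum_one (fun χ => M (i + 1) l χ ψ * M (i + 1) l χ ψ) χ
      have h3 : ∑ φ, M i l ψ φ * M i l ψ φ = 0 := Finset.sum_eq_zero fun φ _ => by
        rw [hz φ, zero_mul]
      rw [if_pos ⟨rfl, rfl⟩, h3] at h1
      exact hsq _ (h2.trans h1)

theorem Num.sum_le (hN : Num m M) {i : ℕ} (hi : i < m) (l : Λ) (χ : I (i + 1)) {f : I i → ℕ}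
    {C : ℕ} (hf : ∀ ψ, f ψ ≤ C) : ∑ ψ, M i l χ ψ * f ψ ≤ C := by
  by_cases h : ∃ ψ, M i l χ ψ ≠ 0
  · obtain ⟨ψ, hψ⟩ := h
    rw [Finset.sum_eq_single ψ]
    · calc M i l χ ψ * f ψ ≤ 1 * C := Nat.mul_le_mul (hN.le_one i hi l χ ψ) (hf ψ)
        _ = C := one_mul C
    · intro θ _ hθ
      by_cases h' : M i l χ θ = 0
      · rw [h', zero_mul]
      · exact absurd (hN.unique i hi l χ θ ψ h' hψ) hθ
    · intro h
      exact absurd (Finset.mem_univ ψ) h
  · push Not at h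
    rw [Finset.sum_eq_zero fun ψ _ => by rw [h ψ, zero_mul]]
    exact Nat.zero_le _

/-- **the combinatorial part of the tower theorem** -/
theorem Num.word (hN : Num m M) {L : ℕ → Finset Λ} {i : ℕ} {W : ∀ N, I (i + N) → I i → ℕ}
    (hW0 : ∀ χ ψ, W 0 χ ψ = if χ = ψ then 1 else 0)
    (hW : ∀ N, i + N < m → ∀ χ ψ, W (N + 1) χ ψ =
      ∑ l ∈ L (i + N), ∑ χ', M (i + N) l χ χ' * W N χ' ψ) :
    ∀ N, i + N ≤ m → ∀ χ ψ, W N χ ψ ≤ N.factorial ∧
      (W N χ ψ ≠ 0 → ∃ s : Multiset Λ, s.card = N ∧ cont M (i + N) χ = s + cont M i ψ) := by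
  intro N
  induction N with
  | zero =>
    intro h χ ψ
    rw [hW0]
    by_cases hE : χ = ψ
    · rw [if_pos hE]
      refine ⟨le_refl _, fun _ => ⟨0, rfl, ?_⟩⟩
      rw [zero_add, hE]
      rfl
    · rw [if_neg hE]
      exact ⟨Nat.zero_le _, fun h => absurd rfl h⟩
  | succ N ih =>
    intro h χ ψ
    have hN1 : i + N < m := by omega
    have key : W (N + 1) χ ψ ≠ 0 → ∃ s : Multiset Λ, s.card = N + 1 ∧
        cont M (i + (N + 1)) χ = s + cont M i ψ := by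
      intro hne
      rw [hW N hN1] at hne
      obtain ⟨l, hl, h1⟩ := Finset.exists_ne_zero_of_sum_ne_zero hne
      obtain ⟨χ', _, h2⟩ := Finset.exists_ne_zero_of_sum_ne_zero h1
      obtain ⟨s, hs, hc⟩ := (ih (by omega) χ' ψ).2 (right_ne_zero_of_mul h2)
      refine ⟨l ::ₘ s, by rw [Multiset.card_cons, hs], ?_⟩
      have h3 := hN.cont_eq (i + N) hN1 l χ χ' (left_ne_zero_of_mul h2)
      rw [hc] at h3
      rw [Multiset.cons_add]
      exact h3
    refine ⟨?_, key⟩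
    by_cases hne : W (N + 1) χ ψ = 0
    · rw [hne]
      exact Nat.zero_le _
    · obtain ⟨s, hs, hc⟩ := key hne
      rw [hW N hN1]
      have h1 : ∀ l ∈ L (i + N), ∑ χ', M (i + N) l χ χ' * W N χ' ψ ≤
          if l ∈ s.toFinset then N.factorial else 0 := by
        intro l hl
        by_cases hls : l ∈ s.toFinset
        · rw [if_pos hls]
          exact hN.sum_le hN1 l χ fun χ' => (ih (by omega) χ' ψ).1
        · rw [if_neg hls]
          by_contra hpos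
          have hpos' : ∑ χ', M (i + N) l χ χ' * W N χ' ψ ≠ 0 := by omega
          obtain ⟨χ', _, h2⟩ := Finset.exists_ne_zero_of_sum_ne_zero hpos'
          obtain ⟨s', hs', hc'⟩ := (ih (by omega) χ' ψ).2 (right_ne_zero_of_mul h2)
          have h3 := hN.cont_eq (i + N) hN1 l χ χ' (left_ne_zero_of_mul h2)
          have h4 : s + cont M i ψ = (l ::ₘ s') + cont M i ψ := by
            rw [Multiset.cons_add, ← hc', ← h3]
            exact hc.symm
          have h5 : s = l ::ₘ s' := add_right_cancel h4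
          apply hls
          rw [h5, Multiset.mem_toFinset]
          exact Multiset.mem_cons_self l s'
      refine (Finset.sum_le_sum h1).trans ?_
      rw [← Finset.sum_filter, Finset.sum_const, smul_eq_mul, Nat.factorial_succ]
      refine Nat.mul_le_mul_right _ ?_
      refine (Finset.card_le_card (t := s.toFinset) ?_).trans ?_
      · intro l hl
        exact (Finset.mem_filter.1 hl).2
      · exact (Multiset.toFinset_card_le s).trans (le_of_eq hs)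

end

end Vale.Agent.P180.H897
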