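import Vale.Agent.P180.H897.TowFam
import Vale.Agent.P180.H897.TowComb

/-!
P180, the abstract TOWER THEOREM (helper897).
-/

set_option linter.all false

namespace Vale.Agent.P180.H897

universe u

open Finset Vale.Agent.P180 Vale.Agent.P180.R2.H799 Vale.Agent.P180.R2.H471.Hc
open Vale.Agent.P180.R2.H12.Sl
open Vale.Agent.P180.H393 (IsIr IsCF ev)
open Vale.Agent.P180.H337

section alg

variable {K : Type u} [Field K] {A : Type*} [Ring A] [Algebra K A] {B : ℕ → Subalgebra K A}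
  {m : ℕ} {E X T : ℕ → A} {a b c : ℕ → K}

/-- the rescaling factors -/
noncomputable def gg (b c : ℕ → K) : ℕ → K
  | 0 => 1
  | i + 1 => gg b c i * (c i / b i)

theorem Tow.gg_ne (hT : Tow K B m E X T a b c) : ∀ i < m, gg b c i ≠ 0 := by
  intro i
  induction i with
  | zero => exact fun _ => one_ne_zero
  | succ i ih =>
    intro hi
    exact mul_ne_zero (ih (by omega)) (div_ne_zero (hT.c_ne i hi) (hT.b_ne i hi))

theorem Tow.exists_spec' (hT : Tow K B m E X T a b c) (i : ℕ) (hi : i < m) :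
    ∃ (L : Finset K) (P : K → A), Spec (E i) (gg b c i • X i) L P := by
  obtain ⟨L, P, h⟩ := exists_spec (hT.EX i hi) (hT.X_inv i hi) (hT.X_diag i hi)
  exact h.smul (hT.gg_ne i hi)

theorem Tow.P_mem (hT : Tow K B m E X T a b c) {i : ℕ} (hi : i < m) {L : Finset K} {P : K → A}
    (h : Spec (E i) (gg b c i • X i) L P) (l : K) : P l ∈ B (i + 1) := by
  have h1 : Algebra.adjoin K {gg b c i • X i} ≤ B (i + 1) := by
    apply Algebra.adjoin_le
    intro z hz
    rw [Set.mem_singleton_iff.1 hz]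
    exact Subalgebra.smul_mem _ (hT.X_mem i hi) _
  exact h1 (h.adj l)

theorem Tow.P_comm (hT : Tow K B m E X T a b c) {i : ℕ} (hi : i < m) {L : Finset K} {P : K → A}
    (h : Spec (E i) (gg b c i • X i) L P) (l : K) (x : A) (hx : x ∈ B i) :
    P l * x = x * P l := by
  refine comm_adjoin ?_ (h.adj l)
  rw [smul_mul_assoc, hT.X_comm i hi x hx, mul_smul_comm]

theorem Tow.step (hT : Tow K B m E X T a b c) {i : ℕ} (hi : i + 1 < m) {L' L : Finset K}
    {P' P : K → A} (h' : Spec (E i) (gg b c i • X i) L' P')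
    (h : Spec (E (i + 1)) (gg b c (i + 1) • X (i + 1)) L P) :
    Step (B i) (B (i + 1)) (B (i + 2)) (E i) (gg b c i • X i) (E (i + 1))
      (gg b c (i + 1) • X (i + 1)) (T i) (a i) L' L P' P := by
  have hi' : i < m := by omega
  have hE'm := hT.E_mem i hi'
  have hX'm := hT.X_mem i hi'
  have hEE' : E (i + 1) * E i = E i * E (i + 1) := hT.E_comm (i + 1) hi _ hE'm
  have hXE' : X (i + 1) * E i = E i * X (i + 1) := hT.X_comm (i + 1) hi _ hE'm
  have hEX' : E (i + 1) * X i = X i * E (i + 1) := hT.E_comm (i + 1) hi _ hX'm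
  have hE'T : E i * T i = T i := by
    have h1 := hT.ET i hi
    have h2 : E i * (E (i + 1) * E i) = E (i + 1) * E i := by
      rw [hEE', ← mul_assoc, hT.EE i hi']
    calc E i * T i = E i * (E (i + 1) * E i * T i) := by rw [h1]
      _ = (E i * (E (i + 1) * E i)) * T i := (mul_assoc _ _ _).symm
      _ = T i := by rw [h2, h1]
  have hTE' : T i * E i = T i := by
    have h1 := hT.TE i hi
    calc T i * E i = T i * (E (i + 1) * E i) * E i := by rw [h1]
      _ = T i * (E (i + 1) * (E i * E i)) := by simp only [mul_assoc]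
      _ = T i := by rw [hT.EE i hi', h1]
  have hET : E (i + 1) * T i = T i := by
    have h1 := hT.ET i hi
    rw [mul_assoc, hE'T] at h1
    exact h1
  have hTE : T i * E (i + 1) = T i := by
    have h1 := hT.TE i hi
    rw [hEE', ← mul_assoc, hTE'] at h1
    exact h1
  have hb := hT.b_ne i hi
  have hc := hT.c_ne i hi
  -- the two relations
  have r1 : c i • (X (i + 1) * T i) = (a i * c i) • (X (i + 1) * E i) + b i • (T i * X i) := by
    have e1 : T i * X i * T i * T i = c i • (X (i + 1) * T i) := by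
      rw [hT.TXT i hi, smul_mul_assoc, mul_assoc, hE'T]
    have e2 : T i * X i * T i * T i = (a i * c i) • (X (i + 1) * E i) + b i • (T i * X i) := by
      rw [mul_assoc, hT.TT i hi, mul_add, mul_smul_comm, mul_smul_comm, hT.TXT i hi, smul_smul]
      congr 2
      rw [mul_assoc, ← mul_assoc (X i), ← hEX', mul_assoc (E (i + 1)), hT.XE i hi', ← mul_assoc, hTE]
    rw [← e1, e2]
  have r2 : c i • (T i * X (i + 1)) = (a i * c i) • (X (i + 1) * E i) + b i • (X i * T i) := by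
    have e1 : T i * (T i * X i * T i) = c i • (T i * X (i + 1)) := by
      rw [hT.TXT i hi, mul_smul_comm, hXE', ← mul_assoc, hTE']
    have e2 : T i * (T i * X i * T i) = (a i * c i) • (X (i + 1) * E i) + b i • (X i * T i) := by
      have e3 : T i * (T i * X i * T i) = (T i * T i) * (X i * T i) := by simp only [mul_assoc]
      rw [e3, hT.TT i hi, add_mul, smul_mul_assoc, smul_mul_assoc, ← mul_assoc (T i), hT.TXT i hi,
        smul_smul]
      congr 2
      rw [mul_assoc, ← mul_assoc (E i), hT.EX i hi', ← mul_assoc, hEX', mul_assoc, hET]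
    rw [← e1, e2]
  have hg : gg b c (i + 1) * (c i)⁻¹ * b i = gg b c i := by
    change gg b c i * (c i / b i) * (c i)⁻¹ * b i = gg b c i
    field_simp
  have hg2 : gg b c (i + 1) * (c i)⁻¹ * c i = gg b c (i + 1) := by
    rw [mul_assoc, inv_mul_cancel₀ hc, mul_one]
  refine ⟨hT.mono i hi', hT.mono (i + 1) hi, h', h, hT.P_mem hi' h', hT.P_mem hi h, hT.T_mem i hi,
    hT.P_comm hi' h', hT.P_comm hi h, hT.T_comm i hi, Subalgebra.smul_mem _ hX'm _, hE'm, hE'T,
    hTE', hT.a_ne i hi, ?_, ?_⟩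
  · have e1 := congrArg (fun z => (gg b c (i + 1) * (c i)⁻¹) • z) r1
    beta_reduce at e1
    rw [smul_add, smul_smul, smul_smul, smul_smul, hg, hg2] at e1
    rw [smul_mul_assoc, smul_mul_assoc, mul_smul_comm, smul_smul, e1]
    congr 2
    rw [← hg2]
    field_simp
  · have e1 := congrArg (fun z => (gg b c (i + 1) * (c i)⁻¹) • z) r2
    beta_reduce at e1
    rw [smul_add, smul_smul, smul_smul, smul_smul, hg, hg2] at e1
    rw [mul_smul_comm, smul_mul_assoc, smul_mul_assoc, smul_smul, e1]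
    congr 2
    rw [← hg2]
    field_simp

theorem Tow.gen0' (hT : Tow K B m E X T a b c) (hm : 0 < m) (x : A) (hx : x ∈ B 1) :
    E 0 * x * E 0 ∈ Submodule.span K {z | ∃ y ∈ B 0, z = y * E 0 ∨ z = y * gg b c 0 • X 0} := by
  refine Submodule.span_mono ?_ (hT.gen0 hm x hx)
  rintro z ⟨y, hy, hz | hz⟩
  · exact ⟨y, hy, Or.inl hz⟩
  · refine ⟨(gg b c 0)⁻¹ • y, Subalgebra.smul_mem _ hy _, Or.inr ?_⟩
    rw [hz, smul_mul_assoc, mul_smul_comm, inv_smul_smul₀ (hT.gg_ne 0 hm)]

theorem Tow.gen' (hT : Tow K B m E X T a b c) (i : ℕ) (hi : i + 1 < m) (x : A)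
    (hx : x ∈ B (i + 2)) : E (i + 1) * x * E (i + 1) ∈
      Submodule.span K {z | ∃ y ∈ B (i + 1), ∃ y' ∈ B (i + 1), z = y * E (i + 1) ∨
        z = y * gg b c (i + 1) • X (i + 1) ∨ z = y * T i * y'} := by
  refine Submodule.span_mono ?_ (hT.gen i hi x hx)
  rintro z ⟨y, hy, y', hy', hz | hz | hz⟩
  · exact ⟨y, hy, y', hy', Or.inl hz⟩
  · refine ⟨(gg b c (i + 1))⁻¹ • y, Subalgebra.smul_mem _ hy _, y', hy', Or.inr (Or.inl ?_)⟩
    rw [hz, smul_mul_assoc, mul_smul_comm, inv_smul_smul₀ (hT.gg_ne (i + 1) hi)]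
  · exact ⟨y, hy, y', hy', Or.inr (Or.inr hz)⟩

theorem Tow.EEp_mem (hT : Tow K B m E X T a b c) (i : ℕ) : ∀ N, i + N ≤ m →
    EEp E i N ∈ B (i + N) := by
  intro N
  induction N with
  | zero => exact fun _ => Subalgebra.one_mem _
  | succ N ih =>
    intro h
    exact Subalgebra.mul_mem _ (hT.E_mem (i + N) (by omega))
      (hT.mono (i + N) (by omega) (ih (by omega)))

theorem Tow.le_add (hT : Tow K B m E X T a b c) (i : ℕ) : ∀ N, i + N ≤ m →
    B i ≤ B (i + N) := by
  intro N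
  induction N with
  | zero => exact fun _ => le_refl _
  | succ N ih =>
    intro h
    exact (ih (by omega)).trans (hT.mono (i + N) (by omega))

theorem Tow.EEp_comm (hT : Tow K B m E X T a b c) (i : ℕ) : ∀ N, i + N ≤ m → ∀ x ∈ B i,
    EEp E i N * x = x * EEp E i N := by
  intro N
  induction N with
  | zero =>
    intro _ x _
    change 1 * x = x * 1
    rw [one_mul, mul_one]
  | succ N ih =>
    intro h x hx
    change E (i + N) * EEp E i N * x = x * (E (i + N) * EEp E i N)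
    rw [mul_assoc, ih (by omega) x hx, ← mul_assoc,
      hT.E_comm (i + N) (by omega) x (hT.le_add i N (by omega) hx), mul_assoc]

end alg

section main

/-- weights of the words -/
noncomputable def WW {Λ : Type*} {I : ℕ → Type*} [∀ i, Fintype (I i)] [∀ i, DecidableEq (I i)]
    (M : ∀ i, Λ → I (i + 1) → I i → ℕ) (L : ℕ → Finset Λ) (i : ℕ) : ∀ N, I (i + N) → I i → ℕ
  | 0 => fun χ ψ => if χ = ψ then 1 else 0
  | N + 1 => fun χ ψ => ∑ l ∈ L (i + N), ∑ χ', M (i + N) l χ χ' * WW M L i N χ' ψ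

variable {K : Type u} [Field K] [IsAlgClosed K] [CharZero K] {Γ : Type} [Group Γ] [Fintype Γ]

theorem finrank_NN_ev {S : Subgroup Γ} [Fintype S] {x y : MonoidAlgebra K Γ}
    (hx : x ∈ SubAlg K S) (hy : y ∈ SubAlg K S) (hxx : x * x = x) (hyy : y * y = y) :
    ((Module.finrank K (NN (SubAlg K S) x y) : ℕ) : K) =
      ∑ χ : IrK K S, ev χ.1 (rs S x) * ev χ.1 (rs S y) := by
  rw [finrank_NN_rs hx hy]
  exact finrank_NN_top (rs_idem hx hxx) (rs_idem hy hyy)

theorem ev_rs_tr {S : Subgroup Γ} [Fintype S] (χ : IrK K S) {x y : MonoidAlgebra K Γ}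
    (hx : x ∈ SubAlg K S) (hy : y ∈ SubAlg K S) :
    ev χ.1 (rs S (x * y)) = ev χ.1 (rs S (y * x)) := by
  rw [rs_mul hx, rs_mul hy]
  exact ev_tr (fun x y => χ.2.1.conj x y) _ _

/-- **THE TOWER THEOREM** -/
theorem Tow.ev_le {H : ℕ → Subgroup Γ} [∀ i, Fintype (H i)] {m : ℕ}
    {E X T : ℕ → MonoidAlgebra K Γ} {a b c : ℕ → K}
    (hT : Tow K (fun i => SubAlg K (H i)) m E X T a b c) {i N : ℕ} (h : i + N ≤ m)
    (χ : IrK K (H (i + N))) :
    ∃ n : IrK K (H i) → ℕ, (∀ ψ, n ψ ≤ N.factorial) ∧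
      ∀ x ∈ SubAlg K (H i), ev χ.1 (rs (H (i + N)) (EEp E i N * x)) =
        ∑ ψ, (n ψ : K) * ev ψ.1 (rs (H i) x) := by
  classical
  have hfin : FiniteDimensional K (MonoidAlgebra K Γ) := finite_MA
  -- spectral data
  have hspec : ∀ i, ∃ (L : Finset K) (P : K → MonoidAlgebra K Γ), i < m →
      Spec (E i) (gg b c i • X i) L P := by
    intro i
    by_cases hi : i < m
    · obtain ⟨L, P, hh⟩ := hT.exists_spec' i hi
      exact ⟨L, P, fun _ => hh⟩
    · exact ⟨∅, fun _ => 0, fun hh => absurd hh hi⟩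
  choose L P hP using hspec
  -- primitive idempotents
  choose ep hep h1 h0 using fun i => exists_fam (K := K) (H i)
  have hPm : ∀ i < m, ∀ l, P i l ∈ SubAlg K (H (i + 1)) := fun i hi l => hT.P_mem hi (hP i hi) l
  have hPc : ∀ i < m, ∀ l, ∀ x ∈ SubAlg K (H i), P i l * x = x * P i l := fun i hi l x hx =>
    hT.P_comm hi (hP i hi) l x hx
  have hmono : ∀ i < m, SubAlg K (H i) ≤ SubAlg K (H (i + 1)) := fun i hi => hT.mono i hi
  have hidem : ∀ i < m, ∀ l ψ, (P i l * ep i ψ) * (P i l * ep i ψ) = P i l * ep i ψ := by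
    intro i hi l ψ
    rw [mul_assoc, ← mul_assoc (ep i ψ), ← hPc i hi l _ ((hep i).mem ψ), mul_assoc (P i l) (ep i ψ),
      (hep i).idem, ← mul_assoc, (hP i hi).idem]
  have hidem' : ∀ i < m, ∀ l ψ, (ep i ψ * P i l) * (ep i ψ * P i l) = ep i ψ * P i l := by
    intro i hi l ψ
    rw [← hPc i hi l _ ((hep i).mem ψ)]
    exact hidem i hi l ψ
  have hmemP : ∀ i < m, ∀ l ψ, P i l * ep i ψ ∈ SubAlg K (H (i + 1)) := fun i hi l ψ =>
    Subalgebra.mul_mem _ (hPm i hi l) (hmono i hi ((hep i).mem ψ))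
  -- multiplicities
  have hM : ∀ i l (χ : IrK K (H (i + 1))) (ψ : IrK K (H i)), ∃ n : ℕ, i < m →
      ev χ.1 (rs (H (i + 1)) (P i l * ep i ψ)) = n := by
    intro i l χ ψ
    by_cases hi : i < m
    · obtain ⟨n, hn⟩ := ev_nat χ.2 (rs_idem (hmemP i hi l ψ) (hidem i hi l ψ))
      exact ⟨n, fun _ => hn⟩
    · exact ⟨0, fun hh => absurd hh hi⟩
  choose M hM using hM
  -- dimension formulas
  have d1 : ∀ i < m, ∀ l u (ψ θ : IrK K (H i)),
      Module.finrank K (NN (SubAlg K (H (i + 1))) (ep i ψ * P i l) (P i u * ep i θ)) =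
        ∑ χ, M i l χ ψ * M i u χ θ := by
    intro i hi l u ψ θ
    have e1 : ep i ψ * P i l = P i l * ep i ψ := (hPc i hi l _ ((hep i).mem ψ)).symm
    have e2 := finrank_NN_ev (hmemP i hi l ψ) (hmemP i hi u θ) (hidem i hi l ψ) (hidem i hi u θ)
    rw [e1]
    have e3 : ((Module.finrank K (NN (SubAlg K (H (i + 1))) (P i l * ep i ψ)
        (P i u * ep i θ)) : ℕ) : K) = ((∑ χ, M i l χ ψ * M i u χ θ : ℕ) : K) := by
      rw [e2]
      push_cast
      refine Finset.sum_congr rfl fun χ _ => ?_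
      rw [hM i l χ ψ hi, hM i u χ θ hi]
    exact_mod_cast e3
  have d2 : ∀ i < m, ∀ u (ψ : IrK K (H (i + 1))) (φ : IrK K (H i)),
      Module.finrank K (NN (SubAlg K (H (i + 1))) (ep (i + 1) ψ) (P i u * ep i φ)) =
        M i u ψ φ := by
    intro i hi u ψ φ
    have e2 := finrank_NN_ev ((hep (i + 1)).mem ψ) (hmemP i hi u φ) ((hep (i + 1)).idem ψ)
      (hidem i hi u φ)
    rw [Finset.sum_eq_single ψ, h1 (i + 1) ψ, one_mul, hM i u ψ φ hi] at e2
    · exact_mod_cast e2
    · intro θ _ hne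
      rw [h0 (i + 1) θ ψ hne, zero_mul]
    · intro hh
      exact absurd (Finset.mem_univ ψ) hh
  have d3 : ∀ i < m, ∀ l (θ : IrK K (H (i + 1))) (φ : IrK K (H i)),
      Module.finrank K (NN (SubAlg K (H (i + 1))) (ep i φ * P i l) (ep (i + 1) θ)) =
        M i l θ φ := by
    intro i hi l θ φ
    have e1 : ep i φ * P i l = P i l * ep i φ := (hPc i hi l _ ((hep i).mem φ)).symm
    have e2 := finrank_NN_ev (hmemP i hi l φ) ((hep (i + 1)).mem θ) (hidem i hi l φ)
      ((hep (i + 1)).idem θ)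
    rw [Finset.sum_eq_single θ, h1 (i + 1) θ, mul_one, hM i l θ φ hi] at e2
    · rw [e1]
      exact_mod_cast e2
    · intro ψ _ hne
      rw [h0 (i + 1) ψ θ hne, mul_zero]
    · intro hh
      exact absurd (Finset.mem_univ θ) hh
  -- branching
  have br : ∀ i < m, ∀ (z : MonoidAlgebra K Γ), z ∈ SubAlg K (H (i + 1)) →
      (∀ x ∈ SubAlg K (H i), z * x = x * z) → ∀ (χ : IrK K (H (i + 1))),
      ∀ x ∈ SubAlg K (H i), ev χ.1 (rs (H (i + 1)) (z * x)) =
        ∑ ψ : IrK K (H i), ev χ.1 (rs (H (i + 1)) (z * ep i ψ)) * ev ψ.1 (rs (H i) x) := by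
    intro i hi z hz hzc χ x hx
    let t : MonoidAlgebra K Γ →ₗ[K] K := (evL χ.1) ∘ₗ (rsL (H (i + 1))) ∘ₗ (LinearMap.mulLeft K z)
    have ht : ∀ y, t y = ev χ.1 (rs (H (i + 1)) (z * y)) := fun y => rfl
    have e1 := tr_expand (S := H i) (hep i).mem (h1 i) (h0 i) t (by
      intro x hx y hy
      rw [ht, ht, ← mul_assoc, hzc x hx, mul_assoc, ev_rs_tr χ (hmono i hi hx)
        (Subalgebra.mul_mem _ hz (hmono i hi hy)), mul_assoc]) hx
    exact e1
  -- the numerical input
  have hN : Num (Λ := K) (I := fun i => IrK K (H i)) m M := by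
    refine ⟨?_, ?_, ?_⟩
    · intro i hi l χ ψ φ
      have hi' : i < m := by omega
      have hst := hT.step hi (hP i hi') (hP (i + 1) hi)
      by_cases hl : l = 0
      · have e1 : P (i + 1) l = 0 := (hP (i + 1) hi).off l (by rw [hl]; exact (hP (i + 1) hi).nz)
        have e2 := hM (i + 1) l χ ψ hi
        rw [e1, zero_mul] at e2
        have e3 : ev χ.1 (rs (H (i + 1 + 1)) (0 : MonoidAlgebra K Γ)) = 0 := by
          change ((evL χ.1) ∘ₗ (rsL (H (i + 1 + 1)))) 0 = 0
          rw [map_zero]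
        rw [e3] at e2
        have e4 : M (i + 1) l χ ψ = 0 := by exact_mod_cast e2.symm
        rw [e4, zero_mul]
      · have e1 := hst.PP' hl
        have e2 := br (i + 1) hi (P (i + 1) l) (hPm (i + 1) hi l) (hPc (i + 1) hi l) χ
          (P i l * ep i φ) (hmemP i hi' l φ)
        rw [← mul_assoc, e1, zero_mul] at e2
        have e3 : ev χ.1 (rs (H (i + 1 + 1)) (0 : MonoidAlgebra K Γ)) = 0 := by
          change ((evL χ.1) ∘ₗ (rsL (H (i + 1 + 1)))) 0 = 0
          rw [map_zero]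
        rw [e3] at e2
        have e4 : ∑ ψ', M (i + 1) l χ ψ' * M i l ψ' φ = 0 := by
          have e5 : ((∑ ψ', M (i + 1) l χ ψ' * M i l ψ' φ : ℕ) : K) = 0 := by
            push_cast
            rw [e2]
            refine Finset.sum_congr rfl fun ψ' _ => ?_
            rw [hM (i + 1) l χ ψ' hi, hM i l ψ' φ hi']
          exact_mod_cast e5
        exact (Finset.sum_eq_zero_iff.1 e4) ψ (Finset.mem_univ ψ)
    · intro hm l l' ψ θ
      rw [← d1 0 hm l l' ψ θ]
      exact finrank_le_bot (hP 0 hm) (hPc 0 hm) (hep 0) (hT.gen0' hm) l l' ψ θ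
    · intro i hi l l' ψ θ
      have hi' : i < m := by omega
      have hst := hT.step hi (hP i hi') (hP (i + 1) hi)
      have e1 := hst.finrank_le (hep i) (hep (i + 1)) (hT.gen' i hi) l l' ψ θ
      rw [d1 (i + 1) hi l l' ψ θ] at e1
      refine e1.trans (le_of_eq ?_)
      congr 1
      refine Finset.sum_congr rfl fun φ _ => ?_
      rw [d2 i hi' l' ψ φ, d3 i hi' l θ φ]
  -- the words
  let W := WW (I := fun i => IrK K (H i)) M L i
  have hW : ∀ N, i + N ≤ m → ∀ (χ : IrK K (H (i + N))) (ψ : IrK K (H i)),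
      ev χ.1 (rs (H (i + N)) (EEp E i N * ep i ψ)) = (W N χ ψ : K) := by
    intro N
    induction N with
    | zero =>
      intro _ χ ψ
      change ev χ.1 (rs (H i) (1 * ep i ψ)) = ((if (χ : IrK K (H i)) = ψ then 1 else 0 : ℕ) : K)
      rw [one_mul]
      by_cases hE : (χ : IrK K (H i)) = ψ
      · rw [if_pos hE, Nat.cast_one, ← h1 i ψ]
        congr 2
      · rw [if_neg hE, Nat.cast_zero]
        exact h0 i χ ψ hE
    | succ N ih =>
      intro hN1 χ ψ
      have hiN : i + N < m := by omega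
      have e1 : EEp E i (N + 1) * ep i ψ = E (i + N) * (EEp E i N * ep i ψ) := by
        change E (i + N) * EEp E i N * ep i ψ = _
        rw [mul_assoc]
      have e2 := br (i + N) hiN (E (i + N)) (hT.E_mem (i + N) hiN) (hT.E_comm (i + N) hiN) χ
        (EEp E i N * ep i ψ) (Subalgebra.mul_mem _ (hT.EEp_mem i N hiN.le)
          (hT.le_add i N hiN.le ((hep i).mem ψ)))
      have e3 : ∀ χ' : IrK K (H (i + N)), ev χ.1 (rs (H (i + N + 1)) (E (i + N) * ep (i + N) χ')) =
          ∑ l ∈ L (i + N), (M (i + N) l χ χ' : K) := by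
        intro χ'
        rw [← (hP (i + N) hiN).sum, Finset.sum_mul]
        change ((evL χ.1) ∘ₗ (rsL (H (i + N + 1)))) _ = _
        rw [map_sum]
        refine Finset.sum_congr rfl fun l _ => ?_
        exact hM (i + N) l χ χ' hiN
      change ev χ.1 (rs (H (i + N + 1)) (EEp E i (N + 1) * ep i ψ)) =
        ((∑ l ∈ L (i + N), ∑ χ', M (i + N) l χ χ' * W N χ' ψ : ℕ) : K)
      rw [e1, e2]
      push_cast
      rw [Finset.sum_comm]
      refine Finset.sum_congr rfl fun χ' _ => ?_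
      rw [e3 χ', ih hiN.le χ' ψ, Finset.sum_mul]
  have hbound := hN.word (L := L) (i := i) (W := W) (fun χ ψ => rfl) (fun N _ χ ψ => rfl)
  refine ⟨fun ψ => W N χ ψ, fun ψ => (hbound N h χ ψ).1, ?_⟩
  intro x hx
  let t : MonoidAlgebra K Γ →ₗ[K] K := (evL χ.1) ∘ₗ (rsL (H (i + N))) ∘ₗ
    (LinearMap.mulLeft K (EEp E i N))
  have ht : ∀ y, t y = ev χ.1 (rs (H (i + N)) (EEp E i N * y)) := fun y => rfl
  have hle : SubAlg K (H i) ≤ SubAlg K (H (i + N)) := hT.le_add i N h
  have hEm : EEp E i N ∈ SubAlg K (H (i + N)) := hT.EEp_mem i N h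
  have e1 := tr_expand (S := H i) (hep i).mem (h1 i) (h0 i) t (by
    intro x hx y hy
    rw [ht, ht, ← mul_assoc, hT.EEp_comm i N h x hx, mul_assoc, ev_rs_tr χ (hle hx)
      (Subalgebra.mul_mem _ hEm (hle hy)), mul_assoc]) hx
  rw [ht] at e1
  rw [e1]
  refine Finset.sum_congr rfl fun ψ _ => ?_
  rw [ht, hW N h χ ψ]

end main

end Vale.Agent.P180.H897
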