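import Vale.Agent.P180.H393.Cc
import Vale.Agent.P180.H337.Idem
import Vale.Agent.P180.H568.A3
import Vale.Agent.P180.H951.LevDef
import Vale.Agent.P180.R2.H799.BN3

/-!
P180 theorem A, block C1 (helper897): the multiplicity of an irreducible character of `GL(V)` in
the idempotent `e_U x`, `x` an idempotent of the group algebra of the Levi subgroup.
-/

set_option linter.all false

namespace Vale.Agent.P180.H897

universe u

open Finset Vale.Agent.P180 Vale.Agent.P180.R2.H799 Vale.Agent.P180.R2.H471.Hc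
open Vale.Agent.P180.H393 Vale.Agent.P180.H337 Vale.Agent.P180.H951 Vale.Agent.P180.H568
open Module (finrank)

section

variable {K : Type u} [Field K] {G : Type} [Group G] [Fintype G]

theorem ev_av0 (U : Subgroup G) [Fintype U] (χ : G → K) (x : MonoidAlgebra K G) :
    ev χ (BN.av K U * x) = ev (fun g => (Nat.card U : K)⁻¹ * ∑ u : U, χ ((u : G) * g)) x := by
  classical
  have h : evL χ ∘ₗ LinearMap.mulLeft K (BN.av K U) =
      evL (fun g => (Nat.card U : K)⁻¹ * ∑ u : U, χ ((u : G) * g)) := by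
    apply lin_ext
    intro g
    have h1 : BN.av K U = ((Nat.card U : K)⁻¹) • ∑ v : U, MonoidAlgebra.single (v : G) (1 : K) := by
      unfold BN.av
      congr 1
      refine Finset.sum_congr ?_ fun _ _ => rfl
      ext
      simp
    rw [LinearMap.comp_apply, LinearMap.mulLeft_apply, h1, smul_mul_assoc, map_smul, smul_eq_mul,
      Finset.sum_mul, map_sum, evL_apply (fun g => (Nat.card U : K)⁻¹ * ∑ u : U, χ ((u : G) * g)),
      ev_single, one_mul]
    congr 1
    refine Finset.sum_congr rfl fun v _ => ?_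
    rw [MonoidAlgebra.single_mul_single, one_mul, evL_apply, ev_single, one_mul]
  exact congrArg (fun f => f x) h

theorem ev_av (U M : Subgroup G) [Fintype U] [Fintype M] {x : MonoidAlgebra K G}
    (hx : x ∈ SubAlg K M) (χ : G → K) :
    ev χ (BN.av K U * x) =
      ev (fun m : M => (Nat.card U : K)⁻¹ * ∑ u : U, χ ((u : G) * (m : G))) (rs M x) := by
  rw [ev_av0, ← ev_rs hx]

end

section

variable {Ω : Type*} [DecidableEq Ω]

theorem cnt_deg (P : PSH Ω) (N : ℕ) (L : List Ω) : ∀ {π w : Ω}, P.cnt N L π w ≠ 0 →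
    P.deg w = P.deg π + (L.map P.deg).sum := by
  induction L with
  | nil =>
    intro π w h
    rw [PSH.cnt_nil] at h
    have hw : w = π := by
      by_contra h0
      rw [if_neg h0] at h
      exact h rfl
    rw [hw]
    simp
  | cons σ L ih =>
    intro π w h
    obtain ⟨s, hs, hs'⟩ := PSH.cnt_ne h
    rw [P.deg_c _ _ _ hs, ih hs', List.map_cons, List.sum_cons]
    omega

end

section Levi

variable {K : Type u} [Field K] [IsAlgClosed K] [CharZero K] {F : Type} [Field F] [Finite F]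
variable [DecidableEq (Om K F)]

/-- the restriction of the irreducible characters to the Levi subgroup -/
def LD (P : PSH (Om K F)) (V : Type) [AddCommGroup V] [Module F V]
    (M U : Subgroup (V ≃ₗ[F] V)) (t : ℕ) : Prop :=
  ∃ (I : Type u) (_ : Fintype I) (ψ : I → M → K) (π : I → Om K F) (l : I → List (Om K F)),
    (∀ i, ∀ (_ : Fintype M), IsIr K M (ψ i)) ∧ Function.Injective ψ ∧
    (∀ i, ((l i).map Om.deg).sum = t) ∧ (∀ i, (π i).deg + t = finrank F V) ∧
    ∀ N, finrank F V ≤ N → ∀ (w : Om K F) (m : M) (_ : Fintype U),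
      (Nat.card U : K)⁻¹ * ∑ u : U, X w V ((u : V ≃ₗ[F] V) * (m : V ≃ₗ[F] V)) =
        ∑ i, (P.cnt N (l i) (π i) w : K) * ψ i m

variable {P : PSH (Om K F)}

theorem ld_base (V : Type) [AddCommGroup V] [Module F V] [Finite V] :
    LD P V (⊤ : Subgroup (V ≃ₗ[F] V)) ⊥ 0 := by
  refine ⟨↥(OmS K F (finrank F V)), inferInstance, fun w m => X w.1 V m, fun w => w.1,
    fun _ => [], ?_, ?_, ?_, ?_, ?_⟩
  · intro w _
    exact IsIr.comp_equiv (X_isIr (V := V) (mem_OmS.mp w.2).symm) Subgroup.topEquiv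
  · intro w w' h
    apply Subtype.ext
    refine X_inj (V := V) (mem_OmS.mp w.2).symm (mem_OmS.mp w'.2).symm ?_
    funext g
    exact congrFun h ⟨g, trivial⟩
  · intro _
    rfl
  · intro w
    exact mem_OmS.mp w.2
  · intro N hN w m _
    have h1 : ∑ u : (⊥ : Subgroup (V ≃ₗ[F] V)), X w V ((u : V ≃ₗ[F] V) * (m : V ≃ₗ[F] V)) =
        X w V (m : V ≃ₗ[F] V) := by
      rw [Finset.sum_eq_single (1 : (⊥ : Subgroup (V ≃ₗ[F] V)))]
      · rw [Subgroup.coe_one, one_mul]
      · intro b _ hb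
        exact absurd (Subsingleton.elim b 1) hb
      · intro h
        exact absurd (Finset.mem_univ _) h
    rw [h1, Subgroup.card_bot, Nat.cast_one, inv_one, one_mul]
    by_cases hw : w ∈ OmS K F (finrank F V)
    · rw [Finset.sum_eq_single (⟨w, hw⟩ : ↥(OmS K F (finrank F V)))]
      · rw [PSH.cnt_nil, if_pos rfl, Nat.cast_one, one_mul]
      · intro b _ hb
        rw [PSH.cnt_nil, if_neg (fun h => hb (Subtype.ext h.symm)), Nat.cast_zero, zero_mul]
      · intro h
        exact absurd (Finset.mem_univ _) h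
    · rw [X_zero w (fun h => hw (mem_OmS.mpr h.symm)), Finset.sum_eq_zero]
      intro b _
      rw [PSH.cnt_nil, if_neg (fun h => hw (by rw [h]; exact b.2)), Nat.cast_zero, zero_mul]

theorem ld_trans {V V' : Type} [AddCommGroup V] [Module F V] [AddCommGroup V'] [Module F V']
    (e : V ≃ₗ[F] V') {M U : Subgroup (V ≃ₗ[F] V)} {t : ℕ} (h : LD P V M U t) :
    LD P V' (M.map (cE e).toMonoidHom) (U.map (cE e).toMonoidHom) t := by
  classical
  obtain ⟨I, iI, ψ, π, l, h1, h2, h3, h4, h5⟩ := h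
  have hinj : Function.Injective (cE e).toMonoidHom := (cE e).injective
  let eM := M.equivMapOfInjective _ hinj
  let eU := U.equivMapOfInjective _ hinj
  refine ⟨I, iI, fun i m => ψ i (eM.symm m), π, l, ?_, ?_, h3, ?_, ?_⟩
  · intro i _
    letI : Fintype M := Fintype.ofEquiv _ eM.symm.toEquiv
    exact IsIr.comp_equiv (h1 i _) eM.symm
  · intro i j hij
    apply h2
    funext m
    have := congrFun hij (eM m)
    simp only [MulEquiv.symm_apply_apply] at this
    exact this
  · intro i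
    rw [h4 i, e.finrank_eq]
  · intro N hN w m iU
    letI : Fintype U := Fintype.ofEquiv _ eU.symm.toEquiv
    obtain ⟨m, rfl⟩ := eM.surjective m
    rw [← e.finrank_eq] at hN
    simp only [MulEquiv.symm_apply_apply]
    rw [← h5 N hN w m inferInstance, ← Nat.card_congr eU.toEquiv]
    congr 1
    rw [← Equiv.sum_comp eU.toEquiv]
    refine Finset.sum_congr rfl fun u _ => ?_
    rw [← X_cg w e, map_mul]
    rfl

omit [IsAlgClosed K] [CharZero K] [DecidableEq (Om K F)] [Finite F] in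
/-- translation of the unipotent part -/
theorem sum_sk {V W : Type} [AddCommGroup V] [Module F V] [AddCommGroup W] [Module F W]
    [Finite V] [Finite W] (θ : ((V × W) ≃ₗ[F] (V × W)) → K) (u a : V ≃ₗ[F] V) (b : W ≃ₗ[F] W) :
    ∑ f : V →ₗ[F] W, θ (sk u 1 f * sk a b 0) = ∑ f : V →ₗ[F] W, θ (sk (u * a) b f) := by
  let E : (V →ₗ[F] W) ≃ (V →ₗ[F] W) :=
    { toFun := fun f => f ∘ₗ (a : V →ₗ[F] V)
      invFun := fun f => f ∘ₗ (a.symm : V →ₗ[F] V)
      left_inv := fun f => by ext y; simp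
      right_inv := fun f => by ext y; simp }
  rw [← Equiv.sum_comp E (fun f => θ (sk (u * a) b f))]
  refine Finset.sum_congr rfl fun f _ => ?_
  rw [sk_mul, one_mul, LinearMap.comp_zero, zero_add]
  rfl

/-- the recursion of the multiplicities -/
theorem cnt_step (hc : ∀ a b w, P.c a b w = cc a b w) (hd : ∀ w, P.deg w = w.deg) {n t N : ℕ}
    (hn : n ≤ N) {l : List (Om K F)} {π : Om K F} (hl : (l.map Om.deg).sum = t)
    (hπ : π.deg + t = n) (b w : Om K F) :
    ∑ a ∈ OmS K F n, cc a b w * P.cnt N l π a = P.cnt N (b :: l) π w := by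
  have hsub : OmS K F n ⊆ P.W N := by
    intro a ha
    rw [P.mem_W, hd, mem_OmS.mp ha]
    exact hn
  rw [PSH.cnt_cons, ← Finset.sum_subset hsub]
  · refine Finset.sum_congr rfl fun a _ => ?_
    rw [P.comm b a w, hc]
  · intro a _ ha
    by_cases h0 : P.cnt N l π a = 0
    · rw [h0, mul_zero]
    · exfalso
      apply ha
      rw [mem_OmS, ← hd, cnt_deg P N l h0, hd, ← hπ, ← hl]
      congr 2
      exact List.map_congr_left fun x _ => hd x

theorem ld_step (hc : ∀ a b w, P.c a b w = cc a b w) (hd : ∀ w, P.deg w = w.deg)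
    {V W : Type} [AddCommGroup V] [Module F V] [AddCommGroup W] [Module F W]
    [Finite V] [Finite W] {M U : Subgroup (V ≃ₗ[F] V)} {t : ℕ} (h : LD P V M U t)
    {M' U' : Subgroup ((V × W) ≃ₗ[F] (V × W))}
    (hM : ∀ g, g ∈ M' ↔ ∃ a ∈ M, ∃ b : W ≃ₗ[F] W, g = sk a b 0)
    (hU : ∀ g, g ∈ U' ↔ ∃ u ∈ U, ∃ f : V →ₗ[F] W, g = sk u 1 f) :
    LD P (V × W) M' U' (t + finrank F W) := by
  classical
  obtain ⟨I, iI, ψ, π, l, h1, h2, h3, h4, h5⟩ := h
  letI iM : Fintype M := Fintype.ofFinite M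
  letI iU : Fintype U := Fintype.ofFinite U
  -- the Levi subgroup
  let φ : M × (W ≃ₗ[F] W) →* M' :=
    { toFun := fun x => ⟨sk x.1 x.2 0, (hM _).mpr ⟨x.1, x.1.2, x.2, rfl⟩⟩
      map_one' := Subtype.ext sk_one
      map_mul' := fun x y => Subtype.ext (by
        change sk (x.1 * y.1 : V ≃ₗ[F] V) (x.2 * y.2) 0 = sk (x.1 : V ≃ₗ[F] V) x.2 0 *
          sk (y.1 : V ≃ₗ[F] V) y.2 0
        rw [sk_mul, LinearMap.comp_zero, LinearMap.zero_comp, add_zero]) }
  have hφ : Function.Bijective φ := by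
    constructor
    · rintro ⟨a, b⟩ ⟨a', b'⟩ hh
      have h6 : sk (a : V ≃ₗ[F] V) b 0 = sk (a' : V ≃ₗ[F] V) b' 0 := congrArg Subtype.val hh
      obtain ⟨e1, e2, -⟩ := sk_inj h6
      exact Prod.ext (Subtype.ext e1) e2
    · rintro ⟨g, hg⟩
      obtain ⟨a, ha, b, rfl⟩ := (hM g).mp hg
      exact ⟨(⟨a, ha⟩, b), rfl⟩
  let e : M × (W ≃ₗ[F] W) ≃* M' := MulEquiv.ofBijective φ hφ
  -- the radical
  let EU : U × (V →ₗ[F] W) ≃ U' :=
    Equiv.ofBijective (fun x => ⟨sk (x.1 : V ≃ₗ[F] V) 1 x.2, (hU _).mpr ⟨x.1, x.1.2, x.2, rfl⟩⟩)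
      (by
        constructor
        · rintro ⟨a, b⟩ ⟨a', b'⟩ hh
          have h6 : sk (a : V ≃ₗ[F] V) 1 b = sk (a' : V ≃ₗ[F] V) (1 : W ≃ₗ[F] W) b' :=
            congrArg Subtype.val hh
          obtain ⟨e1, -, e2⟩ := sk_inj h6
          exact Prod.ext (Subtype.ext e1) e2
        · rintro ⟨g, hg⟩
          obtain ⟨a, ha, b, rfl⟩ := (hU g).mp hg
          exact ⟨(⟨a, ha⟩, b), rfl⟩)
  have hX : ∀ b : ↥(OmS K F (finrank F W)), IsIr K _ (X b.1 W) := fun b =>
    X_isIr (mem_OmS.mp b.2).symm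
  refine ⟨I × ↥(OmS K F (finrank F W)), inferInstance,
    fun i g => ψ i.1 (e.symm g).1 * X i.2.1 W (e.symm g).2, fun i => π i.1,
    fun i => i.2.1 :: l i.1, ?_, ?_, ?_, ?_, ?_⟩
  · intro i _
    exact IsIr.comp_equiv (IsIr.prod (h1 i.1 iM) (hX i.2)) e.symm
  · rintro ⟨i, b⟩ ⟨i', b'⟩ hh
    have h6 : IrK.prod ((⟨ψ i, h1 i iM⟩ : IrK K M), (⟨X b.1 W, hX b⟩ : IrK K (W ≃ₗ[F] W))) =
        IrK.prod ((⟨ψ i', h1 i' iM⟩ : IrK K M), (⟨X b'.1 W, hX b'⟩ : IrK K (W ≃ₗ[F] W))) := by
      apply Subtype.ext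
      funext g
      have h7 := congrFun hh (e g)
      simp only [MulEquiv.symm_apply_apply] at h7
      exact h7
    have h7 := (IrK.prod (K := K) (H := M) (H' := W ≃ₗ[F] W)).injective h6
    have h8 : ψ i = ψ i' := congrArg (fun z => z.1.1) h7
    have h9 : X b.1 W = X b'.1 W := congrArg (fun z => z.2.1) h7
    exact Prod.ext (h2 h8) (Subtype.ext (X_inj (mem_OmS.mp b.2).symm (mem_OmS.mp b'.2).symm h9))
  · intro i
    rw [List.map_cons, List.sum_cons, h3, mem_OmS.mp i.2.2, add_comm]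
  · intro i
    rw [finrank_prod', ← h4 i.1, add_assoc]
  · intro N hN w g _
    obtain ⟨⟨a, b⟩, rfl⟩ := e.surjective g
    rw [finrank_prod'] at hN
    simp only [MulEquiv.symm_apply_apply]
    have e1 : ∑ u : U', X w (V × W) ((u : (V × W) ≃ₗ[F] (V × W)) * (e (a, b) : M')) =
        ∑ u : U, ∑ f : V →ₗ[F] W, X w (V × W) (sk ((u : V ≃ₗ[F] V) * a) b f) := by
      rw [← Equiv.sum_comp EU, Fintype.sum_prod_type]
      refine Finset.sum_congr rfl fun u _ => ?_
      exact sum_sk (X w (V × W)) u a b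
    have e2 : (Nat.card U' : K)⁻¹ = (Nat.card U : K)⁻¹ * (Nat.card (V →ₗ[F] W) : K)⁻¹ := by
      rw [← Nat.card_congr EU, Nat.card_prod, Nat.cast_mul, mul_inv]
    have e3 : (Nat.card U' : K)⁻¹ * ∑ u : U', X w (V × W)
        ((u : (V × W) ≃ₗ[F] (V × W)) * (e (a, b) : M')) =
        (Nat.card U : K)⁻¹ * ∑ u : U, Res (X w (V × W)) ((u : V ≃ₗ[F] V) * a) b := by
      rw [e1, e2, mul_assoc, Finset.mul_sum]
      rfl
    rw [e3]
    have e4 : ∀ u : U, Res (X w (V × W)) ((u : V ≃ₗ[F] V) * a) b =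
        ∑ b' ∈ OmS K F (finrank F W), ∑ a' ∈ OmS K F (finrank F V),
          (cc a' b' w : K) * X b' W b * X a' V ((u : V ≃ₗ[F] V) * a) := by
      intro u
      rw [res_eq, Finset.sum_comm]
      refine Finset.sum_congr rfl fun b' _ => Finset.sum_congr rfl fun a' _ => ?_
      ring
    rw [Finset.sum_congr rfl fun u _ => e4 u, Finset.sum_comm, Finset.mul_sum,
      Fintype.sum_prod_type, Finset.sum_comm (s := (univ : Finset I)), ← Finset.sum_coe_sort
        (OmS K F (finrank F W))]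
    refine Finset.sum_congr rfl fun b' _ => ?_
    rw [Finset.sum_comm, Finset.mul_sum]
    have e5 : ∀ a' ∈ OmS K F (finrank F V), (Nat.card U : K)⁻¹ * ∑ u : U,
        (cc a' b'.1 w : K) * X b'.1 W b * X a' V ((u : V ≃ₗ[F] V) * a) =
        ∑ i, (cc a' b'.1 w : K) * X b'.1 W b * ((P.cnt N (l i) (π i) a' : K) * ψ i a) := by
      intro a' _
      rw [← Finset.mul_sum, mul_left_comm, h5 N (by omega) a' a iU, Finset.mul_sum]
    rw [Finset.sum_congr rfl e5, Finset.sum_comm]
    refine Finset.sum_congr rfl fun i _ => ?_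
    rw [← cnt_step hc hd (show finrank F V ≤ N by omega) (h3 i) (h4 i) b'.1 w]
    push_cast
    rw [Finset.sum_mul]
    refine Finset.sum_congr rfl fun a' _ => ?_
    ring

theorem ld_of (hc : ∀ a b w, P.c a b w = cc a b w) (hd : ∀ w, P.deg w = w.deg)
    {V : Type} [AddCommGroup V] [Module F V] {M U : Subgroup (V ≃ₗ[F] V)} {t : ℕ}
    (h : IsLevi F V M U t) : Finite V → LD P V M U t := by
  induction h with
  | base V =>
    intro _
    exact ld_base V
  | step V W M U t h M' U' hM hU ih =>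
    intro hf
    have : Finite V := Finite.of_surjective (fun x : V × W => x.1) Prod.fst_surjective
    have : Finite W := Finite.of_surjective (fun x : V × W => x.2) Prod.snd_surjective
    exact ld_step hc hd (ih inferInstance) hM hU
  | transport V V' e M U t h ih =>
    intro hf
    have : Finite V := Finite.of_equiv _ e.symm.toEquiv
    exact ld_trans e (ih this)

/-- **Block C1.** The multiplicity of an irreducible character of `GL(V)` in the idempotent
`e_U x`, where `x` is an idempotent of the group algebra of the Levi subgroup: it is at most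
`t!` times the dimension of the corner of `x`, where `t` is the sum of the dimensions of all
the summands but the first. -/
theorem c1_of (hc : ∀ a b w, P.c a b w = cc a b w) (hd : ∀ w, P.deg w = w.deg)
    {V : Type} [AddCommGroup V] [Module F V] [Finite V] [iG : Fintype (V ≃ₗ[F] V)]
    {M U : Subgroup (V ≃ₗ[F] V)} {t : ℕ} (h : IsLevi F V M U t) {χ : (V ≃ₗ[F] V) → K}
    (hχ : IsIr K (V ≃ₗ[F] V) χ) {x : MonoidAlgebra K (V ≃ₗ[F] V)} (hx : x ∈ SubAlg K M)
    (hxx : x * x = x) :
    ∃ m : ℕ, ev χ (BN.av K U * x) = m ∧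
      m ≤ t.factorial * finrank K (NN (SubAlg K M) x x) := by
  classical
  obtain rfl : iG = fintGL := Subsingleton.elim _ _
  obtain ⟨w, hw, rfl⟩ := exists_om hχ
  obtain ⟨I, iI, ψ, π, l, h1, h2, h3, h4, h5⟩ := ld_of (P := P) hc hd h inferInstance
  letI iM : Fintype M := Fintype.ofFinite M
  letI iU : Fintype U := Fintype.ofFinite U
  obtain ⟨m, hm, hf⟩ := exists_ev_nat_sub hx hxx
  refine ⟨∑ i, P.cnt (finrank F V) (l i) (π i) w * m ⟨ψ i, h1 i iM⟩, ?_, ?_⟩
  · rw [ev_av U M hx]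
    have e1 : (fun m : M => (Nat.card U : K)⁻¹ * ∑ u : U,
        X w V ((u : V ≃ₗ[F] V) * (m : V ≃ₗ[F] V))) =
        fun g => ∑ i, (P.cnt (finrank F V) (l i) (π i) w : K) * ψ i g :=
      funext fun g => h5 _ le_rfl w g iU
    rw [e1, ev_sum]
    push_cast
    refine Finset.sum_congr rfl fun i _ => ?_
    rw [← hm ⟨ψ i, h1 i iM⟩]
  · have e1 : ∀ i, P.cnt (finrank F V) (l i) (π i) w ≤ t.factorial := by
      intro i
      have e2 := P.cnt_le_factorial (finrank F V) (l i) (π i) w (by rw [hd, hw])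
      have e3 : (List.map P.deg (l i)).sum = t := by
        rw [← h3 i]
        congr 1
        exact List.map_congr_left fun x _ => hd x
      rwa [e3] at e2
    let f : I → IrK K M := fun i => ⟨ψ i, h1 i iM⟩
    have hfi : Function.Injective f := fun i j hij => h2 (congrArg Subtype.val hij)
    calc ∑ i, P.cnt (finrank F V) (l i) (π i) w * m (f i)
        ≤ ∑ i, t.factorial * m (f i) ^ 2 := by
          refine Finset.sum_le_sum fun i _ => ?_
          refine Nat.mul_le_mul (e1 i) ?_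
          rw [sq]
          exact Nat.le_mul_self _
      _ = t.factorial * ∑ i, m (f i) ^ 2 := by rw [Finset.mul_sum]
      _ ≤ t.factorial * ∑ χ, m χ ^ 2 := by
          refine Nat.mul_le_mul_left _ ?_
          rw [← Finset.sum_image (s := univ) (g := f) (f := fun χ => m χ ^ 2)
            (fun i _ j _ hij => hfi hij)]
          exact Finset.sum_le_sum_of_subset (Finset.subset_univ _)
      _ = _ := by rw [hf]

end Levi

end Vale.Agent.P180.H897
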