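import Vale.Agent.P180.H805.Le
import Vale.Agent.P180.H568.Inst
import Vale.Agent.P180.H568.Tp
import Vale.Agent.P180.H897.C1

/-!
P180 H897: the values of the irreducible characters of `GL(J ι N → F)` at the idempotent `eN ε N`
of a tower.
-/

set_option linter.all false

namespace Vale.Agent.P180.H897

universe u

open Finset Vale.Agent.P180 Vale.Agent.P180.R2.H799 Vale.Agent.P180.R2.H471.Hc
open Vale.Agent.P180.R2.H12.Sl
open Vale.Agent.P180.H393 Vale.Agent.P180.H337 Vale.Agent.P180.H568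
open Vale.Agent.P180.H805.Hs (fs sn mk2 fs_mk2 sn_mk2 mk2_fs ext_fs Up blk1 blk2 blk1_apply
  blk2_apply J eN eN_succ eN_zero card_J)
open Vale.Agent.P180.H19.Atwo (mp mp_single)
open Module (finrank)

section

variable {K : Type u} [Field K] [IsAlgClosed K] [CharZero K] {F : Type} [Field F] [Finite F]
  {ι1 ι2 : Type} [Fintype ι1] [Fintype ι2]

/-- the sum of two blocks is a product -/
def ePr (F : Type) [Field F] (ι1 ι2 : Type) [Fintype ι1] [Fintype ι2] :
    ((ι1 → F) × (ι2 → F)) ≃ₗ[F] (ι1 ⊕ ι2 → F) where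
  toFun z := mk2 z.1 z.2
  invFun c := (fs F ι1 ι2 c, sn F ι1 ι2 c)
  left_inv z := rfl
  right_inv c := mk2_fs c
  map_add' z z' := by
    apply ext_fs <;> rfl
  map_smul' c z := by
    apply ext_fs <;> rfl

theorem ePr_apply (z : (ι1 → F) × (ι2 → F)) : ePr F ι1 ι2 z = mk2 z.1 z.2 := rfl

theorem ePr_symm_apply (c : ι1 ⊕ ι2 → F) :
    (ePr F ι1 ι2).symm c = (fs F ι1 ι2 c, sn F ι1 ι2 c) := rfl

theorem cg_ePr (g : ((ι1 → F) × (ι2 → F)) ≃ₗ[F] ((ι1 → F) × (ι2 → F))) (c : ι1 ⊕ ι2 → F) :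
    cg (ePr F ι1 ι2) g c = mk2 (g (fs F ι1 ι2 c, sn F ι1 ι2 c)).1
      (g (fs F ι1 ι2 c, sn F ι1 ι2 c)).2 := rfl

/-- the levi part -/
theorem blk_eq (a : (ι1 → F) ≃ₗ[F] (ι1 → F)) (b : (ι2 → F) ≃ₗ[F] (ι2 → F)) :
    blk2 F ι1 ι2 b * blk1 F ι1 ι2 a = cg (ePr F ι1 ι2) (sk a b 0) := by
  apply LinearEquiv.ext
  intro c
  rw [cg_ePr, sk_apply, LinearEquiv.mul_apply, blk1_apply, blk2_apply, fs_mk2, sn_mk2,
    LinearMap.zero_apply, add_zero]

/-- the unipotent part -/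
noncomputable def upE : ((ι1 → F) →ₗ[F] (ι2 → F)) ≃ Up F ι1 ι2 :=
  Equiv.ofBijective (fun f => ⟨cg (ePr F ι1 ι2) (sk 1 1 f), by
    refine ⟨fun c => ?_, fun b => ?_⟩
    · rw [cg_ePr, sk_apply, fs_mk2]
      rfl
    · rw [cg_ePr, sk_apply, fs_mk2, sn_mk2]
      change mk2 (0 : ι1 → F) (b + f 0) = mk2 0 b
      rw [map_zero, add_zero]⟩) (by
    constructor
    · intro f f' h
      have h1 : cg (ePr F ι1 ι2) (sk 1 1 f) = cg (ePr F ι1 ι2) (sk 1 1 f') :=
        congrArg Subtype.val h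
      exact (sk_inj ((cg (ePr F ι1 ι2)).injective h1)).2.2
    · rintro ⟨g, h1, h2⟩
      refine ⟨sn F ι1 ι2 ∘ₗ ((g : (ι1 ⊕ ι2 → F) →ₗ[F] (ι1 ⊕ ι2 → F)) ∘ₗ
        (ePr F ι1 ι2 : _ →ₗ[F] _) ∘ₗ LinearMap.inl F (ι1 → F) (ι2 → F)), ?_⟩
      apply Subtype.ext
      apply LinearEquiv.ext
      intro c
      change cg (ePr F ι1 ι2) (sk 1 1 _) c = g c
      rw [cg_ePr, sk_apply]
      apply ext_fs
      · rw [fs_mk2, h1]
        rfl
      · rw [sn_mk2]
        have h3 : c = mk2 (fs F ι1 ι2 c) 0 + mk2 0 (sn F ι1 ι2 c) := by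
          apply ext_fs
          · rw [map_add, fs_mk2, fs_mk2, add_zero]
          · rw [map_add, sn_mk2, sn_mk2, zero_add]
        have h4 : g c = g (mk2 (fs F ι1 ι2 c) 0) + mk2 0 (sn F ι1 ι2 c) := by
          conv_lhs => rw [h3]
          rw [map_add, h2]
        rw [h4, map_add, sn_mk2]
        change (1 : (ι2 → F) ≃ₗ[F] (ι2 → F)) (sn F ι1 ι2 c) +
          sn F ι1 ι2 (g (mk2 (fs F ι1 ι2 c) 0)) = _
        rw [add_comm]
        rfl)

theorem upE_coe (f : (ι1 → F) →ₗ[F] (ι2 → F)) :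
    ((upE f : Up F ι1 ι2) : (ι1 ⊕ ι2 → F) ≃ₗ[F] (ι1 ⊕ ι2 → F)) =
      cg (ePr F ι1 ι2) (sk 1 1 f) := rfl

/-- one step, on group elements -/
theorem ev_step_single (w : Om K F) (a : (ι1 → F) ≃ₗ[F] (ι1 → F))
    (b : (ι2 → F) ≃ₗ[F] (ι2 → F)) [Fintype (Up F ι1 ι2)] :
    (Nat.card (Up F ι1 ι2) : K)⁻¹ * ∑ u : Up F ι1 ι2, X w (ι1 ⊕ ι2 → F)
      ((u : (ι1 ⊕ ι2 → F) ≃ₗ[F] (ι1 ⊕ ι2 → F)) * (blk2 F ι1 ι2 b * blk1 F ι1 ι2 a)) =
      ∑ a' ∈ OmS K F (Fintype.card ι1), ∑ b' ∈ OmS K F (Fintype.card ι2),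
        (cc a' b' w : K) * X a' (ι1 → F) a * X b' (ι2 → F) b := by
  have h0 : finrank F (ι1 → F) = Fintype.card ι1 := Module.finrank_fintype_fun_eq_card F
  have h0' : finrank F (ι2 → F) = Fintype.card ι2 := Module.finrank_fintype_fun_eq_card F
  have h1 := res_eq w a b
  rw [h0, h0'] at h1
  rw [← h1, Res, Nat.card_congr (upE (F := F) (ι1 := ι1) (ι2 := ι2)).symm]
  congr 1
  have h2 := sum_sk (X w ((ι1 → F) × (ι2 → F))) 1 a b
  rw [one_mul] at h2
  rw [← h2, ← Equiv.sum_comp (upE (F := F) (ι1 := ι1) (ι2 := ι2))]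
  refine Finset.sum_congr rfl fun f _ => ?_
  rw [upE_coe, blk_eq, ← map_mul, X_cg]

/-- **one step** -/
theorem ev_step (w : Om K F) (x : MonoidAlgebra K ((ι1 → F) ≃ₗ[F] (ι1 → F)))
    (y : MonoidAlgebra K ((ι2 → F) ≃ₗ[F] (ι2 → F))) :
    ev (X w (ι1 ⊕ ι2 → F)) (BN.av K (Up F ι1 ι2) * mp (blk2 F ι1 ι2) y * mp (blk1 F ι1 ι2) x) =
      ∑ a' ∈ OmS K F (Fintype.card ι1), ∑ b' ∈ OmS K F (Fintype.card ι2),
        (cc a' b' w : K) * ev (X a' (ι1 → F)) x * ev (X b' (ι2 → F)) y := by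
  classical
  letI : Fintype (Up F ι1 ι2) := Fintype.ofFinite _
  -- linear in both variables
  have key : ∀ b : (ι2 → F) ≃ₗ[F] (ι2 → F),
      (evL (X w (ι1 ⊕ ι2 → F))) ∘ₗ (LinearMap.mulLeft K (BN.av K (Up F ι1 ι2) *
        mp (blk2 F ι1 ι2) (MonoidAlgebra.single b 1))) ∘ₗ
          (mp (k := K) (blk1 F ι1 ι2)).toLinearMap =
      ∑ a' ∈ OmS K F (Fintype.card ι1), ∑ b' ∈ OmS K F (Fintype.card ι2),
        ((cc a' b' w : K) * ev (X b' (ι2 → F)) (MonoidAlgebra.single b 1)) •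
          evL (X a' (ι1 → F)) := by
    intro b
    apply lin_ext
    intro a
    rw [LinearMap.sum_apply]
    change ev (X w (ι1 ⊕ ι2 → F)) (BN.av K (Up F ι1 ι2) *
        mp (blk2 F ι1 ι2) (MonoidAlgebra.single b 1) *
          mp (blk1 F ι1 ι2) (MonoidAlgebra.single a 1)) = _
    rw [mp_single, mp_single, mul_assoc, MonoidAlgebra.single_mul_single, one_mul, ev_av0,
      ev_single, one_mul]
    beta_reduce
    rw [ev_step_single w a b]
    refine Finset.sum_congr rfl fun a' _ => ?_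
    rw [LinearMap.sum_apply]
    refine Finset.sum_congr rfl fun b' _ => ?_
    rw [LinearMap.smul_apply, evL_apply, ev_single, ev_single, one_mul, one_mul, smul_eq_mul]
    ring
  have key2 : ∀ (b : (ι2 → F) ≃ₗ[F] (ι2 → F)),
      ev (X w (ι1 ⊕ ι2 → F)) (BN.av K (Up F ι1 ι2) *
        mp (blk2 F ι1 ι2) (MonoidAlgebra.single b 1) * mp (blk1 F ι1 ι2) x) =
      ∑ a' ∈ OmS K F (Fintype.card ι1), ∑ b' ∈ OmS K F (Fintype.card ι2),
        ((cc a' b' w : K) * ev (X b' (ι2 → F)) (MonoidAlgebra.single b 1)) *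
          ev (X a' (ι1 → F)) x := by
    intro b
    have h1 := LinearMap.congr_fun (key b) x
    rw [LinearMap.sum_apply] at h1
    refine Eq.trans h1 ?_
    refine Finset.sum_congr rfl fun a' _ => ?_
    rw [LinearMap.sum_apply]
    rfl
  have key3 : (evL (X w (ι1 ⊕ ι2 → F))) ∘ₗ (LinearMap.mulRight K (mp (blk1 F ι1 ι2) x)) ∘ₗ
      (LinearMap.mulLeft K (BN.av K (Up F ι1 ι2))) ∘ₗ (mp (k := K) (blk2 F ι1 ι2)).toLinearMap =
      ∑ a' ∈ OmS K F (Fintype.card ι1), ∑ b' ∈ OmS K F (Fintype.card ι2),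
        ((cc a' b' w : K) * ev (X a' (ι1 → F)) x) • evL (X b' (ι2 → F)) := by
    apply lin_ext
    intro b
    rw [LinearMap.sum_apply]
    refine Eq.trans (key2 b) ?_
    refine Finset.sum_congr rfl fun a' _ => ?_
    rw [LinearMap.sum_apply]
    refine Finset.sum_congr rfl fun b' _ => ?_
    rw [LinearMap.smul_apply, smul_eq_mul, evL_apply]
    ring
  have h1 := LinearMap.congr_fun key3 y
  rw [LinearMap.sum_apply] at h1
  refine Eq.trans h1 ?_
  refine Finset.sum_congr rfl fun a' _ => ?_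
  rw [LinearMap.sum_apply]
  refine Finset.sum_congr rfl fun b' _ => ?_
  rw [LinearMap.smul_apply, smul_eq_mul, evL_apply]

end

section

variable {K : Type u} [Field K] [IsAlgClosed K] [CharZero K] {F : Type} [Field F] [Finite F]
  {ι : Type} [Fintype ι] [DecidableEq (Om K F)]

/-- **The values of the irreducible characters at `eN ε N`.** -/
theorem ev_eN {ρ : Om K F} (hdeg : Fintype.card ι = ρ.deg)
    {ε : MonoidAlgebra K ((ι → F) ≃ₗ[F] (ι → F))}
    (h1 : ev (X ρ (ι → F)) ε = 1)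
    (h0 : ∀ b ∈ OmS K F (Fintype.card ι), b ≠ ρ → ev (X b (ι → F)) ε = 0) {M : ℕ} :
    ∀ (N : ℕ), Fintype.card (J ι N) ≤ M → ∀ w : Om K F,
      ev (X w (J ι N → F)) (eN ε N) =
        (((glPSH K F).cnt M (List.replicate N ρ) (glPSH K F).one w : ℕ) : K) := by
  classical
  intro N
  induction N with
  | zero =>
    intro _ w
    rw [eN_zero, ev_one, List.replicate_zero, PSH.cnt_nil]
    have hf : finrank F (J ι 0 → F) = 0 := by
      have : IsEmpty (J ι 0) := inferInstanceAs (IsEmpty Empty)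
      rw [Module.finrank_fintype_fun_eq_card, Fintype.card_eq_zero]
    by_cases hw : w = omOne K F
    · have h2 : w = (glPSH K F).one := hw
      rw [if_pos h2, Nat.cast_one, hw]
      have e : (J ι 0 → F) ≃ₗ[F] (Fin 0 → F) :=
        LinearEquiv.ofFinrankEq _ _ (by rw [hf, Module.finrank_fin_fun])
      rw [X_omOne e]
    · have h2 : ¬ w = (glPSH K F).one := hw
      rw [if_neg h2, Nat.cast_zero]
      apply X_zero
      rw [hf]
      intro h3
      exact hw ((glPSH K F).eq_one w h3.symm)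
  | succ N ih =>
    intro hM w
    have hcard : Fintype.card (J ι (N + 1)) = Fintype.card (J ι N) + Fintype.card ι :=
      Fintype.card_sum
    have hN : Fintype.card (J ι N) ≤ M := by omega
    have hl : ((List.replicate N ρ).map Om.deg).sum = Fintype.card (J ι N) := by
      rw [List.map_replicate, List.sum_replicate, smul_eq_mul, card_J, hdeg]
    have hπ : ((glPSH K F).one).deg + Fintype.card (J ι N) = Fintype.card (J ι N) := by
      have : ((glPSH K F).one).deg = 0 := omOne_deg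
      rw [this, zero_add]
    have h2 := cnt_step (P := glPSH K F) (fun _ _ _ => rfl) (fun _ => rfl) hN hl hπ ρ w
    rw [List.replicate_succ, ← h2, eN_succ]
    refine Eq.trans (ev_step w (eN ε N) ε) ?_
    push_cast
    refine Finset.sum_congr rfl fun a' _ => ?_
    rw [ih hN a', Finset.sum_eq_single ρ]
    · rw [h1, mul_one]
    · intro b hb hne
      rw [h0 b hb hne, mul_zero]
    · intro h
      exact absurd (mem_OmS.mpr hdeg.symm) h

end

end Vale.Agent.P180.H897
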