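import Vale.Agent.P180.H392.SecL

/-!
P180, v5 row (T): components whose simple quotient is a special linear group and a section of the
group, at primes which may divide the order of the centre (helper897).
-/

set_option linter.all false

namespace Vale.Agent.P180.H897

open Vale.Agent.P180 Vale.Agent.P180.R2 Vale.Agent.P180.R2.H47 Vale.Agent.P180.R2.H365
  Vale.Agent.P180.H392

/-- `(cm x)^[r] y` is the iterated commutator -/
abbrev cm {G : Type*} [Group G] (x : G) : G → G := fun t => x * t * x⁻¹ * t⁻¹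

theorem map_cm {G H : Type*} [Group G] [Group H] (f : G →* H) (x y : G) (j : ℕ) :
    f ((cm x)^[j] y) = (cm (f x))^[j] (f y) := by
  induction j with
  | zero => rfl
  | succ j ih =>
    rw [Function.iterate_succ_apply', Function.iterate_succ_apply']
    change f (x * (cm x)^[j] y * x⁻¹ * ((cm x)^[j] y)⁻¹) =
      f x * (cm (f x))^[j] (f y) * (f x)⁻¹ * ((cm (f x))^[j] (f y))⁻¹
    rw [map_mul, map_mul, map_mul, map_inv, map_inv, ih]

theorem cm_central {G : Type*} [Group G] {x y : G} (hy : y ∈ Subgroup.center G) : cm x y = 1 := by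
  change x * y * x⁻¹ * y⁻¹ = 1
  rw [Subgroup.mem_center_iff.mp hy x, mul_inv_cancel_right, mul_inv_cancel]

/-- central factors do not matter -/
theorem cm_mul_central {G : Type*} [Group G] {x y u v : G} (hu : u ∈ Subgroup.center G)
    (hv : v ∈ Subgroup.center G) (j : ℕ) :
    (cm (x * u))^[j + 1] (y * v) = (cm x)^[j + 1] y := by
  have h1 : ∀ t, cm (x * u) t = cm x t := by
    intro t
    change x * u * t * (x * u)⁻¹ * t⁻¹ = x * t * x⁻¹ * t⁻¹
    calc x * u * t * (x * u)⁻¹ * t⁻¹ = x * (u * t) * u⁻¹ * x⁻¹ * t⁻¹ := by group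
      _ = x * (t * u) * u⁻¹ * x⁻¹ * t⁻¹ := by rw [← Subgroup.mem_center_iff.mp hu t]
      _ = x * t * x⁻¹ * t⁻¹ := by group
  have h2 : cm x (y * v) = cm x y := by
    change x * (y * v) * x⁻¹ * (y * v)⁻¹ = x * y * x⁻¹ * y⁻¹
    calc x * (y * v) * x⁻¹ * (y * v)⁻¹ = x * y * (v * x⁻¹) * (v⁻¹ * y⁻¹) := by group
      _ = x * y * (x⁻¹ * v) * (v⁻¹ * y⁻¹) := by rw [← Subgroup.mem_center_iff.mp hv x⁻¹]
      _ = x * y * x⁻¹ * y⁻¹ := by group
  have h3 : cm (x * u) = cm x := funext h1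
  rw [h3, Function.iterate_succ_apply, Function.iterate_succ_apply, h2]

theorem cm_mem {G : Type*} [Group G] {Q : Subgroup G} {x y : G} (hx : x ∈ Q) (hy : y ∈ Q) (j : ℕ) :
    (cm x)^[j] y ∈ Q := by
  induction j with
  | zero => exact hy
  | succ j ih =>
    rw [Function.iterate_succ_apply']
    exact Q.mul_mem (Q.mul_mem (Q.mul_mem hx ih) (Q.inv_mem hx)) (Q.inv_mem ih)

section

variable {P : Type} [Group P] {L : Type} [Group L] [Finite L] {Γ : Subgroup (MulAut L)}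
  {A : Subgroup L} {d : ℕ} {K : Type} [Field K] [Finite K]

/-- an iterated commutator of elements over `A` is central -/
theorem cm_center (hL : commutator L = ⊤) (hsec : IsSec P Γ) (hAΓ : ∀ x ∈ A, MulAut.conj x ∈ Γ)
    {π : SpecialLinearGroup K (Fin d → K) →* L} (hπ : Function.Surjective π)
    (hk : π.ker ≤ Subgroup.center _) {j : ℕ}
    (hab : ∀ A : Subgroup (L ⧸ Subgroup.center L), IsSec P A → ∀ x ∈ A, ∀ y ∈ A,
      (cm x)^[j] y = 1) {x y : SpecialLinearGroup K (Fin d → K)} (hx : π x ∈ A) (hy : π y ∈ A) :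
    (cm x)^[j] y ∈ Subgroup.center (SpecialLinearGroup K (Fin d → K)) := by
  refine center_of_quot π hπ hk hL ?_
  have h1 := hab _ (isSec_quot hsec hAΓ) _ ⟨π x, hx, rfl⟩ _ ⟨π y, hy, rfl⟩
  rw [← QuotientGroup.eq_one_iff]
  change QuotientGroup.mk' (Subgroup.center L) (π ((cm x)^[j] y)) = 1
  rw [map_cm, map_cm]
  exact h1

/-- Finite perfect central extensions `L` of `PSL_d(K)`: `L` is small or a quotient of `SL_d(K)` by
scalars, and an Engel condition modulo the centre goes up. -/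
theorem engel_of_sec (hL : commutator L = ⊤) (hsec : IsSec P Γ)
    (hAΓ : ∀ x ∈ A, MulAut.conj x ∈ Γ) (hd : 3 ≤ d) (hT : IsLin d K (L ⧸ Subgroup.center L))
    {j : ℕ} (hab : ∀ A : Subgroup (L ⧸ Subgroup.center L), IsSec P A → ∀ x ∈ A, ∀ y ∈ A,
      (cm x)^[j] y = 1) :
    Nat.card (L ⧸ Subgroup.center L) ≤ 9 ^ 16 ∨
      ∃ π : SpecialLinearGroup K (Fin d → K) →* L, Function.Surjective π ∧
        π.ker ≤ Subgroup.center _ ∧ ∀ x y, π x ∈ A → π y ∈ A → (cm x)^[j + 1] y = 1 := by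
  rcases exists_surj hd hL hT with h0 | ⟨π, hπ, hk⟩
  · exact Or.inl h0
  refine Or.inr ⟨π, hπ, hk, fun x y hx hy => ?_⟩
  rw [Function.iterate_succ_apply']
  exact cm_central (cm_center hL hsec hAΓ hπ hk hab hx hy)

/-- The same without a loss, if `p` does not divide the order of the centre of `SL_d(K)`. -/
theorem engel_of_sec_cop {p : ℕ} [Fact p.Prime] (hcop : ¬ (p ∣ d ∧ p ∣ Nat.card K - 1))
    (hL : commutator L = ⊤) (hA : IsPGroup p A) (hsec : IsSec P Γ)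
    (hAΓ : ∀ x ∈ A, MulAut.conj x ∈ Γ) (hd : 3 ≤ d) (hT : IsLin d K (L ⧸ Subgroup.center L))
    {j : ℕ} (hab : ∀ A : Subgroup (L ⧸ Subgroup.center L), IsSec P A → ∀ x ∈ A, ∀ y ∈ A,
      (cm x)^[j + 1] y = 1) :
    Nat.card (L ⧸ Subgroup.center L) ≤ 9 ^ 16 ∨
      ∃ π : SpecialLinearGroup K (Fin d → K) →* L, Function.Surjective π ∧
        π.ker ≤ Subgroup.center _ ∧ ∀ x y, π x ∈ A → π y ∈ A → (cm x)^[j + 1] y = 1 := by
  rcases exists_surj hd hL hT with h0 | ⟨π, hπ, hk⟩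
  · exact Or.inl h0
  refine Or.inr ⟨π, hπ, hk, fun x y hx hy => ?_⟩
  haveI : Finite (SpecialLinearGroup K (Fin d → K)) := H799.BN.finite_sl
  obtain ⟨Q, hQ, hQA⟩ := H799.BN.exists_lift (p := p) π hπ hA
  -- `x = x' u`, `y = y' v` with `x'`, `y'` in `Q` and `u`, `v` central
  have key : ∀ x, π x ∈ A → ∃ x' ∈ Q, ∃ u ∈ Subgroup.center (SpecialLinearGroup K (Fin d → K)),
      x = x' * u := by
    intro x hx
    rw [← hQA] at hx
    obtain ⟨x', hx', he⟩ := hx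
    refine ⟨x', hx', x'⁻¹ * x, hk ?_, by group⟩
    rw [MonoidHom.mem_ker, map_mul, map_inv, he, inv_mul_cancel]
  have hc := cm_center hL hsec hAΓ hπ hk hab hx hy
  obtain ⟨x', hx', u, hu, rfl⟩ := key x hx
  obtain ⟨y', hy', v, hv, rfl⟩ := key y hy
  rw [cm_mul_central hu hv] at hc ⊢
  obtain ⟨i, hi⟩ := hQ ⟨_, cm_mem hx' hy' (j + 1)⟩
  exact Y.cen_one (fun h => hcop ⟨h.trans (Nat.gcd_dvd_left _ _), h.trans (Nat.gcd_dvd_right _ _)⟩)
    (by omega) (congrArg Subtype.val hi) hc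

/-- **Row (T).** -/
theorem rowT {p m : ℕ} [Fact p.Prime] (hp2 : p ≠ 2) (hL : commutator L = ⊤) (hA : IsPGroup p A)
    (hsec : IsSec P Γ) (hAΓ : ∀ x ∈ A, MulAut.conj x ∈ Γ) (hd : 3 ≤ d)
    (hT : IsLin d K (L ⧸ Subgroup.center L))
    (hab : ((∀ j, p ^ j ∣ d → p ^ j ∣ Nat.card K - 1 → p ^ j ≤ m) ∧
        ∀ A : Subgroup (L ⧸ Subgroup.center L), IsSec P A → ∀ x ∈ A, ∀ y ∈ A,
          (fun t => x * t * x⁻¹ * t⁻¹)^[p - 3] y = 1) ∨
      (¬ (p ∣ d ∧ p ∣ Nat.card K - 1) ∧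
        ∀ A : Subgroup (L ⧸ Subgroup.center L), IsSec P A → ∀ x ∈ A, ∀ y ∈ A,
          (fun t => x * t * x⁻¹ * t⁻¹)^[p - 2] y = 1)) :
    Nat.card (L ⧸ Subgroup.center L) ≤ 9 ^ 16 ∨
      ∃ π : SpecialLinearGroup K (Fin d → K) →* L, Function.Surjective π ∧
        π.ker ≤ Subgroup.center _ ∧
        (∀ x y, π x ∈ A → π y ∈ A → (fun t => x * t * x⁻¹ * t⁻¹)^[p - 2] y = 1) ∧
        ((∀ j, p ^ j ∣ d → p ^ j ∣ Nat.card K - 1 → p ^ j ≤ m) ∨
          ¬ (p ∣ d ∧ p ∣ Nat.card K - 1)) := by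
  have hp3 : 3 ≤ p := by
    have := (Fact.out : p.Prime).two_le
    omega
  obtain ⟨r, rfl⟩ : ∃ r, p = r + 3 := ⟨p - 3, by omega⟩
  have e3 : r + 3 - 3 = r := by omega
  have e2 : r + 3 - 2 = r + 1 := by omega
  rw [e3, e2] at hab
  rw [e2]
  rcases hab with ⟨hm, hab⟩ | ⟨hcop, hab⟩
  · rcases engel_of_sec hL hsec hAΓ hd hT hab with h | ⟨π, h1, h2, h3⟩
    · exact Or.inl h
    · exact Or.inr ⟨π, h1, h2, h3, Or.inl hm⟩
  · rcases engel_of_sec_cop hcop hL hA hsec hAΓ hd hT hab with h | ⟨π, h1, h2, h3⟩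
    · exact Or.inl h
    · exact Or.inr ⟨π, h1, h2, h3, Or.inr hcop⟩

end

end Vale.Agent.P180.H897
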