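import Vale.Agent.P180.H392.DefE
import Vale.Agent.P180.H897.SecO

/-!
P180, v5 row (T), in the form of `SecE` and `OutE` (helper897).
-/

set_option linter.all false

namespace Vale.Agent.P180.H897

open Vale.Agent.P180 Vale.Agent.P180.R2 Vale.Agent.P180.R2.H47 Vale.Agent.P180.R2.H365
  Vale.Agent.P180.H392

theorem eng_succ {r : ℕ} {L : Type} [Group L] {A : Subgroup L} (h : Eng r A) :
    Eng (r + 1) A := by
  intro x hx y hy
  rw [Function.iterate_succ_apply', h x hx y hy]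
  change x * 1 * x⁻¹ * 1⁻¹ = 1
  group

/-- **Row (T).** -/
theorem outE_of_sec {p m : ℕ} [Fact p.Prime] {P : Type} [Group P] {L : Type} [Group L] [Finite L]
    {Γ : Subgroup (MulAut L)} {A : Subgroup L} {d : ℕ} {K : Type} [Field K] [Finite K]
    (hL : commutator L = ⊤) (hA : IsPGroup p A) (hsec : IsSec P Γ)
    (hAΓ : ∀ x ∈ A, MulAut.conj x ∈ Γ) (hd : 3 ≤ d)
    (h : IsLin d K (L ⧸ Subgroup.center L) ∧ ¬ p ∣ 2 * Nat.card (K ≃+* K) ∧
      (∀ j, p ^ j ∣ d → p ^ j ∣ Nat.card K - 1 → p ^ j ≤ m) ∧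
      ∀ A : Subgroup (L ⧸ Subgroup.center L), IsSec P A →
        Eng (p - 3) A ∨ (¬ (p ∣ d ∧ p ∣ Nat.card K - 1) ∧ Eng (p - 2) A)) :
    Nat.card (L ⧸ Subgroup.center L) ≤ 9 ^ 16 ∨ OutE p m d K (Fin d → K) L Γ A := by
  obtain ⟨hT, hno, hm, hab⟩ := h
  have hp2 : p ≠ 2 := by
    rintro rfl
    exact hno (dvd_mul_right _ _)
  have hp3 : 3 ≤ p := by
    have := (Fact.out : p.Prime).two_le
    omega
  obtain ⟨r, rfl⟩ : ∃ r, p = r + 3 := ⟨p - 3, by omega⟩
  have e : max 1 (r + 3 - 2) = r + 1 := by omega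
  rw [show r + 3 - 3 = r from by omega, show r + 3 - 2 = r + 1 from by omega] at hab
  have key : Nat.card (L ⧸ Subgroup.center L) ≤ 9 ^ 16 ∨
      ∃ π : SpecialLinearGroup K (Fin d → K) →* L, Function.Surjective π ∧
        π.ker ≤ Subgroup.center _ ∧ ∀ x y, π x ∈ A → π y ∈ A → (cm x)^[r + 1] y = 1 := by
    by_cases hcop : r + 3 ∣ d ∧ r + 3 ∣ Nat.card K - 1
    · exact engel_of_sec hL hsec hAΓ hd hT fun A hA => (hab A hA).resolve_right fun h => h.1 hcop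
    · exact engel_of_sec_cop hcop hL hA hsec hAΓ hd hT fun A hA =>
        (hab A hA).elim eng_succ fun h => h.2
  rcases key with h | ⟨π, h1, h2, h3⟩
  · exact Or.inl h
  · refine Or.inr ⟨π, h1, h2, ?_, Or.inl hno, hm⟩
    rw [e]
    exact fun x hx y hy => h3 x y hx hy

end Vale.Agent.P180.H897
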