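import Vale.Agent.P180.H897.Box
import Vale.Agent.P180.H897.C1Fin
import Vale.Agent.P180.H568.A3d

/-!
P180 theorem B, block B6 (helper897): the multiplicity bound in terms of the number of boxes.
-/

set_option linter.all false

namespace Vale.Agent.P180.H897

universe u

open Finset Vale.Agent.P180 Vale.Agent.P180.R2.H799 Vale.Agent.P180.R2.H471.Hc
open Vale.Agent.P180.H393 Vale.Agent.P180.H337 Vale.Agent.P180.H951 Vale.Agent.P180.H568
open Module (finrank End)

section

variable {K : Type u} [Field K] [IsAlgClosed K] [CharZero K] {F : Type} [Field F] [Finite F]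
variable [DecidableEq (Om K F)]

/-- `σ` is contained in a product of at most `n` primitive characters -/
def Boxed (P : PSH (Om K F)) (n : ℕ) (σ : Om K F) : Prop :=
  ∃ L : List (Om K F), (∀ ρ ∈ L, P.Prim ρ) ∧ L.length ≤ n ∧ P.cnt (P.deg σ) L P.one σ ≠ 0

variable {P : PSH (Om K F)}

/-- **Block B6.** The multiplicity of an irreducible character of `GL(V)` in `e_U x`, when all
the characters of the factors which occur in `x` are contained in products of at most `n`
primitive characters. -/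
theorem c1_box_of (hc : ∀ a b w, P.c a b w = cc a b w) (hd : ∀ w, P.deg w = w.deg)
    {s : ℕ} {V : Type} [AddCommGroup V] [Module F V] [Finite V] [iG : Fintype (V ≃ₗ[F] V)]
    (e : Fin s → End F V) (hid : ∀ i, e i * e i = e i) (hor : ∀ i j, i ≠ j → e i * e j = 0)
    [iM : Fintype (stab e)] :
    ∃ U, IsLevi F V (stab e) U (∑ i, finrank F (LinearMap.range (e i))) ∧
      ∀ χ, IsIr K (V ≃ₗ[F] V) χ → ∀ x ∈ SubAlg K (stab e), x * x = x → ∀ n : ℕ,
        (∀ ψ : stab e → K, IsIr K (stab e) ψ → ev ψ (Vale.Agent.P180.H337.rs (stab e) x) ≠ 0 →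
          ∀ (t : Fin s) (σ : Om K F), σ.deg = finrank F (LinearMap.range (e t)) →
            (∃ m : K, m ≠ 0 ∧ ∀ b, ψ ⟨iota (e t) (hid t) b, iota_mem hid hor t b⟩ =
              m * X σ (LinearMap.range (e t)) b) → Boxed P n σ) →
        ∃ m : ℕ, ev χ (BN.av K U * x) = m ∧
          m ≤ (n * s).factorial * finrank K (NN (SubAlg K (stab e)) x x) := by
  classical
  obtain rfl : iG = fintGL := Subsingleton.elim _ _
  obtain ⟨U, hU, D, σ, hl, hdeg, hres⟩ := exists_dat (P := P) hc hd s V e hid hor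
  refine ⟨U, hU, ?_⟩
  intro χ hχ x hx hxx n hbox
  obtain ⟨w, hw, rfl⟩ := exists_om hχ
  letI iU : Fintype U := Fintype.ofFinite U
  obtain ⟨m, hm, hf⟩ := exists_ev_nat_sub hx hxx
  let f : D.I → IrK K (stab e) := fun i => ⟨D.ψ i, D.ir i iM⟩
  have hfi : Function.Injective f := fun i j hij => D.inj (congrArg Subtype.val hij)
  refine ⟨∑ i, P.cnt (finrank F V) (D.l i) (D.π i) w * m (f i), ?_, ?_⟩
  · rw [ev_av U (stab e) hx]
    have e1 : (fun m : stab e => (Nat.card U : K)⁻¹ * ∑ u : U,
        X w V ((u : V ≃ₗ[F] V) * (m : V ≃ₗ[F] V))) =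
        fun g => ∑ i, (P.cnt (finrank F V) (D.l i) (D.π i) w : K) * D.ψ i g :=
      funext fun g => D.res _ le_rfl w g iU
    rw [e1, ev_sum]
    push_cast
    refine Finset.sum_congr rfl fun i _ => ?_
    rw [← hm (f i)]
  · have e1 : ∀ i, P.cnt (finrank F V) (D.l i) (D.π i) w * m (f i) ≤
        (n * s).factorial * m (f i) ^ 2 := by
      intro i
      by_cases h0 : m (f i) = 0
      · rw [h0]
        simp
      · have h1 : ev (D.ψ i) (Vale.Agent.P180.H337.rs (stab e) x) ≠ 0 := by
          have h2 := hm (f i)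
          change ev (D.ψ i) (Vale.Agent.P180.H337.rs (stab e) x) = _ at h2
          rw [h2]
          exact_mod_cast h0
        have h2 : ∀ τ ∈ D.l i, ∃ L : List (Om K F), (∀ ρ ∈ L, P.Prim ρ) ∧ L.length ≤ n ∧
            P.cnt (P.deg τ) L P.one τ ≠ 0 := by
          intro τ hτ
          rw [hl] at hτ
          obtain ⟨t, rfl⟩ := mem_lst hτ
          exact hbox (D.ψ i) (D.ir i iM) h1 t (σ i t) (hdeg i t) (hres i t)
        have h3 := P.cnt_box n (D.l i) h2 (D.π i) w (K := finrank F V) (by rw [hd, hw])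
        rw [hl, length_lst, ← hl] at h3
        refine Nat.mul_le_mul h3 ?_
        rw [sq]
        exact Nat.le_mul_self _
    calc ∑ i, P.cnt (finrank F V) (D.l i) (D.π i) w * m (f i)
        ≤ ∑ i, (n * s).factorial * m (f i) ^ 2 := Finset.sum_le_sum fun i _ => e1 i
      _ = (n * s).factorial * ∑ i, m (f i) ^ 2 := by rw [Finset.mul_sum]
      _ ≤ (n * s).factorial * ∑ χ, m χ ^ 2 := by
          refine Nat.mul_le_mul_left _ ?_
          rw [← Finset.sum_image (s := univ) (g := f) (f := fun χ => m χ ^ 2)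
            (fun i _ j _ hij => hfi hij)]
          exact Finset.sum_le_sum_of_subset (Finset.subset_univ _)
      _ = _ := by rw [hf]

end

/-- **Block B6**, with the Hopf algebra of the general linear groups. -/
theorem c1_box {K : Type u} [Field K] [IsAlgClosed K] [CharZero K] {F : Type} [Field F]
    [Finite F] [DecidableEq (Om K F)] {s : ℕ} {V : Type} [AddCommGroup V] [Module F V] [Finite V]
    [Fintype (V ≃ₗ[F] V)] (e : Fin s → End F V) (hid : ∀ i, e i * e i = e i)
    (hor : ∀ i j, i ≠ j → e i * e j = 0) [Fintype (stab e)] :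
    ∃ U, IsLevi F V (stab e) U (∑ i, finrank F (LinearMap.range (e i))) ∧
      ∀ χ, IsIr K (V ≃ₗ[F] V) χ → ∀ x ∈ SubAlg K (stab e), x * x = x → ∀ n : ℕ,
        (∀ ψ : stab e → K, IsIr K (stab e) ψ → ev ψ (Vale.Agent.P180.H337.rs (stab e) x) ≠ 0 →
          ∀ (t : Fin s) (σ : Om K F), σ.deg = finrank F (LinearMap.range (e t)) →
            (∃ m : K, m ≠ 0 ∧ ∀ b, ψ ⟨iota (e t) (hid t) b, iota_mem hid hor t b⟩ =
              m * X σ (LinearMap.range (e t)) b) → Boxed (glPSH K F) n σ) →
        ∃ m : ℕ, ev χ (BN.av K U * x) = m ∧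
          m ≤ (n * s).factorial * finrank K (NN (SubAlg K (stab e)) x x) :=
  c1_box_of (P := glPSH K F) (fun _ _ _ => rfl) (fun _ => rfl) e hid hor

end Vale.Agent.P180.H897
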