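import Vale.Agent.P180.H337.Idem

/-!
P180, classical groups at linear primes: the abstract TOWER THEOREM (helper897), definitions.
-/

set_option linter.all false

namespace Vale.Agent.P180.H897

universe u

open Finset Polynomial Vale.Agent.P180 Vale.Agent.P180.R2.H799 Vale.Agent.P180.R2.H471.Hc
open Vale.Agent.P180.R2.H12.Sl
open Vale.Agent.P180.H393 (IsIr IsCF ev)
open Vale.Agent.P180.H337

/-- an affine-Hecke type tower `B 0 ≤ B 1 ≤ ... ≤ B m` of subalgebras of `A` -/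
structure Tow (K : Type u) [Field K] {A : Type*} [Ring A] [Algebra K A]
    (B : ℕ → Subalgebra K A) (m : ℕ) (E X T : ℕ → A) (a b c : ℕ → K) : Prop where
  mono : ∀ i < m, B i ≤ B (i + 1)
  E_mem : ∀ i < m, E i ∈ B (i + 1)
  X_mem : ∀ i < m, X i ∈ B (i + 1)
  T_mem : ∀ i, i + 1 < m → T i ∈ B (i + 2)
  E_comm : ∀ i < m, ∀ x ∈ B i, E i * x = x * E i
  X_comm : ∀ i < m, ∀ x ∈ B i, X i * x = x * X i
  T_comm : ∀ i, i + 1 < m → ∀ x ∈ B i, T i * x = x * T i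
  EE : ∀ i < m, E i * E i = E i
  EX : ∀ i < m, E i * X i = X i
  XE : ∀ i < m, X i * E i = X i
  /-- `X i` is invertible in the corner -/
  X_inv : ∀ i < m, ∃ y, y * X i = E i
  /-- `X i` is diagonalizable -/
  X_diag : ∀ i < m, ∃ L : Finset K, aeval (X i) (∏ l ∈ L, (Polynomial.X - C l)) = 0
  ET : ∀ i, i + 1 < m → E (i + 1) * E i * T i = T i
  TE : ∀ i, i + 1 < m → T i * (E (i + 1) * E i) = T i
  /-- the quadratic relation -/
  TT : ∀ i, i + 1 < m → T i * T i = a i • T i + b i • (E (i + 1) * E i)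
  a_ne : ∀ i, i + 1 < m → a i ≠ 0
  b_ne : ∀ i, i + 1 < m → b i ≠ 0
  c_ne : ∀ i, i + 1 < m → c i ≠ 0
  /-- the relation between two neighbours -/
  TXT : ∀ i, i + 1 < m → T i * X i * T i = c i • (X (i + 1) * E i)
  /-- Mackey, bottom -/
  gen0 : 0 < m → ∀ x ∈ B 1, E 0 * x * E 0 ∈
    Submodule.span K {z | ∃ y ∈ B 0, z = y * E 0 ∨ z = y * X 0}
  /-- Mackey -/
  gen : ∀ i, i + 1 < m → ∀ x ∈ B (i + 2), E (i + 1) * x * E (i + 1) ∈
    Submodule.span K {z | ∃ y ∈ B (i + 1), ∃ y' ∈ B (i + 1),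
      z = y * E (i + 1) ∨ z = y * X (i + 1) ∨ z = y * T i * y'}

/-- `E (i + N - 1) * ... * E i` -/
def EEp {A : Type*} [Ring A] (E : ℕ → A) (i : ℕ) : ℕ → A
  | 0 => 1
  | N + 1 => E (i + N) * EEp E i N

end Vale.Agent.P180.H897
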