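import Vale.Agent.P180.H897.Dat
import Vale.Agent.P180.H951.Stab

/-!
P180 theorem B, block B6 (helper897): the restriction of all irreducible characters to the
stabiliser of a family of orthogonal idempotents, with the restrictions to the factors.
-/

set_option linter.all false

namespace Vale.Agent.P180.H897

universe u

open Finset Vale.Agent.P180 Vale.Agent.P180.R2.H799 Vale.Agent.P180.R2.H471.Hc
open Vale.Agent.P180.H393 Vale.Agent.P180.H951 Vale.Agent.P180.H568
open Module (finrank End)

section iota

variable {F V : Type} [Field F] [AddCommGroup V] [Module F V]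

theorem range_fix {p : End F V} (hp : p * p = p) (y : LinearMap.range p) : p (y : V) = y := by
  obtain ⟨_, z, rfl⟩ := y
  exact congrArg (fun a : End F V => a z) hp

/-- an endomorphism of the image, extended by the identity of the kernel -/
def iotaF (p : End F V) (b : LinearMap.range p →ₗ[F] LinearMap.range p) : V →ₗ[F] V :=
  (LinearMap.range p).subtype ∘ₗ b ∘ₗ p.rangeRestrict + (LinearMap.id - p)

theorem iotaF_apply (p : End F V) (b : LinearMap.range p →ₗ[F] LinearMap.range p) (x : V) :
    iotaF p b x = ((b ⟨p x, x, rfl⟩ : LinearMap.range p) : V) + (x - p x) := rfl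

theorem p_iotaF {p : End F V} (hp : p * p = p) (b : LinearMap.range p →ₗ[F] LinearMap.range p)
    (x : V) : p (iotaF p b x) = ((b ⟨p x, x, rfl⟩ : LinearMap.range p) : V) := by
  have h1 : p (p x) = p x := congrArg (fun a : End F V => a x) hp
  rw [iotaF_apply, map_add, map_sub, h1, sub_self, add_zero, range_fix hp]

theorem iotaF_comp {p : End F V} (hp : p * p = p)
    (b b' : LinearMap.range p →ₗ[F] LinearMap.range p) (x : V) :
    iotaF p b (iotaF p b' x) = iotaF p (b ∘ₗ b') x := by
  have h1 : (⟨p (iotaF p b' x), iotaF p b' x, rfl⟩ : LinearMap.range p) = b' ⟨p x, x, rfl⟩ :=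
    Subtype.ext (p_iotaF hp b' x)
  rw [iotaF_apply, h1, p_iotaF hp, iotaF_apply p (b ∘ₗ b'), iotaF_apply p b',
    add_sub_cancel_left]
  rfl

theorem iotaF_id {p : End F V} (x : V) : iotaF p LinearMap.id x = x := by
  rw [iotaF_apply]
  exact add_sub_cancel _ _

/-- **The embedding of a factor.** An automorphism of the image of `p`, extended by the identity
of the kernel. -/
def iota (p : End F V) (hp : p * p = p) :
    (LinearMap.range p ≃ₗ[F] LinearMap.range p) →* (V ≃ₗ[F] V) where
  toFun b := LinearEquiv.ofLinear (iotaF p b) (iotaF p b.symm)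
    (LinearMap.ext fun x => by
      rw [LinearMap.comp_apply, iotaF_comp hp]
      have : (b : LinearMap.range p →ₗ[F] LinearMap.range p) ∘ₗ
          (b.symm : LinearMap.range p →ₗ[F] LinearMap.range p) = LinearMap.id := by
        ext y; simp
      rw [this, iotaF_id]
      rfl)
    (LinearMap.ext fun x => by
      rw [LinearMap.comp_apply, iotaF_comp hp]
      have : (b.symm : LinearMap.range p →ₗ[F] LinearMap.range p) ∘ₗ
          (b : LinearMap.range p →ₗ[F] LinearMap.range p) = LinearMap.id := by
        ext y; simp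
      rw [this, iotaF_id]
      rfl)
  map_one' := LinearEquiv.ext fun x => iotaF_id x
  map_mul' b b' := LinearEquiv.ext fun x =>
    (iotaF_comp hp (b : LinearMap.range p →ₗ[F] LinearMap.range p)
      (b' : LinearMap.range p →ₗ[F] LinearMap.range p) x).symm

theorem iota_apply (p : End F V) (hp : p * p = p)
    (b : LinearMap.range p ≃ₗ[F] LinearMap.range p) (x : V) :
    iota p hp b x = ((b ⟨p x, x, rfl⟩ : LinearMap.range p) : V) + (x - p x) := rfl

theorem iota_mem {s : ℕ} {e : Fin s → End F V} (hid : ∀ i, e i * e i = e i)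
    (hor : ∀ i j, i ≠ j → e i * e j = 0) (t : Fin s)
    (b : LinearMap.range (e t) ≃ₗ[F] LinearMap.range (e t)) :
    iota (e t) (hid t) b ∈ stab e := by
  rw [mem_stab']
  intro i x
  have hor' : ∀ i j, i ≠ j → ∀ y, e i (e j y) = 0 := fun i j hij y =>
    congrArg (fun a : End F V => a y) (hor i j hij)
  have hid' : ∀ i y, e i (e i y) = e i y := fun i y =>
    congrArg (fun a : End F V => a y) (hid i)
  by_cases hi : i = t
  · subst hi
    have h1 : (⟨e i (e i x), e i x, rfl⟩ : LinearMap.range (e i)) = ⟨e i x, x, rfl⟩ :=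
      Subtype.ext (hid' i x)
    rw [iota_apply, h1, hid' i x, sub_self, add_zero]
    exact (p_iotaF (hid i) (b : LinearMap.range (e i) →ₗ[F] LinearMap.range (e i)) x).symm
  · have h1 : (⟨e t (e i x), e i x, rfl⟩ : LinearMap.range (e t)) = 0 :=
      Subtype.ext (hor' t i (Ne.symm hi) x)
    rw [iota_apply, iota_apply, h1, map_zero, hor' t i (Ne.symm hi) x, sub_zero, map_add,
      map_sub, hor' i t hi x, sub_zero]
    obtain ⟨z, hz⟩ := (b ⟨e t x, x, rfl⟩).2
    rw [← hz, hor' i t hi z]
    rfl

/-- the elements of the stabiliser which are the identity on the kernel -/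
theorem eq_iota {s : ℕ} {e : Fin s → End F V} (hid : ∀ i, e i * e i = e i) {t : Fin s}
    {g : V ≃ₗ[F] V} (hg : g ∈ stab e) (h1 : tE g * (1 - e t) = 1 - e t)
    (h : ∀ x ∈ LinearMap.range (e t), g x ∈ LinearMap.range (e t))
    (h' : ∀ x ∈ LinearMap.range (e t), g⁻¹ x ∈ LinearMap.range (e t)) :
    g = iota (e t) (hid t) (Vale.Agent.P180.H951.rs g (LinearMap.range (e t)) h h') := by
  apply LinearEquiv.ext
  intro x
  rw [iota_apply]
  have h2 : g (x - e t x) = x - e t x := congrArg (fun a : End F V => a x) h1
  change g x = g (e t x) + (x - e t x)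
  rw [← h2, ← map_add, add_sub_cancel]

end iota

section

variable {K : Type u} [Field K] [IsAlgClosed K] [CharZero K] {F : Type} [Field F] [Finite F]
variable [DecidableEq (Om K F)] {P : PSH (Om K F)}

/-- the list of the characters of the factors, the last one first -/
def lst : (s : ℕ) → (Fin s → Om K F) → List (Om K F)
  | 0, _ => []
  | s + 1, σ => σ (Fin.last s) :: lst s (fun i => σ i.castSucc)

theorem mem_lst {s : ℕ} {σ : Fin s → Om K F} {w : Om K F} (h : w ∈ lst s σ) : ∃ t, w = σ t := by
  induction s with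
  | zero => exact absurd h (List.not_mem_nil)
  | succ s ih =>
    rcases List.mem_cons.mp h with h | h
    · exact ⟨_, h⟩
    · obtain ⟨t, ht⟩ := ih h
      exact ⟨_, ht⟩

theorem length_lst (s : ℕ) (σ : Fin s → Om K F) : (lst s σ).length = s := by
  induction s with
  | zero => rfl
  | succ s ih => rw [lst, List.length_cons, ih]

theorem X_one_ne {w : Om K F} {V : Type} [AddCommGroup V] [Module F V] [Finite V]
    (h : finrank F V = w.deg) : X w V (1 : V ≃ₗ[F] V) ≠ 0 :=
  Vale.Agent.P180.H337.one_ne (X_isIr (V := V) h)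

/-- **The restriction of all irreducible characters to the stabiliser of a family of orthogonal
idempotents**, with the restrictions to the factors. -/
theorem exists_dat (hc : ∀ a b w, P.c a b w = cc a b w) (hd : ∀ w, P.deg w = w.deg) :
    ∀ (s : ℕ) (V : Type) [AddCommGroup V] [Module F V] [Finite V] (e : Fin s → End F V)
      (hid : ∀ i, e i * e i = e i) (hor : ∀ i j, i ≠ j → e i * e j = 0),
    ∃ U, IsLevi F V (stab e) U (∑ i, finrank F (LinearMap.range (e i))) ∧
      ∃ (D : Dat P V (stab e) U) (σ : D.I → Fin s → Om K F), (∀ i, D.l i = lst s (σ i)) ∧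
        (∀ i t, (σ i t).deg = finrank F (LinearMap.range (e t))) ∧
        ∀ i t, ∃ m : K, m ≠ 0 ∧ ∀ b, D.ψ i ⟨iota (e t) (hid t) b, iota_mem hid hor t b⟩ =
          m * X (σ i t) (LinearMap.range (e t)) b := by
  intro s
  induction s with
  | zero =>
    intro V _ _ _ e hid hor
    have h1 : stab e = ⊤ := by
      rw [eq_top_iff]
      intro g _ i
      exact i.elim0
    have hlev : IsLevi F V (stab e) ⊥ (∑ i, finrank F (LinearMap.range (e i))) := by
      rw [h1, Fin.sum_univ_zero]
      exact IsLevi.base V
    obtain ⟨D', f, -, hl, -⟩ := Dat.trans (LinearEquiv.refl F V) (Dat.base P V)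
      (M' := stab e) (U' := ⊥) (by
        rw [h1, eq_top_iff]
        intro g _
        exact ⟨g, trivial, LinearEquiv.ext fun x => rfl⟩) (Subgroup.map_bot _)
    refine ⟨⊥, hlev, D', fun _ t => t.elim0, fun i => ?_, fun _ t => t.elim0,
      fun _ t => t.elim0⟩
    rw [hl]
    rfl
  | succ s ih =>
    intro V _ _ _ e hid hor
    have hpp : ∀ x, e (Fin.last s) (e (Fin.last s) x) = e (Fin.last s) x := fun x =>
      congrArg (fun a : End F V => a x) (hid (Fin.last s))
    have hpe : ∀ (i : Fin s) x, e (Fin.last s) (e i.castSucc x) = 0 := fun i x =>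
      congrArg (fun a : End F V => a x) (hor (Fin.last s) i.castSucc (Fin.castSucc_lt_last i).ne')
    have hep : ∀ (i : Fin s) x, e i.castSucc (e (Fin.last s) x) = 0 := fun i x =>
      congrArg (fun a : End F V => a x) (hor i.castSucc (Fin.last s) (Fin.castSucc_lt_last i).ne)
    -- restriction to the kernel
    let W := LinearMap.ker (e (Fin.last s))
    let R := LinearMap.range (e (Fin.last s))
    have heW : ∀ (i : Fin s), ∀ x ∈ W, e i.castSucc x ∈ W := fun i x _ => hpe i x
    let e' : Fin s → End F W := fun i => (e i.castSucc).restrict (heW i)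
    have he' : ∀ i (x : W), ((e' i x : W) : V) = e i.castSucc x := fun i x => rfl
    have hid' : ∀ i, e' i * e' i = e' i := fun i => by
      apply LinearMap.ext
      intro x
      apply Subtype.ext
      exact congrArg (fun a : End F V => a (x : V)) (hid i.castSucc)
    have hor' : ∀ i j, i ≠ j → e' i * e' j = 0 := fun i j hij => by
      apply LinearMap.ext
      intro x
      apply Subtype.ext
      exact congrArg (fun a : End F V => a (x : V)) (hor i.castSucc j.castSucc
        (fun h => hij (Fin.castSucc_injective s h)))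
    obtain ⟨U, hU, D, σ, hl, hdeg, hres⟩ := ih W e' hid' hor'
    have hst := IsLevi.step W R (stab e') U _ hU (levM (stab e') R) (levU U R)
      (fun g => Iff.rfl) (fun g => Iff.rfl)
    obtain ⟨D1, f1, -, hl1, hψ1⟩ := Dat.step hc hd D (W := R) (M' := levM (stab e') R)
      (U' := levU U R) (fun g => Iff.rfl) (fun g => Iff.rfl)
    -- the splitting
    have hcompl : IsCompl W R := by
      constructor
      · rw [Submodule.disjoint_def]
        rintro x hx ⟨y, rfl⟩
        have : e (Fin.last s) (e (Fin.last s) y) = 0 := hx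
        rwa [hpp] at this
      · rw [codisjoint_iff, eq_top_iff]
        intro x _
        rw [Submodule.mem_sup]
        refine ⟨x - e (Fin.last s) x, ?_, e (Fin.last s) x, ⟨x, rfl⟩, sub_add_cancel x _⟩
        change e (Fin.last s) (x - e (Fin.last s) x) = 0
        rw [map_sub, hpp, sub_self]
    let E : (W × R) ≃ₗ[F] V := Submodule.prodEquivOfIsCompl W R hcompl
    have hE : ∀ x : W × R, E x = (x.1 : V) + x.2 := fun x => rfl
    have hE1 : ∀ x : W × R, e (Fin.last s) (E x) = x.2 := by
      rintro ⟨⟨x, hx⟩, ⟨_, y, rfl⟩⟩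
      rw [hE, map_add]
      have : e (Fin.last s) x = 0 := hx
      rw [this, zero_add, hpp]
    have hEe : ∀ (i : Fin s) (y : W × R), e i.castSucc (E y) = (e' i y.1 : W) := by
      intro i y
      obtain ⟨z, hz⟩ := y.2.2
      rw [hE, map_add, ← hz, hep, add_zero]
      rfl
    have htr := IsLevi.transport (W × R) V E _ _ _ hst
    have hmap : (levM (stab e') R).map (cE E).toMonoidHom = stab e := by
      ext g
      constructor
      · rintro ⟨m, ⟨a, ha, b, rfl⟩, rfl⟩
        rw [mem_stab'] at ha ⊢
        intro i x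
        obtain ⟨x, rfl⟩ := E.surjective x
        have h1 : ∀ y : W × R, (cE E).toMonoidHom (LinearEquiv.skewProd a b 0) (E y) =
            E (a y.1, b y.2) := by
          intro y
          change E (LinearEquiv.skewProd a b 0 (E.symm (E y))) = _
          rw [E.symm_apply_apply, skew_apply]
          change E (a y.1, b y.2 + 0) = _
          rw [add_zero]
        refine Fin.lastCases ?_ (fun i => ?_) i
        · have h2 : ∀ y : W × R, e (Fin.last s) (E y) = E (0, y.2) := by
            intro y
            have h3 : e (Fin.last s) (E y) = (y.2 : V) := hE1 y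
            rw [h3, hE]
            change _ = (0 : V) + (y.2 : V)
            rw [zero_add]
          rw [h2, h1, h1, h2, map_zero]
        · have h2 : ∀ y : W × R, e i.castSucc (E y) = E (e' i y.1, 0) := by
            intro y
            rw [hEe, hE]
            change _ = _ + (0 : V)
            rw [add_zero]
          rw [h2, h1, h1, h2]
          change E (a (e' i x.1), b 0) = E (e' i (a x.1), 0)
          rw [ha, map_zero]
      · intro hg
        rw [mem_stab'] at hg
        have hgi : ∀ i x, g⁻¹ (e i x) = e i (g⁻¹ x) := mem_stab'.mp ((stab e).inv_mem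
          (mem_stab'.mpr hg))
        have hW : ∀ x ∈ W, g x ∈ W := by
          intro x hx
          change e (Fin.last s) (g x) = 0
          rw [← hg (Fin.last s)]
          have : e (Fin.last s) x = 0 := hx
          rw [this, map_zero]
        have hW' : ∀ x ∈ W, g⁻¹ x ∈ W := by
          intro x hx
          change e (Fin.last s) (g⁻¹ x) = 0
          rw [← hgi (Fin.last s)]
          have : e (Fin.last s) x = 0 := hx
          rw [this, map_zero]
        have hR : ∀ x ∈ R, g x ∈ R := by
          rintro _ ⟨y, rfl⟩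
          exact ⟨g y, (hg (Fin.last s) y).symm⟩
        have hR' : ∀ x ∈ R, g⁻¹ x ∈ R := by
          rintro _ ⟨y, rfl⟩
          exact ⟨g⁻¹ y, (hgi (Fin.last s) y).symm⟩
        refine ⟨LinearEquiv.skewProd (Vale.Agent.P180.H951.rs g W hW hW')
          (Vale.Agent.P180.H951.rs g R hR hR') 0,
          ⟨Vale.Agent.P180.H951.rs g W hW hW', ?_, Vale.Agent.P180.H951.rs g R hR hR', rfl⟩, ?_⟩
        · rw [mem_stab']
          intro i x
          apply Subtype.ext
          exact hg i.castSucc x
        · apply LinearEquiv.ext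
          intro x
          obtain ⟨x, rfl⟩ := E.surjective x
          change E (LinearEquiv.skewProd (Vale.Agent.P180.H951.rs g W hW hW')
            (Vale.Agent.P180.H951.rs g R hR hR') 0 (E.symm (E x))) = _
          rw [E.symm_apply_apply, skew_apply]
          change g (x.1 : V) + ((g (x.2 : V)) + 0) = g ((x.1 : V) + x.2)
          rw [add_zero, map_add]
    -- the dimensions
    have hmapr : ∀ i : Fin s, (LinearMap.range (e' i)).map W.subtype =
        LinearMap.range (e i.castSucc) := by
      intro i
      ext x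
      constructor
      · rintro ⟨_, ⟨y, rfl⟩, rfl⟩
        exact ⟨(y : V), rfl⟩
      · rintro ⟨y, rfl⟩
        have hy : y - e (Fin.last s) y ∈ W := by
          change e (Fin.last s) (y - e (Fin.last s) y) = 0
          rw [map_sub, hpp, sub_self]
        refine ⟨e' i ⟨y - e (Fin.last s) y, hy⟩, ⟨_, rfl⟩, ?_⟩
        change e i.castSucc (y - e (Fin.last s) y) = e i.castSucc y
        rw [map_sub, hep, sub_zero]
    let θ : ∀ i : Fin s, LinearMap.range (e' i) ≃ₗ[F] LinearMap.range (e i.castSucc) := fun i =>
      ((Submodule.equivSubtypeMap W (LinearMap.range (e' i)))).trans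
        (LinearEquiv.ofEq _ _ (hmapr i))
    have hθ : ∀ i (x : LinearMap.range (e' i)), ((θ i x : LinearMap.range (e i.castSucc)) : V) =
        ((x : W) : V) := fun i x => rfl
    have hsum : ∑ i, finrank F (LinearMap.range (e i)) =
        ∑ i, finrank F (LinearMap.range (e' i)) + finrank F R := by
      rw [Fin.sum_univ_castSucc]
      congr 1
      exact Finset.sum_congr rfl fun i _ => ((θ i).finrank_eq).symm
    rw [hmap] at htr
    obtain ⟨D2, f2, -, hl2, hψ2⟩ := Dat.trans E D1 hmap rfl
    let σ2 : D2.I → Fin (s + 1) → Om K F := fun i =>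
      Fin.snoc (α := fun _ => Om K F) (σ (f1 (f2 i)).1) (f1 (f2 i)).2.1
    have hσl : ∀ i, σ2 i (Fin.last s) = (f1 (f2 i)).2.1 := fun i => Fin.snoc_last _ _
    have hσc : ∀ i (t : Fin s), σ2 i t.castSucc = σ (f1 (f2 i)).1 t := fun i t =>
      Fin.snoc_castSucc (α := fun _ => Om K F) _ _ _
    letI iM : Fintype (stab e') := Fintype.ofFinite _
    refine ⟨(levU U R).map (cE E).toMonoidHom, ?_, D2, σ2, ?_, ?_, ?_⟩
    · rw [hsum]
      exact htr
    · intro i
      rw [hl2, hl1, hl, lst, hσl]
      congr 2
      funext t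
      rw [hσc]
    · intro i t
      refine Fin.lastCases ?_ (fun t => ?_) t
      · rw [hσl]
        exact mem_OmS.mp (f1 (f2 i)).2.2
      · rw [hσc, hdeg, (θ t).finrank_eq]
    · intro i t
      refine Fin.lastCases ?_ (fun t => ?_) t
      · refine ⟨D.ψ (f1 (f2 i)).1 1, Vale.Agent.P180.H337.one_ne (D.ir _ iM), fun b => ?_⟩
        have hm : sk (((1 : stab e') : stab e') : W ≃ₗ[F] W) b 0 ∈ levM (stab e') R :=
          ⟨1, (stab e').one_mem, b, rfl⟩
        have h1 : iota (e (Fin.last s)) (hid (Fin.last s)) b =
            cE E (sk (((1 : stab e') : stab e') : W ≃ₗ[F] W) b 0) := by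
          apply LinearEquiv.ext
          intro x
          obtain ⟨y, rfl⟩ := E.surjective x
          have h2 : (⟨e (Fin.last s) (E y), E y, rfl⟩ : LinearMap.range (e (Fin.last s))) = y.2 :=
            Subtype.ext (hE1 y)
          rw [iota_apply, h2, hE1, cE_apply, E.symm_apply_apply, sk_apply, hE, hE,
            add_sub_cancel_right]
          change _ = (y.1 : V) + (((b y.2 + 0 : R) : R) : V)
          rw [add_zero, add_comm]
        have h2 : cE E (sk (((1 : stab e') : stab e') : W ≃ₗ[F] W) b 0) ∈ stab e := by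
          rw [← h1]
          exact iota_mem hid hor _ b
        have h3 := hψ2 i ⟨_, hm⟩ h2
        have h4 := hψ1 (f2 i) 1 b hm
        rw [hσl, ← h4, ← h3]
        exact congrArg (D2.ψ i) (Subtype.ext h1)
      · obtain ⟨m, hm0, hmb⟩ := hres (f1 (f2 i)).1 t
        refine ⟨m * X (f1 (f2 i)).2.1 R (1 : R ≃ₗ[F] R), mul_ne_zero hm0
          (X_one_ne (mem_OmS.mp (f1 (f2 i)).2.2).symm), fun b => ?_⟩
        have hst' := iota_mem hid' hor' t (cg (θ t).symm b)
        have hm : sk (((⟨_, hst'⟩ : stab e') : stab e') : W ≃ₗ[F] W) (1 : R ≃ₗ[F] R) 0 ∈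
          levM (stab e') R := ⟨_, hst', 1, rfl⟩
        have h1 : iota (e t.castSucc) (hid t.castSucc) b =
            cE E (sk (((⟨_, hst'⟩ : stab e') : stab e') : W ≃ₗ[F] W) (1 : R ≃ₗ[F] R) 0) := by
          apply LinearEquiv.ext
          intro x
          obtain ⟨y, rfl⟩ := E.surjective x
          have h2 : (⟨e t.castSucc (E y), E y, rfl⟩ : LinearMap.range (e t.castSucc)) =
              θ t ⟨e' t y.1, y.1, rfl⟩ := Subtype.ext (hEe t y)
          rw [iota_apply, h2, hEe, cE_apply, E.symm_apply_apply, sk_apply, hE, hE]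
          change _ = ((iota (e' t) (hid' t) (cg (θ t).symm b) y.1 : W) : V) +
            (((y.2 + 0 : R) : R) : V)
          rw [iota_apply, add_zero]
          change _ = ((((cg (θ t).symm b ⟨e' t y.1, y.1, rfl⟩ : LinearMap.range (e' t)) : W) : V) +
            ((y.1 : V) - ((e' t y.1 : W) : V))) + (y.2 : V)
          have h3 : ((((cg (θ t).symm b ⟨e' t y.1, y.1, rfl⟩ : LinearMap.range (e' t)) : W) : V)) =
              ((b (θ t ⟨e' t y.1, y.1, rfl⟩) : LinearMap.range (e t.castSucc)) : V) := by
            rw [← hθ, cg_apply, LinearEquiv.symm_symm, LinearEquiv.apply_symm_apply]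
          rw [h3]
          abel
        have h2 : cE E (sk (((⟨_, hst'⟩ : stab e') : stab e') : W ≃ₗ[F] W) (1 : R ≃ₗ[F] R) 0) ∈
            stab e := by
          rw [← h1]
          exact iota_mem hid hor _ b
        have h3 := hψ2 i ⟨_, hm⟩ h2
        have h4 := hψ1 (f2 i) ⟨_, hst'⟩ 1 hm
        have h5 := X_cg (σ (f1 (f2 i)).1 t) (θ t) (cg (θ t).symm b)
        rw [cg_symm] at h5
        rw [hmb, ← h5] at h4
        rw [hσc]
        have h6 : D2.ψ i ⟨iota (e t.castSucc) (hid t.castSucc) b, iota_mem hid hor t.castSucc b⟩ =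
            D2.ψ i ⟨_, h2⟩ := congrArg (D2.ψ i) (Subtype.ext h1)
        rw [h6, h3, h4]
        ring

end

end Vale.Agent.P180.H897
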