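import Vale.Agent.P180.H897.C1

/-!
P180 theorem B, block B6 (helper897): the restriction of all irreducible characters to a Levi
subgroup, with explicit data.
-/

set_option linter.all false

namespace Vale.Agent.P180.H897

universe u

open Finset Vale.Agent.P180 Vale.Agent.P180.R2.H799 Vale.Agent.P180.R2.H471.Hc
open Vale.Agent.P180.H393 Vale.Agent.P180.H337 Vale.Agent.P180.H951 Vale.Agent.P180.H568
open Module (finrank)

section

variable {K : Type u} [Field K] [IsAlgClosed K] [CharZero K] {F : Type} [Field F] [Finite F]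
variable [DecidableEq (Om K F)]

/-- the restriction of the irreducible characters to the Levi subgroup -/
structure Dat (P : PSH (Om K F)) (V : Type) [AddCommGroup V] [Module F V]
    (M U : Subgroup (V ≃ₗ[F] V)) where
  I : Type u
  fin : Fintype I
  ψ : I → M → K
  π : I → Om K F
  l : I → List (Om K F)
  ir : ∀ i, ∀ (_ : Fintype M), IsIr K M (ψ i)
  inj : Function.Injective ψ
  deg : ∀ i, (π i).deg + ((l i).map Om.deg).sum = finrank F V
  res : ∀ N, finrank F V ≤ N → ∀ (w : Om K F) (m : M) (_ : Fintype U),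
      (Nat.card U : K)⁻¹ * ∑ u : U, X w V ((u : V ≃ₗ[F] V) * (m : V ≃ₗ[F] V)) =
        ∑ i, (P.cnt N (l i) (π i) w : K) * ψ i m

attribute [instance] Dat.fin

variable {P : PSH (Om K F)}

/-- the trivial decomposition -/
noncomputable def Dat.base (P : PSH (Om K F)) (V : Type) [AddCommGroup V] [Module F V] [Finite V] :
    Dat P V (⊤ : Subgroup (V ≃ₗ[F] V)) ⊥ where
  I := ↥(OmS K F (finrank F V))
  fin := inferInstance
  ψ := fun w m => X w.1 V m
  π := fun w => w.1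
  l := fun _ => []
  ir := by
    intro w _
    exact IsIr.comp_equiv (X_isIr (V := V) (mem_OmS.mp w.2).symm) Subgroup.topEquiv
  inj := by
    intro w w' h
    apply Subtype.ext
    refine X_inj (V := V) (mem_OmS.mp w.2).symm (mem_OmS.mp w'.2).symm ?_
    funext g
    exact congrFun h ⟨g, trivial⟩
  deg := by
    intro w
    exact mem_OmS.mp w.2
  res := by
    intro N hN w m _
    have h1 : ∑ u : (⊥ : Subgroup (V ≃ₗ[F] V)), X w V ((u : V ≃ₗ[F] V) * (m : V ≃ₗ[F] V)) =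
        X w V (m : V ≃ₗ[F] V) := by
      rw [Finset.sum_eq_single (1 : (⊥ : Subgroup (V ≃ₗ[F] V)))]
      · rw [Subgroup.coe_one, one_mul]
      · intro b _ hb
        exact absurd (Subsingleton.elim b 1) hb
      · intro h
        exact absurd (Finset.mem_univ _) h
    rw [h1, Subgroup.card_bot, Nat.cast_one, inv_one, one_mul]
    by_cases hw : w ∈ OmS K F (finrank F V)
    · rw [Finset.sum_eq_single (⟨w, hw⟩ : ↥(OmS K F (finrank F V)))]
      · rw [PSH.cnt_nil, if_pos rfl, Nat.cast_one, one_mul]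
      · intro b _ hb
        rw [PSH.cnt_nil, if_neg (fun h => hb (Subtype.ext h.symm)), Nat.cast_zero, zero_mul]
      · intro h
        exact absurd (Finset.mem_univ _) h
    · rw [X_zero w (fun h => hw (mem_OmS.mpr h.symm)), Finset.sum_eq_zero]
      intro b _
      rw [PSH.cnt_nil, if_neg (fun h => hw (by rw [h]; exact b.2)), Nat.cast_zero, zero_mul]

/-- transport along a linear equivalence -/
theorem Dat.trans {V V' : Type} [AddCommGroup V] [Module F V] [AddCommGroup V'] [Module F V']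
    (e : V ≃ₗ[F] V') {M U : Subgroup (V ≃ₗ[F] V)} (D : Dat P V M U)
    {M' U' : Subgroup (V' ≃ₗ[F] V')} (hM : M.map (cE e).toMonoidHom = M')
    (hU : U.map (cE e).toMonoidHom = U') : ∃ (D' : Dat P V' M' U') (f : D'.I ≃ D.I),
      (∀ i, D'.π i = D.π (f i)) ∧ (∀ i, D'.l i = D.l (f i)) ∧
      ∀ i (m : M) (h : cE e (m : V ≃ₗ[F] V) ∈ M'), D'.ψ i ⟨cE e (m : V ≃ₗ[F] V), h⟩ =
        D.ψ (f i) m := by
  classical
  subst hM hU
  have hinj : Function.Injective (cE e).toMonoidHom := (cE e).injective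
  let eM := M.equivMapOfInjective _ hinj
  let eU := U.equivMapOfInjective _ hinj
  refine ⟨⟨D.I, D.fin, fun i m => D.ψ i (eM.symm m), D.π, D.l, ?_, ?_, ?_, ?_⟩, Equiv.refl _,
    fun _ => rfl, fun _ => rfl, ?_⟩
  · intro i _
    letI : Fintype M := Fintype.ofEquiv _ eM.symm.toEquiv
    exact IsIr.comp_equiv (D.ir i _) eM.symm
  · intro i j hij
    apply D.inj
    funext m
    have := congrFun hij (eM m)
    simp only [MulEquiv.symm_apply_apply] at this
    exact this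
  · intro i
    rw [D.deg i, e.finrank_eq]
  · intro N hN w m iU
    letI : Fintype U := Fintype.ofEquiv _ eU.symm.toEquiv
    obtain ⟨m, rfl⟩ := eM.surjective m
    rw [← e.finrank_eq] at hN
    simp only [MulEquiv.symm_apply_apply]
    rw [← D.res N hN w m inferInstance, ← Nat.card_congr eU.toEquiv]
    congr 1
    rw [← Equiv.sum_comp eU.toEquiv]
    refine Finset.sum_congr rfl fun u _ => ?_
    rw [← X_cg w e, map_mul]
    rfl
  · intro i m h
    have h1 : (⟨cE e (m : V ≃ₗ[F] V), h⟩ : M.map (cE e).toMonoidHom) = eM m := rfl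
    change D.ψ i (eM.symm ⟨cE e (m : V ≃ₗ[F] V), h⟩) = D.ψ i m
    rw [h1, MulEquiv.symm_apply_apply]

/-- one more summand -/
theorem Dat.step (hc : ∀ a b w, P.c a b w = cc a b w) (hd : ∀ w, P.deg w = w.deg)
    {V W : Type} [AddCommGroup V] [Module F V] [AddCommGroup W] [Module F W]
    [Finite V] [Finite W] {M U : Subgroup (V ≃ₗ[F] V)} (D : Dat P V M U)
    {M' U' : Subgroup ((V × W) ≃ₗ[F] (V × W))}
    (hM : ∀ g, g ∈ M' ↔ ∃ a ∈ M, ∃ b : W ≃ₗ[F] W, g = sk a b 0)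
    (hU : ∀ g, g ∈ U' ↔ ∃ u ∈ U, ∃ f : V →ₗ[F] W, g = sk u 1 f) :
    ∃ (D' : Dat P (V × W) M' U') (f : D'.I ≃ D.I × ↥(OmS K F (finrank F W))),
      (∀ i, D'.π i = D.π (f i).1) ∧ (∀ i, D'.l i = (f i).2.1 :: D.l (f i).1) ∧
      ∀ i (a : M) (b : W ≃ₗ[F] W) (h : sk (a : V ≃ₗ[F] V) b 0 ∈ M'),
        D'.ψ i ⟨sk (a : V ≃ₗ[F] V) b 0, h⟩ = D.ψ (f i).1 a * X (f i).2.1 W b := by
  classical
  letI iM : Fintype M := Fintype.ofFinite M
  letI iU : Fintype U := Fintype.ofFinite U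
  -- the Levi subgroup
  let φ : M × (W ≃ₗ[F] W) →* M' :=
    { toFun := fun x => ⟨sk x.1 x.2 0, (hM _).mpr ⟨x.1, x.1.2, x.2, rfl⟩⟩
      map_one' := Subtype.ext sk_one
      map_mul' := fun x y => Subtype.ext (by
        change sk (x.1 * y.1 : V ≃ₗ[F] V) (x.2 * y.2) 0 = sk (x.1 : V ≃ₗ[F] V) x.2 0 *
          sk (y.1 : V ≃ₗ[F] V) y.2 0
        rw [sk_mul, LinearMap.comp_zero, LinearMap.zero_comp, add_zero]) }
  have hφ : Function.Bijective φ := by
    constructor
    · rintro ⟨a, b⟩ ⟨a', b'⟩ hh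
      have h6 : sk (a : V ≃ₗ[F] V) b 0 = sk (a' : V ≃ₗ[F] V) b' 0 := congrArg Subtype.val hh
      obtain ⟨e1, e2, -⟩ := sk_inj h6
      exact Prod.ext (Subtype.ext e1) e2
    · rintro ⟨g, hg⟩
      obtain ⟨a, ha, b, rfl⟩ := (hM g).mp hg
      exact ⟨(⟨a, ha⟩, b), rfl⟩
  let e : M × (W ≃ₗ[F] W) ≃* M' := MulEquiv.ofBijective φ hφ
  -- the radical
  let EU : U × (V →ₗ[F] W) ≃ U' :=
    Equiv.ofBijective (fun x => ⟨sk (x.1 : V ≃ₗ[F] V) 1 x.2, (hU _).mpr ⟨x.1, x.1.2, x.2, rfl⟩⟩)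
      (by
        constructor
        · rintro ⟨a, b⟩ ⟨a', b'⟩ hh
          have h6 : sk (a : V ≃ₗ[F] V) 1 b = sk (a' : V ≃ₗ[F] V) (1 : W ≃ₗ[F] W) b' :=
            congrArg Subtype.val hh
          obtain ⟨e1, -, e2⟩ := sk_inj h6
          exact Prod.ext (Subtype.ext e1) e2
        · rintro ⟨g, hg⟩
          obtain ⟨a, ha, b, rfl⟩ := (hU g).mp hg
          exact ⟨(⟨a, ha⟩, b), rfl⟩)
  have hX : ∀ b : ↥(OmS K F (finrank F W)), IsIr K _ (X b.1 W) := fun b =>
    X_isIr (mem_OmS.mp b.2).symm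
  refine ⟨⟨D.I × ↥(OmS K F (finrank F W)), inferInstance,
    fun i g => D.ψ i.1 (e.symm g).1 * X i.2.1 W (e.symm g).2, fun i => D.π i.1,
    fun i => i.2.1 :: D.l i.1, ?_, ?_, ?_, ?_⟩, Equiv.refl _, fun _ => rfl, fun _ => rfl, ?_⟩
  · intro i _
    exact IsIr.comp_equiv (IsIr.prod (D.ir i.1 iM) (hX i.2)) e.symm
  · rintro ⟨i, b⟩ ⟨i', b'⟩ hh
    have h6 : IrK.prod ((⟨D.ψ i, D.ir i iM⟩ : IrK K M), (⟨X b.1 W, hX b⟩ : IrK K (W ≃ₗ[F] W))) =
        IrK.prod ((⟨D.ψ i', D.ir i' iM⟩ : IrK K M), (⟨X b'.1 W, hX b'⟩ : IrK K (W ≃ₗ[F] W))) := by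
      apply Subtype.ext
      funext g
      have h7 := congrFun hh (e g)
      simp only [MulEquiv.symm_apply_apply] at h7
      exact h7
    have h7 := (IrK.prod (K := K) (H := M) (H' := W ≃ₗ[F] W)).injective h6
    have h8 : D.ψ i = D.ψ i' := congrArg (fun z => z.1.1) h7
    have h9 : X b.1 W = X b'.1 W := congrArg (fun z => z.2.1) h7
    exact Prod.ext (D.inj h8) (Subtype.ext (X_inj (mem_OmS.mp b.2).symm (mem_OmS.mp b'.2).symm h9))
  · intro i
    rw [List.map_cons, List.sum_cons, mem_OmS.mp i.2.2, finrank_prod', ← D.deg i.1]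
    omega
  · intro N hN w g _
    obtain ⟨⟨a, b⟩, rfl⟩ := e.surjective g
    rw [finrank_prod'] at hN
    simp only [MulEquiv.symm_apply_apply]
    have e1 : ∑ u : U', X w (V × W) ((u : (V × W) ≃ₗ[F] (V × W)) * (e (a, b) : M')) =
        ∑ u : U, ∑ f : V →ₗ[F] W, X w (V × W) (sk ((u : V ≃ₗ[F] V) * a) b f) := by
      rw [← Equiv.sum_comp EU, Fintype.sum_prod_type]
      refine Finset.sum_congr rfl fun u _ => ?_
      exact sum_sk (X w (V × W)) u a b
    have e2 : (Nat.card U' : K)⁻¹ = (Nat.card U : K)⁻¹ * (Nat.card (V →ₗ[F] W) : K)⁻¹ := by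
      rw [← Nat.card_congr EU, Nat.card_prod, Nat.cast_mul, mul_inv]
    have e3 : (Nat.card U' : K)⁻¹ * ∑ u : U', X w (V × W)
        ((u : (V × W) ≃ₗ[F] (V × W)) * (e (a, b) : M')) =
        (Nat.card U : K)⁻¹ * ∑ u : U, Res (X w (V × W)) ((u : V ≃ₗ[F] V) * a) b := by
      rw [e1, e2, mul_assoc, Finset.mul_sum]
      rfl
    rw [e3]
    have e4 : ∀ u : U, Res (X w (V × W)) ((u : V ≃ₗ[F] V) * a) b =
        ∑ b' ∈ OmS K F (finrank F W), ∑ a' ∈ OmS K F (finrank F V),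
          (cc a' b' w : K) * X b' W b * X a' V ((u : V ≃ₗ[F] V) * a) := by
      intro u
      rw [res_eq, Finset.sum_comm]
      refine Finset.sum_congr rfl fun b' _ => Finset.sum_congr rfl fun a' _ => ?_
      ring
    rw [Finset.sum_congr rfl fun u _ => e4 u, Finset.sum_comm, Finset.mul_sum,
      Fintype.sum_prod_type, Finset.sum_comm (s := (univ : Finset D.I)), ← Finset.sum_coe_sort
        (OmS K F (finrank F W))]
    refine Finset.sum_congr rfl fun b' _ => ?_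
    rw [Finset.sum_comm, Finset.mul_sum]
    have e5 : ∀ a' ∈ OmS K F (finrank F V), (Nat.card U : K)⁻¹ * ∑ u : U,
        (cc a' b'.1 w : K) * X b'.1 W b * X a' V ((u : V ≃ₗ[F] V) * a) =
        ∑ i, (cc a' b'.1 w : K) * X b'.1 W b *
          ((P.cnt N (D.l i) (D.π i) a' : K) * D.ψ i a) := by
      intro a' _
      rw [← Finset.mul_sum, mul_left_comm, D.res N (by omega) a' a iU, Finset.mul_sum]
    rw [Finset.sum_congr rfl e5, Finset.sum_comm]
    refine Finset.sum_congr rfl fun i _ => ?_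
    rw [← cnt_step hc hd (show finrank F V ≤ N by omega) rfl (D.deg i) b'.1 w]
    push_cast
    rw [Finset.sum_mul]
    refine Finset.sum_congr rfl fun a' _ => ?_
    ring
  · intro i a b h
    have h1 : e.symm ⟨sk (a : V ≃ₗ[F] V) b 0, h⟩ = (a, b) := by
      rw [MulEquiv.symm_apply_eq]
      rfl
    have h2 : ∀ z : M × (W ≃ₗ[F] W), z = (a, b) →
        D.ψ i.1 z.1 * X i.2.1 W z.2 = D.ψ i.1 a * X i.2.1 W b := by
      intro z hz
      rw [hz]
    exact h2 _ h1

end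

end Vale.Agent.P180.H897
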