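import Vale.Agent.P180.H897.Box
import Vale.Agent.P180.H337.Idem
import Vale.Agent.P180.R2.H954.Hc2b

/-!
P180 theorem B (helper897): the value of an irreducible character of the Levi subgroup at a
central idempotent of a factor.
-/

set_option linter.all false

namespace Vale.Agent.P180.H897

universe u

open Finset Vale.Agent.P180 Vale.Agent.P180.R2.H799 Vale.Agent.P180.R2.H471.Hc
open Vale.Agent.P180.H393 Vale.Agent.P180.H337 Vale.Agent.P180.H951 Vale.Agent.P180.H568
open Module (finrank End)

theorem mdr_single {R : Type*} [Semiring R] {G H : Type*} [Monoid G] [Monoid H] (ι : H →* G)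
    (h : H) (c : R) : MonoidAlgebra.mapDomainRingHom R ι (MonoidAlgebra.single h c) =
      MonoidAlgebra.single (ι h) c := MonoidAlgebra.mapDomain_single

section

variable {K : Type u} [Field K] {G H : Type} [Group G] [Fintype G] [Group H] [Fintype H]

omit [Fintype G] in
theorem mp_eq (ι : H →* G) (z : MonoidAlgebra K H) :
    MonoidAlgebra.mapDomainRingHom K ι z =
      ∑ h : H, z.coeff h • MonoidAlgebra.single (ι h) (1 : K) := by
  conv_lhs => rw [eq_sum_single z]
  rw [map_sum]
  refine Finset.sum_congr rfl fun h _ => ?_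
  rw [MonoidAlgebra.smul_single, smul_eq_mul, mul_one, mdr_single,
    MonoidAlgebra.smul_single, smul_eq_mul, mul_one]

omit [Fintype G] in
theorem mp_mem (ι : H →* G) {M : Subgroup G} (hι : ∀ h, ι h ∈ M) (z : MonoidAlgebra K H) :
    MonoidAlgebra.mapDomainRingHom K ι z ∈ SubAlg K M := by
  rw [mp_eq]
  exact Subalgebra.sum_mem _ fun h _ => Subalgebra.smul_mem _ (single_mem_SubAlg (hι h) 1) _

theorem ev_mp (ι : H →* G) (φ : G → K) (z : MonoidAlgebra K H) :
    ev φ (MonoidAlgebra.mapDomainRingHom K ι z) = ev (fun h => φ (ι h)) z := by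
  rw [mp_eq, ← evL_apply, map_sum, ev]
  refine Finset.sum_congr rfl fun h _ => ?_
  rw [map_smul, evL_apply, ev_single, one_mul, smul_eq_mul]

theorem ev_rs_mp (ι : H →* G) {M : Subgroup G} [Fintype M] (hι : ∀ h, ι h ∈ M) (ψ : M → K)
    (z : MonoidAlgebra K H) :
    ev ψ (Vale.Agent.P180.H337.rs M (MonoidAlgebra.mapDomainRingHom K ι z)) =
      ev (fun h => ψ ⟨ι h, hι h⟩) z := by
  classical
  let φ : G → K := fun g => if h : g ∈ M then ψ ⟨g, h⟩ else 0
  have h1 : ψ = fun s : M => φ s := by
    funext s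
    change ψ s = if h : (s : G) ∈ M then ψ ⟨s, h⟩ else 0
    rw [dif_pos s.2]
  have h2 : (fun h => ψ ⟨ι h, hι h⟩) = fun h => φ (ι h) := by
    funext h
    change _ = if h' : ι h ∈ M then ψ ⟨ι h, h'⟩ else 0
    rw [dif_pos (hι h)]
  rw [h2]
  conv_lhs => rw [h1]
  rw [ev_rs (mp_mem ι hι z), ev_mp]

/-- **An irreducible character of `M` which occurs in `x` has its restriction to a factor in the
block of the factor.** -/
theorem ev_factor [IsAlgClosed K] [CharZero K] (ι : H →* G) {M : Subgroup G} [Fintype M]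
    (hι : ∀ h, ι h ∈ M) {z : MonoidAlgebra K H} (hzz : z * z = z)
    (hzc : ∀ g ∈ M, MonoidAlgebra.single g 1 * MonoidAlgebra.mapDomainRingHom K ι z =
      MonoidAlgebra.mapDomainRingHom K ι z * MonoidAlgebra.single g 1)
    {ψ : M → K} (hψ : IsIr K M ψ) {x : MonoidAlgebra K G} (hx : x ∈ SubAlg K M)
    (hzx : MonoidAlgebra.mapDomainRingHom K ι z * x = x)
    (hne : ev ψ (Vale.Agent.P180.H337.rs M x) ≠ 0) {θ : H → K} {m : K}
    (hm : ∀ h, ψ ⟨ι h, hι h⟩ = m * θ h) : ev θ z ≠ 0 := by
  classical
  intro h0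
  have hz1 := mp_mem ι hι z
  have h1 : Vale.Agent.P180.H337.rs M (MonoidAlgebra.mapDomainRingHom K ι z) *
      Vale.Agent.P180.H337.rs M (MonoidAlgebra.mapDomainRingHom K ι z) =
      Vale.Agent.P180.H337.rs M (MonoidAlgebra.mapDomainRingHom K ι z) := by
    rw [← rs_mul hz1, ← map_mul, hzz]
  have hcomm : ∀ y ∈ SubAlg K M, y * MonoidAlgebra.mapDomainRingHom K ι z =
      MonoidAlgebra.mapDomainRingHom K ι z * y := by
    intro y hy
    apply commute_of_mem hy
    rw [mem_Fix_cj_iff]
    exact hzc
  have h2 : ∀ y, y * Vale.Agent.P180.H337.rs M (MonoidAlgebra.mapDomainRingHom K ι z) =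
      Vale.Agent.P180.H337.rs M (MonoidAlgebra.mapDomainRingHom K ι z) * y := by
    intro y
    obtain ⟨y, hy, rfl⟩ := exists_rs y
    rw [← rs_mul hy, ← rs_mul hz1, hcomm y hy]
  have h3 : ev ψ (Vale.Agent.P180.H337.rs M (MonoidAlgebra.mapDomainRingHom K ι z)) = 0 := by
    rw [ev_rs_mp ι hι]
    have : (fun h => ψ ⟨ι h, hι h⟩) = fun h => m * θ h := funext hm
    rw [this]
    have h4 : ev (fun h => m * θ h) z = m * ev θ z := by
      unfold ev
      rw [Finset.mul_sum]
      exact Finset.sum_congr rfl fun h _ => by ring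
    rw [h4, h0, mul_zero]
  have h4 := (ev_central_eq_zero_iff hψ h2 h1).mp h3 (Vale.Agent.P180.H337.rs M x)
  rw [← rs_mul hz1, hzx] at h4
  exact hne h4

end

section

variable {F V : Type} [Field F] [AddCommGroup V] [Module F V]

/-- conjugation of the embedded factor -/
theorem conj_iota {s : ℕ} {e : Fin s → End F V} (hid : ∀ i, e i * e i = e i) (t : Fin s)
    {g : V ≃ₗ[F] V} (hg : g ∈ stab e) (h : ∀ x ∈ LinearMap.range (e t), g x ∈ LinearMap.range (e t))
    (h' : ∀ x ∈ LinearMap.range (e t), g⁻¹ x ∈ LinearMap.range (e t))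
    (b : LinearMap.range (e t) ≃ₗ[F] LinearMap.range (e t)) :
    g * iota (e t) (hid t) b * g⁻¹ = iota (e t) (hid t)
      (Vale.Agent.P180.H951.rs g (LinearMap.range (e t)) h h' * b *
        (Vale.Agent.P180.H951.rs g (LinearMap.range (e t)) h h')⁻¹) := by
  rw [mul_inv_eq_iff_eq_mul]
  have hg' := mem_stab'.mp hg
  apply LinearEquiv.ext
  intro x
  change g (iota (e t) (hid t) b x) = iota (e t) (hid t) _ (g x)
  have h2 : (⟨e t (g x), g x, rfl⟩ : LinearMap.range (e t)) =
      Vale.Agent.P180.H951.rs g (LinearMap.range (e t)) h h' ⟨e t x, x, rfl⟩ :=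
    Subtype.ext (hg' t x).symm
  rw [iota_apply, iota_apply, map_add, h2, map_sub, ← hg' t x]
  congr 1
  change g (b ⟨e t x, x, rfl⟩ : LinearMap.range (e t)) =
    ((Vale.Agent.P180.H951.rs g (LinearMap.range (e t)) h h' * b *
      (Vale.Agent.P180.H951.rs g (LinearMap.range (e t)) h h')⁻¹)
      (Vale.Agent.P180.H951.rs g (LinearMap.range (e t)) h h' ⟨e t x, x, rfl⟩) :
        LinearMap.range (e t))
  rw [← LinearEquiv.mul_apply, inv_mul_cancel_right]
  rfl

theorem stab_range {s : ℕ} {e : Fin s → End F V} {t : Fin s} {g : V ≃ₗ[F] V} (hg : g ∈ stab e) :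
    ∀ x ∈ LinearMap.range (e t), g x ∈ LinearMap.range (e t) := by
  rintro _ ⟨y, rfl⟩
  exact ⟨g y, (mem_stab'.mp hg t y).symm⟩

/-- The image of a central element of the group algebra of a factor commutes with the Levi
subgroup (any coefficient ring). -/
theorem mp_iota_comm {R : Type u} [CommRing R] [Finite V] {s : ℕ} {e : Fin s → End F V}
    (hid : ∀ i, e i * e i = e i) (t : Fin s)
    {z : MonoidAlgebra R (LinearMap.range (e t) ≃ₗ[F] LinearMap.range (e t))}
    (hz : ∀ y, y * z = z * y) {g : V ≃ₗ[F] V} (hg : g ∈ stab e) :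
    MonoidAlgebra.single g 1 * MonoidAlgebra.mapDomainRingHom R (iota (e t) (hid t)) z =
      MonoidAlgebra.mapDomainRingHom R (iota (e t) (hid t)) z * MonoidAlgebra.single g 1 := by
  classical
  have h := stab_range (t := t) hg
  have h' := stab_range (t := t) ((stab e).inv_mem hg)
  set r := Vale.Agent.P180.H951.rs g (LinearMap.range (e t)) h h' with hr
  -- `single g * ι(y) = ι(r y r⁻¹) * single g`
  have key : ∀ y : MonoidAlgebra R (LinearMap.range (e t) ≃ₗ[F] LinearMap.range (e t)),
      MonoidAlgebra.single g 1 * MonoidAlgebra.mapDomainRingHom R (iota (e t) (hid t)) y =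
      MonoidAlgebra.mapDomainRingHom R (iota (e t) (hid t))
        (MonoidAlgebra.single r 1 * y * MonoidAlgebra.single r⁻¹ 1) * MonoidAlgebra.single g 1 := by
    intro y
    induction y using MonoidAlgebra.induction_linear with
    | zero => simp
    | add x y hx hy => rw [map_add, mul_add, hx, hy, mul_add, add_mul, map_add, add_mul]
    | single b c =>
      rw [MonoidAlgebra.single_mul_single, MonoidAlgebra.single_mul_single,
        mdr_single, mdr_single,
        MonoidAlgebra.single_mul_single, MonoidAlgebra.single_mul_single, ← conj_iota hid t hg h h',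
        inv_mul_cancel_right]
      simp
  rw [key, hz, mul_assoc, MonoidAlgebra.single_mul_single, mul_inv_cancel, one_mul,
    ← MonoidAlgebra.one_def, mul_one]

end

section lift

open IsLocalRing Vale.Agent.P180.R2.H954.Hc

variable {k : Type u} [Field k] [IsAlgClosed k] {p : ℕ} [Fact p.Prime] [CharP k p]

/-- An idempotent over the Witt vectors which reduces to zero is zero. -/
theorem idem_red_zero {G : Type} [Group G] [Finite G] {D : MonoidAlgebra (WittVector p k) G}
    (hD : D * D = D)
    (h0 : MonoidAlgebra.mapRingHom G (WittVector.constantCoeff (p := p) (R := k)) D = 0) :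
    D = 0 := by
  classical
  letI := Fintype.ofFinite G
  have hadic : IsAdicComplete (maximalIdeal (WittVector p k)) (WittVector p k) := adic
  have h1 : ∀ g, ∃ c : WittVector p k, D.coeff g = (p : WittVector p k) * c := by
    intro g
    have h2 : WittVector.constantCoeff (p := p) (R := k) (D.coeff g) = 0 := by
      have h3 := congrArg (fun z => z.coeff g) h0
      rw [MonoidAlgebra.coeff_mapRingHom] at h3
      exact h3
    have h4 : ¬ IsUnit (D.coeff g) := by
      rw [isUnit_iff_coeff]
      exact not_not_intro h2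
    have h5 : D.coeff g ∈ maximalIdeal (WittVector p k) := (mem_maximalIdeal _).mpr h4
    rw [maxIdeal_eq, Ideal.mem_span_singleton] at h5
    obtain ⟨c, hc⟩ := h5
    exact ⟨c, hc⟩
  choose c hc using h1
  set D1 : MonoidAlgebra (WittVector p k) G := ∑ g : G, MonoidAlgebra.single g (c g) with hD1
  have hD1c : ∀ g, D1.coeff g = c g := by
    intro g
    rw [hD1, MonoidAlgebra.coeff_sum, Finsupp.finset_sum_apply, Finset.sum_eq_single g]
    · rw [MonoidAlgebra.coeff_single, Finsupp.single_eq_same]
    · intro b _ hb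
      rw [MonoidAlgebra.coeff_single, Finsupp.single_apply, if_neg hb]
    · intro h
      exact absurd (Finset.mem_univ g) h
  have hDD : D = (p : WittVector p k) • D1 := by
    refine MonoidAlgebra.coeff_injective (Finsupp.ext fun g => ?_)
    rw [MonoidAlgebra.coeff_smul, Finsupp.smul_apply, hD1c, hc, smul_eq_mul]
  have key : ∀ n : ℕ, ∃ E : MonoidAlgebra (WittVector p k) G,
      D = ((p : WittVector p k) ^ n) • E := by
    intro n
    induction n with
    | zero => exact ⟨D, by rw [pow_zero, one_smul]⟩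
    | succ n ih =>
      obtain ⟨E, hE⟩ := ih
      refine ⟨E * D1, ?_⟩
      have h6 : D * D = (((p : WittVector p k) ^ n) • E) * ((p : WittVector p k) • D1) := by
        rw [← hE, ← hDD]
      rw [smul_mul_assoc, mul_smul_comm, smul_smul, ← pow_succ, hD] at h6
      exact h6
  refine MonoidAlgebra.coeff_injective (Finsupp.ext fun g => ?_)
  refine IsHausdorff.haus (I := maximalIdeal (WittVector p k)) inferInstance _ fun n => ?_
  rw [SModEq.zero, smul_eq_mul, Ideal.mul_top, maxIdeal_eq, Ideal.span_singleton_pow,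
    Ideal.mem_span_singleton]
  obtain ⟨E, hE⟩ := key n
  exact ⟨E.coeff g, by rw [hE, MonoidAlgebra.coeff_smul, Finsupp.smul_apply, smul_eq_mul]⟩

/-- If `E` is a central idempotent whose reduction fixes the reduction of `J` then `E` fixes `J`. -/
theorem lift_fix {G : Type} [Group G] [Finite G] {E J : MonoidAlgebra (WittVector p k) G}
    (hEE : E * E = E) (hJJ : J * J = J) (hEJ : E * J = J * E)
    (h : MonoidAlgebra.mapRingHom G (WittVector.constantCoeff (p := p) (R := k)) E *
      MonoidAlgebra.mapRingHom G (WittVector.constantCoeff (p := p) (R := k)) J =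
      MonoidAlgebra.mapRingHom G (WittVector.constantCoeff (p := p) (R := k)) J) : E * J = J := by
  have h1 : (J - E * J) * (J - E * J) = J - E * J := by
    have e1 : J * (E * J) = E * J := by rw [← mul_assoc, ← hEJ, mul_assoc, hJJ]
    have e2 : (E * J) * J = E * J := by rw [mul_assoc, hJJ]
    have e3 : (E * J) * (E * J) = E * J := by
      rw [mul_assoc, e1, ← mul_assoc, hEE]
    rw [sub_mul, mul_sub, mul_sub, hJJ, e1, e2, e3, sub_self, sub_zero]
  have h2 := idem_red_zero h1 (by rw [map_sub, map_mul, h, sub_self])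
  exact (sub_eq_zero.mp h2).symm

/-- **The input of `c1_box` from the blocks of the factors.** -/
theorem ev_of_red {F V : Type} [Field F] [AddCommGroup V] [Module F V] [Finite V]
    [Fintype (V ≃ₗ[F] V)] {s : ℕ} {e : Fin s → End F V} (hid : ∀ i, e i * e i = e i)
    (hor : ∀ i j, i ≠ j → e i * e j = 0) [Fintype (stab e)] (t : Fin s)
    [Fintype (LinearMap.range (e t) ≃ₗ[F] LinearMap.range (e t))]
    {J : MonoidAlgebra (WittVector p k) (V ≃ₗ[F] V)} (hJJ : J * J = J)
    (hJL : ∀ x, J.coeff x ≠ 0 → x ∈ stab e)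
    {E : MonoidAlgebra (WittVector p k) (LinearMap.range (e t) ≃ₗ[F] LinearMap.range (e t))}
    (hEE : E * E = E) (hEc : ∀ y, y * E = E * y)
    (hEJ : MonoidAlgebra.mapDomainRingHom k (iota (e t) (hid t))
        (MonoidAlgebra.mapRingHom _ (WittVector.constantCoeff (p := p) (R := k)) E) *
      MonoidAlgebra.mapRingHom _ (WittVector.constantCoeff (p := p) (R := k)) J =
      MonoidAlgebra.mapRingHom _ (WittVector.constantCoeff (p := p) (R := k)) J)
    {ψ : stab e → KK k p} (hψ : IsIr (KK k p) (stab e) ψ)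
    (hne : ev ψ (Vale.Agent.P180.H337.rs (stab e) (MonoidAlgebra.mapRingHom _ (toKK k p) J)) ≠ 0)
    {θ : (LinearMap.range (e t) ≃ₗ[F] LinearMap.range (e t)) → KK k p} {m : KK k p}
    (hm : ∀ b, ψ ⟨iota (e t) (hid t) b, iota_mem hid hor t b⟩ = m * θ b) :
    ev θ (MonoidAlgebra.mapRingHom _ (toKK k p) E) ≠ 0 := by
  classical
  have hchar : CharZero (KK k p) := charZero_KK k p
  have hmr : ∀ {R S : Type u} [CommRing R] [CommRing S] (f : R →+* S)
      (z : MonoidAlgebra R (LinearMap.range (e t) ≃ₗ[F] LinearMap.range (e t))),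
      MonoidAlgebra.mapRingHom _ f (MonoidAlgebra.mapDomainRingHom R (iota (e t) (hid t)) z) =
      MonoidAlgebra.mapDomainRingHom S (iota (e t) (hid t)) (MonoidAlgebra.mapRingHom _ f z) := by
    intro R S _ _ f z
    induction z using MonoidAlgebra.induction_linear with
    | zero => simp
    | add x y hx hy => rw [map_add, map_add, hx, hy, map_add, map_add]
    | single b c =>
      rw [mdr_single, MonoidAlgebra.mapRingHom_single, MonoidAlgebra.mapRingHom_single, mdr_single]
  -- the images of central elements commute with the elements supported on the stabiliser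
  have hcomm : MonoidAlgebra.mapDomainRingHom (WittVector p k) (iota (e t) (hid t)) E * J =
      J * MonoidAlgebra.mapDomainRingHom (WittVector p k) (iota (e t) (hid t)) E := by
    have h1 : J = ∑ g : V ≃ₗ[F] V, J.coeff g • MonoidAlgebra.single g (1 : WittVector p k) := by
      refine MonoidAlgebra.coeff_injective (Finsupp.ext fun g => ?_)
      rw [MonoidAlgebra.coeff_sum, Finsupp.finset_sum_apply, Finset.sum_eq_single g]
      · rw [MonoidAlgebra.coeff_smul, Finsupp.smul_apply, MonoidAlgebra.coeff_single,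
          Finsupp.single_eq_same, smul_eq_mul, mul_one]
      · intro b _ hb
        rw [MonoidAlgebra.coeff_smul, Finsupp.smul_apply, MonoidAlgebra.coeff_single,
          Finsupp.single_apply, if_neg hb, smul_zero]
      · intro h
        exact absurd (Finset.mem_univ g) h
    rw [h1, Finset.mul_sum, Finset.sum_mul]
    refine Finset.sum_congr rfl fun g _ => ?_
    by_cases hg : J.coeff g = 0
    · rw [hg, zero_smul, mul_zero, zero_mul]
    · rw [mul_smul_comm, smul_mul_assoc, mp_iota_comm hid t hEc (hJL g hg)]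
  have hfix : MonoidAlgebra.mapDomainRingHom (WittVector p k) (iota (e t) (hid t)) E * J = J := by
    refine lift_fix ?_ hJJ hcomm ?_
    · rw [← map_mul, hEE]
    · rw [hmr]
      exact hEJ
  refine ev_factor (K := KK k p) (iota (e t) (hid t)) (iota_mem hid hor t)
    (z := MonoidAlgebra.mapRingHom _ (toKK k p) E) ?_ ?_ hψ
    (x := MonoidAlgebra.mapRingHom _ (toKK k p) J) ?_ ?_ hne hm
  · rw [← map_mul, hEE]
  · intro g hg
    have h1 := congrArg (MonoidAlgebra.mapRingHom _ (toKK k p)) (mp_iota_comm hid t hEc hg)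
    rw [map_mul, map_mul, hmr, MonoidAlgebra.mapRingHom_single, map_one] at h1
    exact h1
  · intro g hg
    apply hJL
    intro h0
    apply hg
    rw [MonoidAlgebra.coeff_mapRingHom, h0, map_zero]
  · rw [← hmr, ← map_mul, hfix]

end lift

end Vale.Agent.P180.H897
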