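import Vale.Agent.P180.H897.MatD
import Vale.Agent.P180.R2.H47.Bm1

/-!
P180, SL at primes dividing the order of the centre: LEMMA D (helper897).
-/

set_option linter.all false

namespace Vale.Agent.P180.H897.MatD

open Module

/-- in a nonabelian `p`-group there is a commutator of order `p` in the centre -/
theorem exists_comm {S : Type*} [Group S] [Finite S] {p : ℕ} [hp : Fact p.Prime]
    (hS : IsPGroup p S) (hna : ∃ x y : S, x * y ≠ y * x) :
    ∃ x y z : S, (∀ a, z * a = a * z) ∧ z ^ p = 1 ∧ z ≠ 1 ∧ x * y = z * (y * x) := by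
  classical
  obtain ⟨a, b, hab⟩ := hna
  have hnt : Nontrivial (S ⧸ Subgroup.center S) := by
    refine ⟨⟨(a : S ⧸ Subgroup.center S), 1, ?_⟩⟩
    intro h
    have h1 : a ∈ Subgroup.center S := (QuotientGroup.eq_one_iff a).1 h
    exact hab (Subgroup.mem_center_iff.1 h1 b).symm
  have hQ : IsPGroup p (S ⧸ Subgroup.center S) := hS.to_quotient _
  have hcn := hQ.center_nontrivial
  obtain ⟨⟨q, hq⟩, hq1⟩ := exists_ne (1 : Subgroup.center (S ⧸ Subgroup.center S))
  obtain ⟨x, rfl⟩ := QuotientGroup.mk_surjective q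
  have hx : x ∉ Subgroup.center S := fun h => hq1 (Subtype.ext ((QuotientGroup.eq_one_iff x).2 h))
  obtain ⟨y, hy⟩ : ∃ y, y * x ≠ x * y := by
    by_contra h
    push Not at h
    exact hx (Subgroup.mem_center_iff.2 h)
  have hz : x * y * x⁻¹ * y⁻¹ ∈ Subgroup.center S := by
    rw [← QuotientGroup.eq_one_iff]
    have h1 := Subgroup.mem_center_iff.1 hq (y : S ⧸ Subgroup.center S)
    change (x : S ⧸ Subgroup.center S) * y * (x : S ⧸ Subgroup.center S)⁻¹ *
      (y : S ⧸ Subgroup.center S)⁻¹ = 1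
    rw [← h1]
    group
  set z := x * y * x⁻¹ * y⁻¹ with hzd
  have hzc : ∀ a, z * a = a * z := fun a => (Subgroup.mem_center_iff.1 hz a).symm
  have hz1 : z ≠ 1 := by
    intro h
    apply hy
    have h1 : x * y = z * (y * x) := by rw [hzd]; group
    rw [h1, h, one_mul]
  have hxy : ∀ k : ℕ, x ^ k * y = z ^ k * (y * x ^ k) := by
    intro k
    induction k with
    | zero => simp
    | succ k ih =>
      have h1 : x * y = z * (y * x) := by rw [hzd]; group
      have hzk : z ^ k * x = x * z ^ k := by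
        have : Commute z x := hzc x
        exact (this.pow_left k).eq
      calc x ^ (k + 1) * y = x * (x ^ k * y) := by rw [pow_succ']; group
        _ = x * (z ^ k * (y * x ^ k)) := by rw [ih]
        _ = z ^ k * (x * y) * x ^ k := by
            rw [← mul_assoc, ← hzk]; simp only [mul_assoc]
        _ = z ^ (k + 1) * (y * x ^ (k + 1)) := by
            rw [h1, pow_succ, pow_succ']; simp only [mul_assoc]
  obtain ⟨k, hk⟩ := (IsPGroup.iff_orderOf.1 hS) z
  have hk0 : k ≠ 0 := by
    rintro rfl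
    rw [pow_zero, orderOf_eq_one_iff] at hk
    exact hz1 hk
  obtain ⟨l, rfl⟩ := Nat.exists_eq_succ_of_ne_zero hk0
  refine ⟨x ^ p ^ l, y, z ^ p ^ l, ?_, ?_, ?_, hxy _⟩
  · intro a
    have : Commute z a := hzc a
    exact (this.pow_left _).eq
  · rw [← pow_mul, ← pow_succ, ← hk, pow_orderOf_eq_one]
  · intro h
    have h1 := orderOf_dvd_of_pow_eq_one h
    rw [hk, Nat.pow_dvd_pow_iff_le_right hp.out.one_lt] at h1
    omega

section

variable {K V : Type} [Field K] [Finite K] [AddCommGroup V] [Module K V] [Finite V] {p : ℕ}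
  [hp : Fact p.Prime]

/-- the algebra spanned by a group -/
def sp (S : Subgroup (V ≃ₗ[K] V)) : Subalgebra K (Module.End K V) where
  carrier := Submodule.span K (Set.range fun s : S => ((s : V ≃ₗ[K] V) : V →ₗ[K] V))
  mul_mem' := by
    intro a b ha hb
    change a ∈ Submodule.span K _ at ha
    change b ∈ Submodule.span K _ at hb
    change a * b ∈ Submodule.span K _
    have h1 : Submodule.span K (Set.range fun s : S => ((s : V ≃ₗ[K] V) : V →ₗ[K] V)) *
        Submodule.span K (Set.range fun s : S => ((s : V ≃ₗ[K] V) : V →ₗ[K] V)) ≤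
        Submodule.span K (Set.range fun s : S => ((s : V ≃ₗ[K] V) : Module.End K V)) := by
      rw [Submodule.span_mul_span, Submodule.span_le]
      rintro _ ⟨_, ⟨s, rfl⟩, _, ⟨t, rfl⟩, rfl⟩
      exact Submodule.subset_span ⟨s * t, rfl⟩
    exact h1 (Submodule.mul_mem_mul ha hb)
  add_mem' := fun ha hb => Submodule.add_mem _ ha hb
  algebraMap_mem' := by
    intro r
    change algebraMap K (Module.End K V) r ∈ Submodule.span K _
    rw [Algebra.algebraMap_eq_smul_one]
    exact Submodule.smul_mem _ _ (Submodule.subset_span ⟨1, rfl⟩)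

theorem mem_sp {S : Subgroup (V ≃ₗ[K] V)} {a : Module.End K V} :
    a ∈ sp S ↔ a ∈ Submodule.span K (Set.range fun s : S => ((s : V ≃ₗ[K] V) : V →ₗ[K] V)) :=
  Iff.rfl

/-- the group algebra maps onto it -/
noncomputable def gm (S : Subgroup (V ≃ₗ[K] V)) : MonoidAlgebra K S →ₐ[K] sp S :=
  MonoidAlgebra.lift K (sp S) S
    { toFun := fun s => ⟨((s : V ≃ₗ[K] V) : V →ₗ[K] V), Submodule.subset_span ⟨s, rfl⟩⟩
      map_one' := rfl
      map_mul' := fun s t => rfl }

theorem gm_surjective (S : Subgroup (V ≃ₗ[K] V)) : Function.Surjective (gm S) := by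
  have h1 : ∀ a : Module.End K V, a ∈ sp S → ∃ x, ((gm S x : sp S) : Module.End K V) = a := by
    intro a ha
    rw [mem_sp] at ha
    induction ha using Submodule.span_induction with
    | mem a ha =>
      obtain ⟨s, rfl⟩ := ha
      refine ⟨MonoidAlgebra.single s 1, ?_⟩
      unfold gm
      rw [MonoidAlgebra.lift_single, one_smul]
      rfl
    | zero => exact ⟨0, by rw [map_zero]; rfl⟩
    | add a b _ _ ha hb =>
      obtain ⟨x, hx⟩ := ha
      obtain ⟨y, hy⟩ := hb
      exact ⟨x + y, by rw [map_add]; change (gm S x : Module.End K V) + gm S y = _; rw [hx, hy]⟩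
    | smul c a _ ha =>
      obtain ⟨x, hx⟩ := ha
      exact ⟨c • x, by rw [map_smul]; change c • (gm S x : Module.End K V) = _; rw [hx]⟩
  rintro ⟨a, ha⟩
  obtain ⟨x, hx⟩ := h1 a ha
  exact ⟨x, Subtype.ext hx⟩

theorem semisimple_sp {S : Subgroup (V ≃ₗ[K] V)} (hS : IsPGroup p S) (hK : ¬ p ∣ Nat.card K) :
    IsSemisimpleRing (sp S) := by
  classical
  letI := Fintype.ofFinite K
  have hfin : Finite (V ≃ₗ[K] V) := DFunLike.finite _
  have hS0 : (Nat.card S : K) ≠ 0 := by
    obtain ⟨n, hn⟩ := (IsPGroup.iff_card).1 hS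
    rw [hn, Nat.cast_pow]
    apply pow_ne_zero
    intro h
    apply hK
    have h1 : ringChar K ∣ p := (ringChar.spec K p).1 h
    rcases (Nat.dvd_prime hp.out).1 h1 with h2 | h2
    · have := CharP.ringChar_ne_one (R := K)
      exact absurd h2 this
    · obtain ⟨m, hm, hc⟩ := FiniteField.card K (ringChar K)
      rw [Nat.card_eq_fintype_card, hc, h2]
      exact dvd_pow_self p m.ne_zero
  haveI : NeZero (Nat.card S : K) := ⟨hS0⟩
  haveI : IsSemisimpleRing (MonoidAlgebra K S) := by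
    unfold IsSemisimpleRing
    infer_instance
  exact RingHom.isSemisimpleRing_of_surjective (gm S).toRingHom (gm_surjective S)

/-- units of the algebra as automorphisms -/
noncomputable def ut (S : Subgroup (V ≃ₗ[K] V)) : (sp S)ˣ →* (V ≃ₗ[K] V) :=
  (LinearMap.GeneralLinearGroup.generalLinearEquiv K V).toMonoidHom.comp
    (Units.map (sp S).val.toMonoidHom)

theorem ut_coe (S : Subgroup (V ≃ₗ[K] V)) (u : (sp S)ˣ) :
    ((ut S u : V ≃ₗ[K] V) : V →ₗ[K] V) = ((u : sp S) : Module.End K V) := by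
  ext v
  rfl

theorem ut_injective (S : Subgroup (V ≃ₗ[K] V)) : Function.Injective (ut S) := by
  intro u v h
  apply Units.ext
  apply Subtype.ext
  rw [← ut_coe, ← ut_coe, h]

/-- the group inside the units -/
def us (S : Subgroup (V ≃ₗ[K] V)) : S →* (sp S)ˣ where
  toFun s := ⟨⟨((s : V ≃ₗ[K] V) : V →ₗ[K] V), Submodule.subset_span ⟨s, rfl⟩⟩,
    ⟨((s⁻¹ : S) : V ≃ₗ[K] V), Submodule.subset_span ⟨s⁻¹, rfl⟩⟩, by
      apply Subtype.ext
      ext v
      change (s : V ≃ₗ[K] V) (((s : V ≃ₗ[K] V)⁻¹) v) = v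
      exact LinearEquiv.apply_symm_apply _ _, by
      apply Subtype.ext
      ext v
      change ((s : V ≃ₗ[K] V)⁻¹) ((s : V ≃ₗ[K] V) v) = v
      exact LinearEquiv.symm_apply_apply _ _⟩
  map_one' := rfl
  map_mul' s t := rfl

theorem ut_us (S : Subgroup (V ≃ₗ[K] V)) (s : S) : ut S (us S s) = s := by
  ext v
  rfl

theorem det_of_comm {S : Subgroup (V ≃ₗ[K] V)} {u : (sp S)ˣ} (hu : u ∈ commutator (sp S)ˣ) :
    LinearMap.det ((ut S u : V ≃ₗ[K] V) : V →ₗ[K] V) = 1 := by
  have h1 : commutator (sp S)ˣ ≤ ((LinearEquiv.det).comp (ut S)).ker :=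
    Abelianization.commutator_subset_ker _
  have h2 := h1 hu
  rw [MonoidHom.mem_ker, MonoidHom.comp_apply] at h2
  rw [← LinearEquiv.coe_det, h2, Units.val_one]

/-- **LEMMA D.** -/
theorem lemmaD (hp2 : p ≠ 2) (hK : ¬ p ∣ Nat.card K) (S : Subgroup (V ≃ₗ[K] V))
    (hS : IsPGroup p S)
    (hmax : ∀ P : Subgroup (V ≃ₗ[K] V), S ≤ P → IsPGroup p P → (∀ x ∈ P,
      (x : V →ₗ[K] V) ∈ Submodule.span K (Set.range fun s : S => ((s : V ≃ₗ[K] V) : V →ₗ[K] V))) →
      P = S)
    (hT : ∀ x ∈ S, ∀ y ∈ S, LinearMap.det (x : V →ₗ[K] V) = 1 →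
      LinearMap.det (y : V →ₗ[K] V) = 1 → x * y = y * x) :
    ∀ x ∈ S, ∀ y ∈ S, x * y = y * x := by
  classical
  by_contra hcon
  push Not at hcon
  obtain ⟨a, ha, b, hb, hab⟩ := hcon
  have hfin : Finite (V ≃ₗ[K] V) := DFunLike.finite _
  have hfinE : Finite (Module.End K V) := DFunLike.finite _
  have hfinU : Finite (sp S)ˣ := inferInstance
  haveI := semisimple_sp hS hK
  obtain ⟨x, y, z, hz, hzp, hz1, hxy⟩ := exists_comm (S := S) hS ⟨⟨a, ha⟩, ⟨b, hb⟩, fun h =>
    hab (congrArg Subtype.val h)⟩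
  have hfd : Module.Finite K (sp S) := Module.Finite.of_finite
  -- the central element
  have hzc : ∀ w : sp S, ((us S z : (sp S)ˣ) : sp S) * w = w * (us S z : (sp S)ˣ) := by
    rintro ⟨w, hw⟩
    apply Subtype.ext
    change ((us S z : (sp S)ˣ) : Module.End K V) * w = w * ((us S z : (sp S)ˣ) : Module.End K V)
    rw [mem_sp] at hw
    induction hw using Submodule.span_induction with
    | mem w hw =>
      obtain ⟨s, rfl⟩ := hw
      have h1 := congrArg (fun t : S => ((t : V ≃ₗ[K] V) : V →ₗ[K] V)) (hz s)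
      exact h1
    | zero => rw [mul_zero, zero_mul]
    | add a b _ _ ha hb => rw [mul_add, add_mul, ha, hb]
    | smul c a _ ha => rw [mul_smul_comm, smul_mul_assoc, ha]
  obtain ⟨n, D, fD, _, _, φ, ι, ζ, hpn, -, hφι, hm, -, hc, -, -, hζ, hζ1⟩ :=
    R2.H47.Bm.exists_comp (K := K) (A := sp S) (p := p) (x := us S x) (y := us S y) (z := us S z)
      (Units.isUnit _) (Units.isUnit _) (by
        have h1 := congrArg (us S) hxy
        rw [map_mul, map_mul, map_mul] at h1
        have h2 := congrArg Units.val h1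
        exact h2) hzc (by
        have h1 := congrArg (us S) hzp
        rw [map_pow, map_one] at h1
        have h2 := congrArg Units.val h1
        rw [Units.val_pow_eq_pow_val] at h2
        exact h2) (by
        intro h
        apply hz1
        apply Subtype.ext
        rw [← ut_us S z]
        have h1 : us S z = 1 := Units.ext h
        rw [h1, map_one]
        rfl)
  have hinj : Function.Injective ι := fun M N h => by rw [← hφι M, h, hφι]
  obtain ⟨P, hP, hPc, u, hu, v, hv, huv⟩ := exists_units hp.out hp2 hpn hζ hζ1 ι hm hc hinj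
  -- the Sylow subgroup
  have husi : Function.Injective (us S) := by
    intro s t h
    apply Subtype.ext
    rw [← ut_us S s, h, ut_us]
  let SU : Sylow p (sp S)ˣ :=
    { toSubgroup := (us S).range
      isPGroup' := by
        intro ⟨w, hw⟩
        obtain ⟨s, rfl⟩ := hw
        obtain ⟨k, hk⟩ := hS s
        refine ⟨k, Subtype.ext ?_⟩
        change (us S s) ^ p ^ k = 1
        rw [← map_pow, hk, map_one]
      is_maximal' := by
        intro R hR hle
        have h1 : R.map (ut S) = S := by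
          apply hmax
          · intro s hs
            exact ⟨us S ⟨s, hs⟩, hle ⟨⟨s, hs⟩, rfl⟩, ut_us S ⟨s, hs⟩⟩
          · exact hR.map _
          · rintro _ ⟨w, hw, rfl⟩
            rw [ut_coe]
            exact w.1.2
        apply le_antisymm _ hle
        intro w hw
        have h2 : ut S w ∈ S := h1.le ⟨w, hw, rfl⟩
        refine ⟨⟨ut S w, h2⟩, ut_injective S ?_⟩
        rw [ut_us] }
  refine huv (comm_of_sylow SU ?_ P hP hPc u hu v hv)
  rintro _ ⟨s, rfl⟩ _ ⟨t, rfl⟩ h1 h2
  have e1 := det_of_comm h1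
  have e2 := det_of_comm h2
  rw [ut_us] at e1 e2
  have e3 := hT s s.2 t t.2 e1 e2
  rw [← map_mul, ← map_mul]
  congr 1
  exact Subtype.ext e3

/-- **LEMMA D**, the form used by the assembly. -/
theorem sylow_abelian_of_sl (hp2 : p ≠ 2) (hpK : p ∣ Nat.card K - 1) (S : Subgroup (V ≃ₗ[K] V))
    (hS : IsPGroup p S)
    (hmax : ∀ P : Subgroup (V ≃ₗ[K] V), S ≤ P → IsPGroup p P → (∀ x ∈ P,
      (x : V →ₗ[K] V) ∈ Submodule.span K (Set.range fun s : S => ((s : V ≃ₗ[K] V) : V →ₗ[K] V))) →
      P = S)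
    (hT : ∀ x ∈ S, ∀ y ∈ S, LinearMap.det (x : V →ₗ[K] V) = 1 →
      LinearMap.det (y : V →ₗ[K] V) = 1 → x * y = y * x) :
    ∀ x ∈ S, ∀ y ∈ S, x * y = y * x := by
  refine lemmaD hp2 ?_ S hS hmax hT
  intro h
  have h1 : 0 < Nat.card K := Nat.card_pos
  have h2 : p ∣ 1 := by
    have h3 := (Nat.dvd_sub h hpK)
    have h4 : Nat.card K - (Nat.card K - 1) = 1 := by omega
    rwa [h4] at h3
  exact hp.out.one_lt.ne' (Nat.dvd_one.1 h2)

end

end Vale.Agent.P180.H897.MatD
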