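import Mathlib

/-!
P180, SL at primes dividing the order of the centre: a nonabelian `p`-group of commutators
(helper897).
-/

set_option linter.all false

namespace Vale.Agent.P180.H897.MatD

open Equiv
open scoped commutatorElement

section abs

variable {G : Type*} [Group G] {n p : ℕ} {D : Type*} [Field D]

/-- monomial elements -/
def Mo (δ : (Fin n → Dˣ) →* G) (π : Perm (Fin n) →* G)
    (rel : ∀ σ x, π σ * δ x * (π σ)⁻¹ = δ (fun j => x (σ⁻¹ j))) (p : ℕ) (c : Perm (Fin n)) :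
    Subgroup G where
  carrier := {u | ∃ x : Fin n → Dˣ, x ^ p = 1 ∧ ∃ σ ∈ Subgroup.zpowers c, u = δ x * π σ}
  one_mem' := ⟨1, one_pow p, 1, Subgroup.one_mem _, by rw [map_one, map_one, one_mul]⟩
  mul_mem' := by
    rintro _ _ ⟨x, hx, σ, hσ, rfl⟩ ⟨y, hy, τ, hτ, rfl⟩
    refine ⟨x * fun j => y (σ⁻¹ j), ?_, σ * τ, Subgroup.mul_mem _ hσ hτ, ?_⟩
    · rw [mul_pow, hx, one_mul]
      funext j
      exact congrFun hy (σ⁻¹ j)
    · rw [map_mul, map_mul, ← rel]
      group
  inv_mem' := by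
    rintro _ ⟨x, hx, σ, hσ, rfl⟩
    refine ⟨fun j => x⁻¹ (σ⁻¹⁻¹ j), ?_, σ⁻¹, Subgroup.inv_mem _ hσ, ?_⟩
    · have h1 : (x⁻¹) ^ p = 1 := by rw [inv_pow, hx, inv_one]
      funext j
      exact congrFun h1 (σ⁻¹⁻¹ j)
    · rw [← rel, map_inv, map_inv]
      group

theorem pow_form {δ : (Fin n → Dˣ) →* G} {π : Perm (Fin n) →* G}
    (rel : ∀ σ x, π σ * δ x * (π σ)⁻¹ = δ (fun j => x (σ⁻¹ j))) {x : Fin n → Dˣ} (hx : x ^ p = 1)
    (σ : Perm (Fin n)) (k : ℕ) :
    ∃ y : Fin n → Dˣ, y ^ p = 1 ∧ (δ x * π σ) ^ k = δ y * π (σ ^ k) := by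
  induction k with
  | zero => exact ⟨1, one_pow p, by rw [pow_zero, pow_zero, map_one, map_one, one_mul]⟩
  | succ k ih =>
    obtain ⟨y, hy, h⟩ := ih
    refine ⟨y * fun j => x ((σ ^ k)⁻¹ j), ?_, ?_⟩
    · rw [mul_pow, hy, one_mul]
      funext j
      exact congrFun hx ((σ ^ k)⁻¹ j)
    · rw [pow_succ, h, pow_succ, map_mul, map_mul, ← rel]
      group

theorem isPGroup_Mo {δ : (Fin n → Dˣ) →* G} {π : Perm (Fin n) →* G}
    (rel : ∀ σ x, π σ * δ x * (π σ)⁻¹ = δ (fun j => x (σ⁻¹ j))) {c : Perm (Fin n)}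
    (hc : c ^ p = 1) : IsPGroup p (Mo δ π rel p c) := by
  rintro ⟨_, x, hx, σ, hσ, rfl⟩
  refine ⟨2, Subtype.ext ?_⟩
  change (δ x * π σ) ^ p ^ 2 = 1
  obtain ⟨y, hy, h⟩ := pow_form rel hx σ p
  have hσp : σ ^ p = 1 := by
    obtain ⟨z, rfl⟩ := Subgroup.mem_zpowers_iff.1 hσ
    rw [← zpow_natCast, ← zpow_mul, mul_comm, zpow_mul, zpow_natCast, hc, one_zpow]
  rw [sq, pow_mul, h, hσp, map_one, mul_one, ← map_pow, hy, map_one]

/-- **A nonabelian `p`-group of commutators**, abstractly. -/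
theorem exists_abs (δ : (Fin n → Dˣ) →* G) (π : Perm (Fin n) →* G)
    (rel : ∀ σ x, π σ * δ x * (π σ)⁻¹ = δ (fun j => x (σ⁻¹ j))) (hδ : Function.Injective δ)
    (hp : p.Prime) (hp2 : p ≠ 2) (hn : p ≤ n) {ζ : Dˣ} (hζ : ζ ^ p = 1) (hζ1 : ζ ≠ 1) :
    ∃ P : Subgroup G, IsPGroup p P ∧ P ≤ commutator G ∧ ∃ x ∈ P, ∃ y ∈ P, x * y ≠ y * x := by
  classical
  haveI : Fact p.Prime := ⟨hp⟩
  obtain ⟨c, hc⟩ := exists_prime_orderOf_dvd_card (G := Perm (Fin n)) p (by
    rw [Fintype.card_perm, Fintype.card_fin]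
    exact hp.dvd_factorial.2 hn)
  have hcp : c ^ p = 1 := by rw [← hc, pow_orderOf_eq_one]
  have hc1 : c ≠ 1 := by
    rintro rfl
    rw [orderOf_one] at hc
    exact hp.one_lt.ne hc
  obtain ⟨i, hi⟩ : ∃ i, c i ≠ i := by
    by_contra h
    push Not at h
    exact hc1 (Equiv.ext h)
  have hi2 : c (c i) ≠ i := by
    intro h
    obtain ⟨k, hk⟩ : Odd p := hp.odd_of_ne_two hp2
    have h2 : ∀ j, (c ^ (2 * j)) i = i := by
      intro j
      induction j with
      | zero => rfl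
      | succ j ih =>
        rw [Nat.mul_succ, pow_add, Perm.mul_apply, sq, Perm.mul_apply, h, ih]
    have h3 : (c ^ p) i = c i := by
      rw [hk, add_comm, pow_add, pow_one, Perm.mul_apply, h2]
    rw [hcp] at h3
    exact hi h3.symm
  have hi3 : c (c i) ≠ c i := fun h => hi (c.injective h)
  obtain ⟨g, hg⟩ : ∃ g : Perm (Fin n), g * c * g⁻¹ = c⁻¹ := by
    have h1 : IsConj c c⁻¹ := by
      rw [Perm.isConj_iff_cycleType_eq, Perm.cycleType_inv]
    exact isConj_iff.1 h1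
  let x0 : Fin n → Dˣ := Pi.mulSingle i ζ
  let s : Perm (Fin n) := Equiv.swap i (c i)
  let d : Fin n → Dˣ := x0 * fun j => (x0⁻¹) (s⁻¹ j)
  have hd : ⁅δ x0, π s⁆ = δ d := by
    rw [commutatorElement_def, map_mul, ← rel, map_inv]
    group
  have hcc : ⁅π g, π c⁆ = π (c⁻¹ * c⁻¹) := by
    rw [commutatorElement_def, ← map_inv, ← map_inv, ← map_mul, ← map_mul, ← map_mul, hg]
  have hx0 : x0 ^ p = 1 := by
    change (Pi.mulSingle i ζ : Fin n → Dˣ) ^ p = 1
    rw [← Pi.mulSingle_pow, hζ, Pi.mulSingle_one]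
  refine ⟨Mo δ π rel p c ⊓ commutator G, (isPGroup_Mo rel hcp).to_le inf_le_left, inf_le_right,
    δ d, ⟨?_, ?_⟩, π (c⁻¹ * c⁻¹), ⟨?_, ?_⟩, ?_⟩
  · refine ⟨d, ?_, 1, Subgroup.one_mem _, by rw [map_one, mul_one]⟩
    change (x0 * fun j => (x0⁻¹) (s⁻¹ j)) ^ p = 1
    rw [mul_pow, hx0, one_mul]
    have h1 : (x0⁻¹) ^ p = 1 := by rw [inv_pow, hx0, inv_one]
    funext j
    exact congrFun h1 (s⁻¹ j)
  · rw [← hd]
    exact Subgroup.commutator_mem_commutator (Subgroup.mem_top _) (Subgroup.mem_top _)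
  · refine ⟨1, one_pow p, c⁻¹ * c⁻¹, Subgroup.mul_mem _ ?_ ?_, by rw [map_one, one_mul]⟩
    · exact Subgroup.inv_mem _ (Subgroup.mem_zpowers c)
    · exact Subgroup.inv_mem _ (Subgroup.mem_zpowers c)
  · rw [← hcc]
    exact Subgroup.commutator_mem_commutator (Subgroup.mem_top _) (Subgroup.mem_top _)
  · intro h
    have h1 : δ d = δ (fun j => d ((c⁻¹ * c⁻¹)⁻¹ j)) := by
      rw [← rel, ← h, mul_inv_cancel_right]
    have h2 := congrFun (hδ h1) i
    have e1 : (c⁻¹ * c⁻¹)⁻¹ i = c (c i) := by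
      rw [mul_inv_rev, inv_inv]
      rfl
    beta_reduce at h2
    rw [e1] at h2
    have e2 : d i = ζ := by
      change x0 i * (x0 (s⁻¹ i))⁻¹ = ζ
      have e3 : s⁻¹ i = c i := by
        change (Equiv.swap i (c i))⁻¹ i = c i
        rw [Equiv.swap_inv, Equiv.swap_apply_left]
      rw [e3]
      change (Pi.mulSingle i ζ : Fin n → Dˣ) i * ((Pi.mulSingle i ζ : Fin n → Dˣ) (c i))⁻¹ = ζ
      rw [Pi.mulSingle_eq_same, Pi.mulSingle_eq_of_ne hi, inv_one, mul_one]
    have e4 : d (c (c i)) = 1 := by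
      change x0 (c (c i)) * (x0 (s⁻¹ (c (c i))))⁻¹ = 1
      have e3 : s⁻¹ (c (c i)) = c (c i) := by
        change (Equiv.swap i (c i))⁻¹ (c (c i)) = c (c i)
        rw [Equiv.swap_inv, Equiv.swap_apply_of_ne_of_ne hi2 hi3]
      rw [e3]
      change (Pi.mulSingle i ζ : Fin n → Dˣ) (c (c i)) *
        ((Pi.mulSingle i ζ : Fin n → Dˣ) (c (c i)))⁻¹ = 1
      rw [mul_inv_cancel]
    rw [e2, e4] at h2
    exact hζ1 h2

end abs

section mat

variable {n : ℕ} {D : Type*} [Field D]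

/-- diagonal matrices -/
def dg : (Fin n → Dˣ) →* (Matrix (Fin n) (Fin n) D)ˣ where
  toFun x := ⟨Matrix.diagonal fun j => (x j : D), Matrix.diagonal fun j => ((x j)⁻¹ : Dˣ), by
    rw [Matrix.diagonal_mul_diagonal, ← Matrix.diagonal_one]
    congr 1
    funext j
    exact Units.mul_inv (x j), by
    rw [Matrix.diagonal_mul_diagonal, ← Matrix.diagonal_one]
    congr 1
    funext j
    exact Units.inv_mul (x j)⟩
  map_one' := Units.ext (by
    change Matrix.diagonal (fun j => (((1 : Fin n → Dˣ) j : Dˣ) : D)) = 1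
    rw [← Matrix.diagonal_one]
    rfl)
  map_mul' x y := Units.ext (by
    change Matrix.diagonal (fun j => (((x * y) j : Dˣ) : D)) =
      Matrix.diagonal (fun j => (x j : D)) * Matrix.diagonal (fun j => (y j : D))
    rw [Matrix.diagonal_mul_diagonal]
    rfl)

theorem dg_val (x : Fin n → Dˣ) :
    ((dg x : (Matrix (Fin n) (Fin n) D)ˣ) : Matrix (Fin n) (Fin n) D) =
      Matrix.diagonal fun j => (x j : D) := rfl

theorem dg_injective : Function.Injective (dg (n := n) (D := D)) := by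
  intro x y h
  have h1 := congrArg (fun u : (Matrix (Fin n) (Fin n) D)ˣ => (u : Matrix (Fin n) (Fin n) D)) h
  beta_reduce at h1
  rw [dg_val, dg_val] at h1
  have h2 := Matrix.diagonal_injective h1
  funext j
  exact Units.ext (congrFun h2 j)

theorem ai (σ : Perm (Fin n)) (i : Fin n) : σ (σ⁻¹ i) = i := σ.apply_symm_apply i

theorem ia (σ : Perm (Fin n)) (i : Fin n) : σ⁻¹ (σ i) = i := σ.symm_apply_apply i

/-- permutation matrices -/
def pm : Perm (Fin n) →* (Matrix (Fin n) (Fin n) D)ˣ where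
  toFun σ := ⟨Matrix.of fun i j => if i = σ j then 1 else 0,
    Matrix.of fun i j => if i = σ⁻¹ j then 1 else 0, by
      ext i j
      rw [Matrix.mul_apply, Finset.sum_eq_single (σ⁻¹ i)]
      · rw [Matrix.of_apply, Matrix.of_apply, Matrix.one_apply, ai, if_pos rfl,
          one_mul]
        by_cases h : i = j
        · rw [if_pos h, if_pos (by rw [h])]
        · rw [if_neg h, if_neg (fun h' => h (σ⁻¹.injective h'))]
      · intro k _ hk
        rw [Matrix.of_apply, if_neg, zero_mul]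
        intro h
        apply hk
        rw [h, ia]
      · intro h
        exact absurd (Finset.mem_univ _) h, by
      ext i j
      rw [Matrix.mul_apply, Finset.sum_eq_single (σ i)]
      · rw [Matrix.of_apply, Matrix.of_apply, Matrix.one_apply, ia, if_pos rfl,
          one_mul]
        by_cases h : i = j
        · rw [if_pos h, if_pos (by rw [h])]
        · rw [if_neg h, if_neg (fun h' => h (σ.injective h'))]
      · intro k _ hk
        rw [Matrix.of_apply, if_neg, zero_mul]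
        intro h
        apply hk
        rw [h, ai]
      · intro h
        exact absurd (Finset.mem_univ _) h⟩
  map_one' := Units.ext (by
    ext i j
    change (if i = (1 : Perm (Fin n)) j then (1 : D) else 0) = (1 : Matrix (Fin n) (Fin n) D) i j
    rw [Matrix.one_apply]
    rfl)
  map_mul' σ τ := Units.ext (by
    ext i j
    change (if i = (σ * τ) j then (1 : D) else 0) =
      ((Matrix.of fun i j => if i = σ j then (1 : D) else 0) *
        (Matrix.of fun i j => if i = τ j then (1 : D) else 0) : Matrix (Fin n) (Fin n) D) i j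
    rw [Matrix.mul_apply, Finset.sum_eq_single (τ j)]
    · rw [Matrix.of_apply, Matrix.of_apply, if_pos rfl, mul_one]
      rfl
    · intro k _ hk
      rw [Matrix.of_apply, Matrix.of_apply, if_neg hk, mul_zero]
    · intro h
      exact absurd (Finset.mem_univ _) h)

theorem pm_rel (σ : Perm (Fin n)) (x : Fin n → Dˣ) :
    pm (D := D) σ * dg x * (pm σ)⁻¹ = dg (fun j => x (σ⁻¹ j)) := by
  rw [mul_inv_eq_iff_eq_mul]
  apply Units.ext
  ext i j
  change ((Matrix.of fun i j => if i = σ j then (1 : D) else 0) *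
      (Matrix.diagonal fun j => (x j : D)) : Matrix (Fin n) (Fin n) D) i j =
    ((Matrix.diagonal fun j => (x (σ⁻¹ j) : D)) *
      (Matrix.of fun i j => if i = σ j then (1 : D) else 0) : Matrix (Fin n) (Fin n) D) i j
  rw [Matrix.mul_diagonal, Matrix.diagonal_mul, Matrix.of_apply]
  by_cases h : i = σ j
  · rw [if_pos h, one_mul, mul_one, h, ia]
  · rw [if_neg h, zero_mul, mul_zero]

/-- **A nonabelian `p`-group of commutators** in `GL_n(D)`. -/
theorem exists_mat {p : ℕ} (hp : p.Prime) (hp2 : p ≠ 2) (hn : p ≤ n) {ζ : D} (hζ : ζ ^ p = 1)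
    (hζ1 : ζ ≠ 1) : ∃ P : Subgroup (Matrix (Fin n) (Fin n) D)ˣ, IsPGroup p P ∧
      P ≤ commutator _ ∧ ∃ x ∈ P, ∃ y ∈ P, x * y ≠ y * x := by
  have hζ0 : ζ ≠ 0 := by
    rintro rfl
    rw [zero_pow hp.ne_zero] at hζ
    exact zero_ne_one hζ
  refine exists_abs dg pm pm_rel dg_injective hp hp2 hn (ζ := Units.mk0 ζ hζ0) ?_ ?_
  · exact Units.ext hζ
  · intro h
    exact hζ1 (congrArg Units.val h)

end mat

section comp

variable {A : Type*} [Ring A] {n : ℕ} {D : Type*} [Field D]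

/-- the units of a component, as units of the algebra -/
def up (ι : Matrix (Fin n) (Fin n) D → A) (hm : ∀ M N, ι (M * N) = ι M * ι N)
    (hc : ∀ a, a * ι 1 = ι 1 * a) : (Matrix (Fin n) (Fin n) D)ˣ →* Aˣ where
  toFun u := ⟨ι u + (1 - ι 1), ι (u⁻¹ : (Matrix (Fin n) (Fin n) D)ˣ) + (1 - ι 1), by
    have h1 : ι 1 * ι 1 = ι 1 := by rw [← hm, one_mul]
    have h2 : ι u * ι 1 = ι u := by rw [← hm, mul_one]
    have h3 : ι 1 * ι (u⁻¹ : (Matrix (Fin n) (Fin n) D)ˣ) =
      ι (u⁻¹ : (Matrix (Fin n) (Fin n) D)ˣ) := by rw [← hm, one_mul]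
    rw [add_mul, mul_add, mul_add, ← hm, Units.mul_inv, mul_sub, mul_one, h2, sub_mul, one_mul, h3,
      mul_sub, mul_one, sub_mul, one_mul, h1]
    abel, by
    have h1 : ι 1 * ι 1 = ι 1 := by rw [← hm, one_mul]
    have h2 : ι (u⁻¹ : (Matrix (Fin n) (Fin n) D)ˣ) * ι 1 =
      ι (u⁻¹ : (Matrix (Fin n) (Fin n) D)ˣ) := by rw [← hm, mul_one]
    have h3 : ι 1 * ι u = ι u := by rw [← hm, one_mul]
    rw [add_mul, mul_add, mul_add, ← hm, Units.inv_mul, mul_sub, mul_one, h2, sub_mul, one_mul, h3,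
      mul_sub, mul_one, sub_mul, one_mul, h1]
    abel⟩
  map_one' := Units.ext (by
    change ι 1 + (1 - ι 1) = 1
    abel)
  map_mul' u v := Units.ext (by
    change ι (u * v) + (1 - ι 1) = (ι u + (1 - ι 1)) * (ι v + (1 - ι 1))
    have h1 : ι 1 * ι 1 = ι 1 := by rw [← hm, one_mul]
    have h2 : ι u * ι 1 = ι u := by rw [← hm, mul_one]
    have h3 : ι 1 * ι v = ι v := by rw [← hm, one_mul]
    rw [add_mul, mul_add, mul_add, ← hm, mul_sub, mul_one, h2, sub_mul, one_mul, h3,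
      mul_sub, mul_one, sub_mul, one_mul, h1]
    abel)

theorem up_injective {ι : Matrix (Fin n) (Fin n) D → A} {hm : ∀ M N, ι (M * N) = ι M * ι N}
    {hc : ∀ a, a * ι 1 = ι 1 * a} (hi : Function.Injective ι) :
    Function.Injective (up ι hm hc) := by
  intro u v h
  have h1 : ι u + (1 - ι 1) = ι v + (1 - ι 1) := congrArg Units.val h
  exact Units.ext (hi (add_right_cancel h1))

/-- **The commutator subgroup of the units of an algebra with a large component contains a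
nonabelian `p`-group.** -/
theorem exists_units {p : ℕ} (hp : p.Prime) (hp2 : p ≠ 2) (hn : p ≤ n) {ζ : D} (hζ : ζ ^ p = 1)
    (hζ1 : ζ ≠ 1) (ι : Matrix (Fin n) (Fin n) D → A) (hm : ∀ M N, ι (M * N) = ι M * ι N)
    (hc : ∀ a, a * ι 1 = ι 1 * a) (hi : Function.Injective ι) :
    ∃ P : Subgroup Aˣ, IsPGroup p P ∧ P ≤ commutator _ ∧ ∃ x ∈ P, ∃ y ∈ P, x * y ≠ y * x := by
  obtain ⟨P, h1, h2, x, hx, y, hy, hxy⟩ := exists_mat hp hp2 hn hζ hζ1 (n := n)
  refine ⟨P.map (up ι hm hc), h1.map _, ?_, _, ⟨x, hx, rfl⟩, _, ⟨y, hy, rfl⟩, ?_⟩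
  · refine (Subgroup.map_mono h2).trans ?_
    rw [commutator_def, commutator_def, Subgroup.map_commutator]
    exact Subgroup.commutator_mono le_top le_top
  · rw [← map_mul, ← map_mul]
    exact fun h => hxy (up_injective hi h)

end comp

/-- **Sylow subgroups and the commutator subgroup**: if the elements of the Sylow `p`-subgroup `S`
in the commutator subgroup commute then all the `p`-subgroups of the commutator subgroup are
abelian. -/
theorem comm_of_sylow {G : Type*} [Group G] [Finite G] {p : ℕ} [Fact p.Prime] (S : Sylow p G)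
    (h : ∀ x ∈ S, ∀ y ∈ S, x ∈ commutator G → y ∈ commutator G → x * y = y * x)
    (P : Subgroup G) (hP : IsPGroup p P) (hPc : P ≤ commutator G) :
    ∀ x ∈ P, ∀ y ∈ P, x * y = y * x := by
  obtain ⟨S', hS'⟩ := hP.exists_le_sylow
  obtain ⟨g, rfl⟩ := MulAction.exists_smul_eq G S S'
  have key : ∀ x ∈ P, g⁻¹ * x * g ∈ S ∧ g⁻¹ * x * g ∈ commutator G := by
    intro x hx
    constructor
    · have h1 := hS' hx
      rw [Sylow.smul_def, Sylow.pointwise_smul_def, Subgroup.mem_smul_pointwise_iff_exists] at h1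
      obtain ⟨z, hz, hzx⟩ := h1
      have h2 : g⁻¹ * x * g = z := by
        rw [← hzx]
        change g⁻¹ * (g * z * g⁻¹) * g = z
        group
      rw [h2]
      exact hz
    · have h1 := (inferInstance : (commutator G).Normal).conj_mem x (hPc hx) g⁻¹
      rwa [inv_inv] at h1
  intro x hx y hy
  have h1 := h _ (key x hx).1 _ (key y hy).1 (key x hx).2 (key y hy).2
  have h2 : g * (g⁻¹ * x * g * (g⁻¹ * y * g)) * g⁻¹ = x * y := by group
  have h3 : g * (g⁻¹ * y * g * (g⁻¹ * x * g)) * g⁻¹ = y * x := by group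
  rw [← h2, ← h3, h1]

end Vale.Agent.P180.H897.MatD
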