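import Mathlib

/-!
P180, Lemma N, part N1 (helper897): in a finite-dimensional algebra graded by a finite cyclic group
with local component of degree one, orthogonal idempotents are never equivalent.
-/

set_option linter.all false

namespace Vale.Agent.P180.H897.N1

section Nil

variable {k B : Type*} [Field k] [Ring B] [Algebra k B]

/-- the subalgebra `k + N` -/
def kN (N : Submodule k B) (hmul : ∀ a ∈ N, ∀ b ∈ N, a * b ∈ N) : Subalgebra k B where
  carrier := {x | ∃ c : k, ∃ a ∈ N, x = algebraMap k B c + a}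
  mul_mem' := by
    rintro _ _ ⟨c, a, ha, rfl⟩ ⟨d, b, hb, rfl⟩
    refine ⟨c * d, c • b + d • a + a * b,
      N.add_mem (N.add_mem (N.smul_mem _ hb) (N.smul_mem _ ha)) (hmul a ha b hb), ?_⟩
    rw [add_mul, mul_add, mul_add, map_mul, Algebra.smul_def, Algebra.smul_def,
      ← Algebra.commutes d a]
    abel
  add_mem' := by
    rintro _ _ ⟨c, a, ha, rfl⟩ ⟨d, b, hb, rfl⟩
    refine ⟨c + d, a + b, N.add_mem ha hb, ?_⟩
    rw [map_add]
    abel
  algebraMap_mem' := fun r => ⟨r, 0, N.zero_mem, by rw [add_zero]⟩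

/-- A finite-dimensional nil algebra is nilpotent: all products of `M` elements vanish. -/
theorem exists_prod_eq_zero [FiniteDimensional k B] (N : Submodule k B)
    (hmul : ∀ a ∈ N, ∀ b ∈ N, a * b ∈ N) (hnil : ∀ a ∈ N, IsNilpotent a) :
    ∃ M : ℕ, ∀ L : List B, (∀ a ∈ L, a ∈ N) → L.length = M → L.prod = 0 := by
  classical
  let R := kN N hmul
  have hR : IsArtinianRing R := IsArtinianRing.of_finite k R
  have hN : ∀ a ∈ N, a ∈ R := fun a ha => ⟨0, a, ha, by rw [map_zero, zero_add]⟩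
  -- the left ideal `N` of `R`
  let I : Ideal R :=
    { carrier := {x | (x : B) ∈ N}
      add_mem' := fun {a b} ha hb => N.add_mem ha hb
      zero_mem' := N.zero_mem
      smul_mem' := by
        rintro ⟨_, c, a, ha, rfl⟩ ⟨x, hx⟩ hx'
        change (algebraMap k B c + a) * x ∈ N
        rw [add_mul, ← Algebra.smul_def]
        exact N.add_mem (N.smul_mem _ hx') (hmul a ha x hx') }
  have hI : I ≤ Ideal.jacobson (⊥ : Ideal R) := by
    intro x hx
    rw [Ideal.mem_jacobson_iff]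
    intro y
    have h1 : y * x ∈ I := I.mul_mem_left y hx
    have h2 : IsNilpotent (y * x) := by
      obtain ⟨n, hn⟩ := hnil _ h1
      exact ⟨n, Subtype.ext (by rw [SubmonoidClass.coe_pow, hn]; rfl)⟩
    obtain ⟨u, hu⟩ := h2.isUnit_add_one
    refine ⟨(u⁻¹ : Rˣ), ?_⟩
    rw [Ideal.mem_bot, mul_assoc, sub_eq_zero]
    have h3 : ((u⁻¹ : Rˣ) : R) * (y * x) + ((u⁻¹ : Rˣ) : R) = ((u⁻¹ : Rˣ) : R) * (y * x + 1) := by
      rw [mul_add, mul_one]
    rw [h3, ← hu, Units.inv_mul]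
  obtain ⟨M, hM⟩ := IsArtinianRing.isNilpotent_jacobson_bot (R := R)
  refine ⟨M, ?_⟩
  have key : ∀ (m : ℕ) (L : List B), (∀ a ∈ L, a ∈ N) → L.length = m →
      ∃ x : R, x ∈ (Ideal.jacobson (⊥ : Ideal R)) ^ m ∧ (x : B) = L.prod := by
    intro m
    induction m with
    | zero =>
      intro L _ hL
      rw [List.length_eq_zero_iff] at hL
      subst hL
      exact ⟨1, by rw [Submodule.pow_zero]; exact Submodule.one_le.mp le_rfl, rfl⟩
    | succ m ih =>
      intro L hL hlen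
      obtain ⟨L', a, rfl⟩ : ∃ L' a, L = L' ++ [a] := by
        rcases List.eq_nil_or_concat L with h | ⟨L', a, h⟩
        · rw [h] at hlen
          exact absurd hlen (by simp)
        · exact ⟨L', a, by rw [h]; simp⟩
      rw [List.length_append, List.length_singleton, Nat.add_right_cancel_iff] at hlen
      obtain ⟨x, hx, hx'⟩ := ih L' (fun b hb => hL b (List.mem_append_left _ hb)) hlen
      have ha := hL a (List.mem_append_right _ (List.mem_singleton_self a))
      refine ⟨x * ⟨a, hN a ha⟩, ?_, ?_⟩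
      · rw [Submodule.pow_succ]
        exact Submodule.mul_mem_mul hx (hI (show (⟨a, hN a ha⟩ : R) ∈ I from ha))
      · rw [List.prod_append, List.prod_singleton, ← hx']
        rfl
  intro L hL hlen
  obtain ⟨x, hx, hx'⟩ := key M L hL hlen
  rw [hM] at hx
  have : x = 0 := hx
  rw [← hx', this]
  rfl

end Nil

section Graded

variable {k B X : Type*} [Field k] [Ring B] [Algebra k B] [Group X]

/-- a graded corner algebra with identity `j` whose component of degree one is local -/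
structure Hyp (𝒜 : X → Submodule k B) (j : B) : Prop where
  mul : ∀ {x y a b}, a ∈ 𝒜 x → b ∈ 𝒜 y → a * b ∈ 𝒜 (x * y)
  one : j ∈ 𝒜 1
  jl : ∀ {x a}, a ∈ 𝒜 x → j * a = a
  jr : ∀ {x a}, a ∈ 𝒜 x → a * j = a
  loc : ∀ a ∈ 𝒜 1, IsNilpotent a ∨ ∃ b ∈ 𝒜 1, a * b = j ∧ b * a = j

theorem nil_inv {j a b : B} (hja : j * a = a) (hba : b * a = j) (h : IsNilpotent a) : j = 0 := by
  obtain ⟨m, hm⟩ := h
  induction m with
  | zero =>
    rw [pow_zero] at hm
    rw [← mul_one j, hm, mul_zero]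
  | succ m ih =>
    rcases Nat.eq_zero_or_pos m with h0 | h0
    · subst h0
      rw [zero_add, pow_one] at hm
      rw [← hba, hm, mul_zero]
    · obtain ⟨l, rfl⟩ : ∃ l, m = l + 1 := ⟨m - 1, by omega⟩
      apply ih
      have h1 : b * a ^ (l + 1 + 1) = a ^ (l + 1) := by
        rw [pow_succ' a (l + 1), ← mul_assoc, hba, pow_succ', ← mul_assoc, hja]
      rw [← h1, hm, mul_zero]

theorem nil_swap {a b : B} (h : IsNilpotent (a * b)) : IsNilpotent (b * a) := by
  obtain ⟨n, hn⟩ := h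
  refine ⟨n + 1, ?_⟩
  rw [pow_succ, ← mul_assoc, mul_pow_mul, hn, mul_zero, zero_mul]

variable {𝒜 : X → Submodule k B} {j : B}

namespace Hyp

theorem jj (h : Hyp 𝒜 j) : j * j = j := h.jl h.one

theorem nil_mul (h : Hyp 𝒜 j) (hj : j ≠ 0) {a c : B} (ha : a ∈ 𝒜 1) (hc : c ∈ 𝒜 1)
    (hn : IsNilpotent a) : IsNilpotent (c * a) := by
  have h1 : c * a ∈ 𝒜 1 := by
    have := h.mul hc ha
    rwa [mul_one] at this
  rcases h.loc _ h1 with h2 | ⟨d, hd, -, h2⟩
  · exact h2
  · exfalso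
    rw [← mul_assoc] at h2
    exact hj (nil_inv (h.jl ha) h2 hn)

theorem nil_add (h : Hyp 𝒜 j) (hj : j ≠ 0) {a b : B} (ha : a ∈ 𝒜 1) (hb : b ∈ 𝒜 1)
    (hna : IsNilpotent a) (hnb : IsNilpotent b) : IsNilpotent (a + b) := by
  rcases h.loc _ ((𝒜 1).add_mem ha hb) with h2 | ⟨u, hu, -, h2⟩
  · exact h2
  · exfalso
    have hn := h.nil_mul hj ha hu hna
    have hn' := h.nil_mul hj hb hu hnb
    have hua : u * a ∈ 𝒜 1 := by
      have := h.mul hu ha
      rwa [mul_one] at this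
    rw [mul_add] at h2
    have h3 : u * b = j - u * a := by rw [← h2]; abel
    have hc : Commute (u * a) (u * b) := by
      rw [h3]
      change u * a * (j - u * a) = (j - u * a) * (u * a)
      rw [mul_sub, sub_mul, h.jr hua, h.jl hua]
    have h4 := hc.isNilpotent_add hn hn'
    rw [h2] at h4
    exact hj (nil_inv h.jj h.jj h4)

/-- homogeneous nonunits -/
def JJ (h : Hyp 𝒜 j) (hj : j ≠ 0) (x : X) : Submodule k B where
  carrier := {a | a ∈ 𝒜 x ∧ ∀ b ∈ 𝒜 x⁻¹, IsNilpotent (b * a)}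
  zero_mem' := ⟨(𝒜 x).zero_mem, fun b _ => by rw [mul_zero]; exact IsNilpotent.zero⟩
  add_mem' := by
    rintro a a' ⟨h1, h2⟩ ⟨h1', h2'⟩
    refine ⟨(𝒜 x).add_mem h1 h1', fun b hb => ?_⟩
    rw [mul_add]
    have e1 := h.mul hb h1
    have e2 := h.mul hb h1'
    rw [inv_mul_cancel] at e1 e2
    exact h.nil_add hj e1 e2 (h2 b hb) (h2' b hb)
  smul_mem' := by
    rintro c a ⟨h1, h2⟩
    refine ⟨(𝒜 x).smul_mem _ h1, fun b hb => ?_⟩
    rw [mul_smul_comm]
    exact (h2 b hb).smul c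

theorem JJ_le (h : Hyp 𝒜 j) (hj : j ≠ 0) {x : X} {a : B} (ha : a ∈ h.JJ hj x) : a ∈ 𝒜 x := ha.1

theorem mul_JJ (h : Hyp 𝒜 j) (hj : j ≠ 0) {x y : X} {a c : B} (hc : c ∈ 𝒜 y)
    (ha : a ∈ h.JJ hj x) : c * a ∈ h.JJ hj (y * x) := by
  refine ⟨h.mul hc ha.1, fun b hb => ?_⟩
  have h1 := h.mul hb hc
  rw [mul_inv_rev, inv_mul_cancel_right] at h1
  rw [← mul_assoc]
  exact ha.2 _ h1

theorem JJ_mul (h : Hyp 𝒜 j) (hj : j ≠ 0) {x y : X} {a c : B} (hc : c ∈ 𝒜 y)
    (ha : a ∈ h.JJ hj x) : a * c ∈ h.JJ hj (x * y) := by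
  refine ⟨h.mul ha.1 hc, fun b hb => ?_⟩
  have h1 := h.mul hc hb
  rw [mul_inv_rev, mul_inv_cancel_left] at h1
  rw [← mul_assoc]
  apply nil_swap
  rw [← mul_assoc]
  exact ha.2 _ h1

theorem nil_of_JJ (h : Hyp 𝒜 j) (hj : j ≠ 0) {a : B} (ha : a ∈ h.JJ hj 1) : IsNilpotent a := by
  have h1 := ha.2 j (by rw [inv_one]; exact h.one)
  rwa [h.jl ha.1] at h1

theorem JJ_one (h : Hyp 𝒜 j) (hj : j ≠ 0) {a : B} (ha : a ∈ 𝒜 1) (hn : IsNilpotent a) :
    a ∈ h.JJ hj 1 := by
  refine ⟨ha, fun b hb => ?_⟩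
  rw [inv_one] at hb
  exact h.nil_mul hj ha hb hn

theorem exists_inv (h : Hyp 𝒜 j) (hj : j ≠ 0) {x : X} {a : B} (ha : a ∈ 𝒜 x)
    (hna : a ∉ h.JJ hj x) : ∃ b ∈ 𝒜 x⁻¹, a * b = j ∧ b * a = j := by
  have h1 : ∃ b ∈ 𝒜 x⁻¹, ¬ IsNilpotent (b * a) := by
    by_contra hc
    push Not at hc
    exact hna ⟨ha, hc⟩
  obtain ⟨b, hb, hn⟩ := h1
  have h2 := h.mul hb ha
  rw [inv_mul_cancel] at h2
  rcases h.loc _ h2 with h3 | ⟨c, hc, -, h3⟩
  · exact absurd h3 hn
  · have h4 := h.mul hc hb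
    rw [one_mul] at h4
    rw [← mul_assoc] at h3
    refine ⟨c * b, h4, ?_, h3⟩
    have h5 := h.mul ha h4
    rw [mul_inv_cancel] at h5
    have h6 : a * (c * b) * (a * (c * b)) = a * (c * b) := by
      calc a * (c * b) * (a * (c * b)) = a * (c * b * a) * (c * b) := by
            simp only [mul_assoc]
        _ = a * (c * b) := by rw [h3, h.jr ha]
    rcases h.loc _ h5 with h7 | ⟨d, hd, -, h7⟩
    · exfalso
      obtain ⟨m, hm⟩ := h7
      have h8 : a * (c * b) = 0 := by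
        rcases Nat.eq_zero_or_pos m with h0 | h0
        · subst h0
          rw [pow_zero] at hm
          rw [← mul_one (a * (c * b)), hm, mul_zero]
        · have h9 : IsIdempotentElem (a * (c * b)) := h6
          obtain ⟨l, rfl⟩ : ∃ l, m = l + 1 := ⟨m - 1, by omega⟩
          rw [← h9.pow_succ_eq l, hm]
      apply hj
      calc j = j * j := h.jj.symm
        _ = (c * b * a) * (c * b * a) := by rw [h3]
        _ = (c * b) * (a * (c * b)) * a := by simp only [mul_assoc]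
        _ = 0 := by rw [h8, mul_zero, zero_mul]
    · calc a * (c * b) = j * (a * (c * b)) := (h.jl h5).symm
        _ = d * (a * (c * b)) * (a * (c * b)) := by rw [h7]
        _ = d * (a * (c * b) * (a * (c * b))) := by rw [mul_assoc]
        _ = j := by rw [h6, h7]

/-- the degree and the value of a word -/
def dg (w : List (X × B)) : X := (w.map Prod.fst).prod

/-- the value of a word -/
def vl (w : List (X × B)) : B := (w.map Prod.snd).prod

theorem dg_snoc (w : List (X × B)) (s : X × B) : dg (w ++ [s]) = dg w * s.1 := by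
  unfold dg
  rw [List.map_append, List.prod_append, List.map_singleton, List.prod_singleton]

theorem vl_snoc (w : List (X × B)) (s : X × B) : vl (w ++ [s]) = vl w * s.2 := by
  unfold vl
  rw [List.map_append, List.prod_append, List.map_singleton, List.prod_singleton]

/-- the returns of a word to a given partial degree -/
theorem word_state [Fintype X] (h : Hyp 𝒜 j) (hj : j ≠ 0) (w : List (X × B)) :
    (∀ s ∈ w, s.2 ∈ h.JJ hj s.1) → ∃ c : X → ℕ, (∑ y, c y = w.length + 1) ∧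
      ∀ y m, c y = m + 1 → ∃ (b : B) (L : List B) (v : B), (∀ n ∈ L, n ∈ h.JJ hj 1) ∧
        L.length = m ∧ vl w = b * L.prod * v ∧
          (v ∈ h.JJ hj (y⁻¹ * dg w) ∨ (v = 1 ∧ dg w = y)) := by
  classical
  induction w using List.reverseRecOn with
  | nil =>
    intro _
    refine ⟨fun y => if y = 1 then 1 else 0, by simp, ?_⟩
    intro y m hm
    change (if y = 1 then 1 else 0) = m + 1 at hm
    have hy : y = 1 := by
      by_contra h0
      rw [if_neg h0] at hm
      omega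
    rw [if_pos hy] at hm
    refine ⟨1, [], 1, by simp, by simp; omega, by simp [vl], Or.inr ⟨rfl, ?_⟩⟩
    rw [hy]
    rfl
  | append_singleton w s ih =>
    intro hw
    obtain ⟨c, hc1, hc2⟩ := ih (fun t ht => hw t (List.mem_append_left _ ht))
    have hs := hw s (List.mem_append_right _ (List.mem_singleton_self s))
    refine ⟨fun y => c y + if y = dg w * s.1 then 1 else 0, ?_, ?_⟩
    · rw [Finset.sum_add_distrib, hc1]
      simp
    · intro y m hm
      change c y + (if y = dg w * s.1 then 1 else 0) = m + 1 at hm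
      rw [dg_snoc, vl_snoc]
      have hv : ∀ v : B, (v ∈ h.JJ hj (y⁻¹ * dg w) ∨ (v = 1 ∧ dg w = y)) →
          v * s.2 ∈ h.JJ hj (y⁻¹ * (dg w * s.1)) := by
        rintro v (hv | ⟨rfl, hy⟩)
        · rw [← mul_assoc]
          exact h.JJ_mul hj hs.1 hv
        · rw [one_mul, hy, inv_mul_cancel_left]
          exact hs
      by_cases hy : y = dg w * s.1
      · rw [if_pos hy] at hm
        rcases Nat.eq_zero_or_pos (c y) with h0 | h0
        · refine ⟨vl w * s.2, [], 1, by simp, by simp; omega, by simp, Or.inr ⟨rfl, hy.symm⟩⟩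
        · obtain ⟨l, hl⟩ : ∃ l, c y = l + 1 := ⟨c y - 1, by omega⟩
          obtain ⟨b, L, v, h1, h2, h3, h4⟩ := hc2 y l hl
          have h5 := hv v h4
          rw [← hy, inv_mul_cancel] at h5
          refine ⟨b, L ++ [v * s.2], 1, ?_, ?_, ?_, Or.inr ⟨rfl, hy.symm⟩⟩
          · intro n hn
            rcases List.mem_append.mp hn with hn | hn
            · exact h1 n hn
            · rw [List.mem_singleton.mp hn]
              exact h5
          · rw [List.length_append, h2, List.length_singleton]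
            omega
          · rw [h3, List.prod_append, List.prod_singleton]
            simp only [mul_assoc, mul_one]
      · rw [if_neg hy, add_zero] at hm
        obtain ⟨b, L, v, h1, h2, h3, h4⟩ := hc2 y m hm
        refine ⟨b, L, v * s.2, h1, h2, ?_, Or.inl (hv v h4)⟩
        rw [h3]
        simp only [mul_assoc]

/-- long products of homogeneous nonunits vanish -/
theorem exists_word [FiniteDimensional k B] [Finite X] (h : Hyp 𝒜 j) (hj : j ≠ 0) :
    ∃ N : ℕ, ∀ w : List (X × B), (∀ s ∈ w, s.2 ∈ h.JJ hj s.1) → N ≤ w.length → vl w = 0 := by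
  classical
  letI := Fintype.ofFinite X
  obtain ⟨M, hM⟩ := exists_prod_eq_zero (h.JJ hj 1)
    (fun a ha b hb => by
      have := h.mul_JJ hj ha.1 hb
      rwa [mul_one] at this) (fun a ha => h.nil_of_JJ hj ha)
  have hM' : ∀ L : List B, (∀ a ∈ L, a ∈ h.JJ hj 1) → M ≤ L.length → L.prod = 0 := by
    intro L hL hlen
    rw [← List.take_append_drop M L, List.prod_append,
      hM (L.take M) (fun a ha => hL a (List.mem_of_mem_take ha)) (by
        rw [List.length_take]; omega), zero_mul]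
  refine ⟨M * Fintype.card X, fun w hw hlen => ?_⟩
  obtain ⟨c, hc1, hc2⟩ := word_state h hj w hw
  have h1 : ∃ y, M < c y := by
    by_contra hcon
    push Not at hcon
    have h2 : ∑ y, c y ≤ ∑ _y : X, M := Finset.sum_le_sum fun y _ => hcon y
    rw [Finset.sum_const, Finset.card_univ, smul_eq_mul, mul_comm] at h2
    omega
  obtain ⟨y, hy⟩ := h1
  obtain ⟨m, hm⟩ : ∃ m, c y = m + 1 := ⟨c y - 1, by omega⟩
  obtain ⟨b, L, v, h3, h4, h5, -⟩ := hc2 y m hm
  rw [h5, hM' L h3 (by omega), mul_zero, zero_mul]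

/-- the span of the homogeneous nonunits -/
def IJ (h : Hyp 𝒜 j) (hj : j ≠ 0) : Submodule k B := Submodule.span k {a | ∃ x, a ∈ h.JJ hj x}

theorem idem_IJ [FiniteDimensional k B] [Finite X] (h : Hyp 𝒜 j) (hj : j ≠ 0) {t : B}
    (ht : t ∈ h.IJ hj) (htt : t * t = t) : t = 0 := by
  obtain ⟨N, hN⟩ := exists_word h hj
  have h1 : t ^ (N + 1) ∈ (h.IJ hj) ^ (N + 1) := Submodule.pow_mem_pow _ ht _
  have h2 : (h.IJ hj) ^ (N + 1) = ⊥ := by
    unfold IJ
    rw [Submodule.span_pow, Submodule.span_eq_bot]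
    intro a ha
    rw [Set.mem_pow] at ha
    obtain ⟨f, rfl⟩ := ha
    have h3 : ∀ i, ∃ x, (f i : B) ∈ h.JJ hj x := fun i => (f i).2
    choose x hx using h3
    have h4 := hN (List.ofFn fun i => (x i, (f i : B))) (by
      intro s hs
      rw [List.mem_ofFn] at hs
      obtain ⟨i, rfl⟩ := hs
      exact hx i) (by rw [List.length_ofFn]; omega)
    unfold vl at h4
    rw [List.map_ofFn] at h4
    exact h4
  rw [h2, Submodule.mem_bot] at h1
  have h3 : IsIdempotentElem t := htt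
  rwa [h3.pow_succ_eq N] at h1

/-- the span of the homogeneous elements -/
def IA (𝒜 : X → Submodule k B) : Submodule k B := Submodule.span k {a | ∃ x, a ∈ 𝒜 x}

theorem mul_IJ (h : Hyp 𝒜 j) (hj : j ≠ 0) {a b : B} (ha : a ∈ IA 𝒜) (hb : b ∈ h.IJ hj) :
    a * b ∈ h.IJ hj := by
  have h1 : IA 𝒜 * h.IJ hj ≤ h.IJ hj := by
    unfold IA IJ
    rw [Submodule.span_mul_span, Submodule.span_le]
    rintro _ ⟨a, ⟨x, hx⟩, b, ⟨y, hy⟩, rfl⟩
    exact Submodule.subset_span ⟨_, h.mul_JJ hj hx hy⟩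
  exact h1 (Submodule.mul_mem_mul ha hb)

theorem IJ_mul (h : Hyp 𝒜 j) (hj : j ≠ 0) {a b : B} (ha : a ∈ h.IJ hj) (hb : b ∈ IA 𝒜) :
    a * b ∈ h.IJ hj := by
  have h1 : h.IJ hj * IA 𝒜 ≤ h.IJ hj := by
    unfold IA IJ
    rw [Submodule.span_mul_span, Submodule.span_le]
    rintro _ ⟨a, ⟨x, hx⟩, b, ⟨y, hy⟩, rfl⟩
    exact Submodule.subset_span ⟨_, h.JJ_mul hj hy hx⟩
  exact h1 (Submodule.mul_mem_mul ha hb)

theorem IJ_le (h : Hyp 𝒜 j) (hj : j ≠ 0) : h.IJ hj ≤ IA 𝒜 := by
  unfold IA IJ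
  apply Submodule.span_mono
  rintro a ⟨x, hx⟩
  exact ⟨x, hx.1⟩

/-- subtraction of a scalar -/
theorem exists_scalar [FiniteDimensional k B] [IsAlgClosed k] (h : Hyp 𝒜 j) (hj : j ≠ 0) {c : B}
    (hc : c ∈ 𝒜 1) : ∃ α : k, ∃ n ∈ h.JJ hj 1, c = α • j + n := by
  let T : 𝒜 1 →ₗ[k] 𝒜 1 :=
    (LinearMap.mulLeft k c).restrict (fun a ha => by
      have := h.mul hc ha
      rwa [mul_one] at this)
  have hnt : Nontrivial (𝒜 1) := ⟨⟨⟨j, h.one⟩, 0, fun h0 => hj (congrArg Subtype.val h0)⟩⟩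
  obtain ⟨α, hα⟩ := Module.End.exists_eigenvalue T
  obtain ⟨v, hv⟩ := hα.exists_hasEigenvector
  have hv1 : c * (v : B) = α • (v : B) := congrArg Subtype.val hv.apply_eq_smul
  have hv2 : (v : B) ≠ 0 := fun h0 => hv.2 (Subtype.ext h0)
  have h1 : c - α • j ∈ 𝒜 1 := (𝒜 1).sub_mem hc ((𝒜 1).smul_mem _ h.one)
  have h2 : (c - α • j) * (v : B) = 0 := by
    rw [sub_mul, smul_mul_assoc, h.jl v.2, hv1, sub_self]
  refine ⟨α, c - α • j, ?_, by abel⟩
  rcases h.loc _ h1 with h3 | ⟨b, hb, -, h3⟩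
  · exact h.JJ_one hj h1 h3
  · exfalso
    apply hv2
    rw [← h.jl v.2, ← h3, mul_assoc, h2, mul_zero]

/-- degrees of the homogeneous units -/
def X0 (h : Hyp 𝒜 j) : Subgroup X where
  carrier := {x | ∃ a ∈ 𝒜 x, ∃ b ∈ 𝒜 x⁻¹, a * b = j ∧ b * a = j}
  one_mem' := ⟨j, h.one, j, by rw [inv_one]; exact h.one, h.jj, h.jj⟩
  mul_mem' := by
    rintro x y ⟨a, ha, b, hb, h1, h2⟩ ⟨a', ha', b', hb', h1', h2'⟩
    refine ⟨a * a', h.mul ha ha', b' * b, by rw [mul_inv_rev]; exact h.mul hb' hb, ?_, ?_⟩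
    · calc a * a' * (b' * b) = a * (a' * b') * b := by simp only [mul_assoc]
        _ = j := by rw [h1', h.jr ha, h1]
    · calc b' * b * (a * a') = b' * (b * a) * a' := by simp only [mul_assoc]
        _ = j := by rw [h2, h.jr hb', h2']
  inv_mem' := by
    rintro x ⟨a, ha, b, hb, h1, h2⟩
    exact ⟨b, hb, a, by rw [inv_inv]; exact ha, h2, h1⟩

/-- normal form of a homogeneous element -/
theorem normal_form [FiniteDimensional k B] [IsAlgClosed k] (h : Hyp 𝒜 j) (hj : j ≠ 0)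
    {g : X} {w w' : B} (hw : w ∈ 𝒜 g) (hw' : w' ∈ 𝒜 g⁻¹) (h1 : w * w' = j) {i : ℕ} {a : B}
    (ha : a ∈ 𝒜 (g ^ i)) : ∃ α : k, ∃ n ∈ h.IJ hj, a = α • (j * w ^ i) + n := by
  have hP : ∀ i, j * w ^ i ∈ 𝒜 (g ^ i) := by
    intro i
    induction i with
    | zero => rw [pow_zero, pow_zero, mul_one]; exact h.one
    | succ i ih => rw [pow_succ, pow_succ, ← mul_assoc]; exact h.mul ih hw
  have hP' : ∀ i, j * w' ^ i ∈ 𝒜 ((g ^ i)⁻¹) := by
    intro i
    induction i with
    | zero => rw [pow_zero, pow_zero, mul_one, inv_one]; exact h.one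
    | succ i ih =>
      rw [pow_succ w' i, ← mul_assoc, pow_succ' g i, mul_inv_rev]
      exact h.mul ih hw'
  have hPP : ∀ i, (j * w ^ i) * (j * w' ^ i) = j := by
    intro i
    induction i with
    | zero => rw [pow_zero, pow_zero, mul_one, h.jj]
    | succ i ih =>
      have e1 : j * w ^ (i + 1) = j * w ^ i * w := by rw [pow_succ, mul_assoc]
      have e2 : j * w' ^ (i + 1) = w' * (j * w' ^ i) := by
        rw [pow_succ', ← mul_assoc, h.jl hw']
        rcases Nat.eq_zero_or_pos i with h0 | h0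
        · subst h0
          rw [pow_zero, mul_one, mul_one, h.jr hw']
        · obtain ⟨l, rfl⟩ : ∃ l, i = l + 1 := ⟨i - 1, by omega⟩
          rw [pow_succ', ← mul_assoc j, h.jl hw']
      calc j * w ^ (i + 1) * (j * w' ^ (i + 1)) = (j * w ^ i) * (w * w') * (j * w' ^ i) := by
            rw [e1, e2]
            simp only [mul_assoc]
        _ = j := by rw [h1, h.jr (hP i), ih]
  have hc : (j * w' ^ i) * a ∈ 𝒜 1 := by
    have := h.mul (hP' i) ha
    rwa [inv_mul_cancel] at this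
  obtain ⟨α, n, hn, hcn⟩ := h.exists_scalar hj hc
  refine ⟨α, (j * w ^ i) * n, Submodule.subset_span ⟨_, h.mul_JJ hj (hP i) hn⟩, ?_⟩
  calc a = j * a := (h.jl ha).symm
    _ = (j * w ^ i) * (j * w' ^ i) * a := by rw [hPP]
    _ = (j * w ^ i) * ((j * w' ^ i) * a) := by rw [mul_assoc]
    _ = α • (j * w ^ i) + (j * w ^ i) * n := by
      rw [hcn, mul_add, mul_smul_comm, h.jr (hP i)]

/-- modulo the ideal of the nonunits the algebra is commutative -/
theorem comm_mem [FiniteDimensional k B] [IsAlgClosed k] [Finite X] [IsCyclic X]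
    (h : Hyp 𝒜 j) (hj : j ≠ 0) {a b : B} (ha : a ∈ IA 𝒜) (hb : b ∈ IA 𝒜) :
    a * b - b * a ∈ h.IJ hj := by
  obtain ⟨⟨g, hg⟩, hgen⟩ := IsCyclic.exists_generator (α := h.X0)
  obtain ⟨w, hw, w', hw', h1, h2⟩ := id hg
  have hP : ∀ i, j * w ^ i ∈ 𝒜 (g ^ i) := by
    intro i
    induction i with
    | zero => rw [pow_zero, pow_zero, mul_one]; exact h.one
    | succ i ih => rw [pow_succ, pow_succ, ← mul_assoc]; exact h.mul ih hw
  have hPP : ∀ i l, (j * w ^ i) * (j * w ^ l) = j * w ^ (i + l) := by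
    intro i l
    rw [← mul_assoc, h.jr (hP i), mul_assoc, ← pow_add]
  have hPA : ∀ i, j * w ^ i ∈ IA 𝒜 := fun i => Submodule.subset_span ⟨_, hP i⟩
  have hnf : ∀ x, ∀ a ∈ 𝒜 x, ∃ α : k, ∃ i : ℕ, ∃ n ∈ h.IJ hj, a = α • (j * w ^ i) + n := by
    intro x a ha
    by_cases hx : a ∈ h.JJ hj x
    · exact ⟨0, 0, a, Submodule.subset_span ⟨x, hx⟩, by rw [zero_smul, zero_add]⟩
    · obtain ⟨b, hb, hab, hba⟩ := h.exists_inv hj ha hx
      have hxX : x ∈ h.X0 := ⟨a, ha, b, hb, hab, hba⟩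
      have h3 := hgen ⟨x, hxX⟩
      rw [← mem_powers_iff_mem_zpowers] at h3
      obtain ⟨i, hi⟩ := h3
      have hi' : g ^ i = x := congrArg Subtype.val hi
      subst hi'
      obtain ⟨α, n, hn, hc⟩ := h.normal_form hj hw hw' h1 ha
      exact ⟨α, i, n, hn, hc⟩
  have key : ∀ x, ∀ a ∈ 𝒜 x, ∀ y, ∀ b ∈ 𝒜 y, a * b - b * a ∈ h.IJ hj := by
    intro x a ha y b hb
    obtain ⟨α, i, n, hn, rfl⟩ := hnf x a ha
    obtain ⟨β, l, m, hm, rfl⟩ := hnf y b hb
    have e1 : (α • (j * w ^ i) + n) * (β • (j * w ^ l) + m) -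
        (β • (j * w ^ l) + m) * (α • (j * w ^ i) + n) =
        (α • ((j * w ^ i) * m) + β • (n * (j * w ^ l)) + n * m) -
        (β • ((j * w ^ l) * n) + α • (m * (j * w ^ i)) + m * n) := by
      have e2 : (j * w ^ i) * (j * w ^ l) = (j * w ^ l) * (j * w ^ i) := by
        rw [hPP, hPP, add_comm]
      simp only [add_mul, mul_add, smul_mul_assoc, mul_smul_comm, e2, smul_add]
      rw [smul_comm β α]
      abel
    rw [e1]
    refine Submodule.sub_mem _ (Submodule.add_mem _ (Submodule.add_mem _ ?_ ?_) ?_)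
      (Submodule.add_mem _ (Submodule.add_mem _ ?_ ?_) ?_)
    · exact Submodule.smul_mem _ _ (h.mul_IJ hj (hPA i) hm)
    · exact Submodule.smul_mem _ _ (h.IJ_mul hj hn (hPA l))
    · exact h.mul_IJ hj (h.IJ_le hj hn) hm
    · exact Submodule.smul_mem _ _ (h.mul_IJ hj (hPA l) hn)
    · exact Submodule.smul_mem _ _ (h.IJ_mul hj hm (hPA i))
    · exact h.mul_IJ hj (h.IJ_le hj hm) hn
  have key2 : ∀ x, ∀ a ∈ 𝒜 x, ∀ b ∈ IA 𝒜, a * b - b * a ∈ h.IJ hj := by
    intro x a ha b hb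
    unfold IA at hb
    induction hb using Submodule.span_induction with
    | mem b hb =>
      obtain ⟨y, hy⟩ := hb
      exact key x a ha y b hy
    | zero => rw [mul_zero, zero_mul, sub_zero]; exact Submodule.zero_mem _
    | add b c _ _ hb hc =>
      have : a * (b + c) - (b + c) * a = (a * b - b * a) + (a * c - c * a) := by
        rw [mul_add, add_mul]
        abel
      rw [this]
      exact Submodule.add_mem _ hb hc
    | smul r b _ hb =>
      rw [mul_smul_comm, smul_mul_assoc, ← smul_sub]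
      exact Submodule.smul_mem _ _ hb
  unfold IA at ha
  induction ha using Submodule.span_induction with
  | mem a ha =>
    obtain ⟨x, hx⟩ := ha
    exact key2 x a hx b hb
  | zero => rw [mul_zero, zero_mul, sub_zero]; exact Submodule.zero_mem _
  | add a c _ _ ha hc =>
    have : (a + c) * b - b * (a + c) = (a * b - b * a) + (c * b - b * c) := by
      rw [mul_add, add_mul]
      abel
    rw [this]
    exact Submodule.add_mem _ ha hc
  | smul r a _ ha =>
    rw [mul_smul_comm, smul_mul_assoc, ← smul_sub]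
    exact Submodule.smul_mem _ _ ha

end Hyp

/-- **Lemma N, part N1.** In a finite-dimensional algebra over an algebraically closed field,
graded by a finite cyclic group and with local component of degree one, two orthogonal equivalent
idempotents are zero. -/
theorem n1 [FiniteDimensional k B] [IsAlgClosed k] [Finite X] [IsCyclic X] (h : Hyp 𝒜 j)
    {t u v t2 : B} (ht : t ∈ ⨆ x, 𝒜 x) (hu : u ∈ ⨆ x, 𝒜 x) (hv : v ∈ ⨆ x, 𝒜 x)
    (hut : u * v = t) (hvu : v * u = t2) (htt : t * t = t) (h0 : t * t2 = 0) : t = 0 := by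
  have hle : ⨆ x, 𝒜 x ≤ Hyp.IA 𝒜 := by
    refine iSup_le fun x a ha => ?_
    exact Submodule.subset_span ⟨x, ha⟩
  by_cases hj : j = 0
  · have h1 : Hyp.IA 𝒜 = ⊥ := by
      unfold Hyp.IA
      rw [Submodule.span_eq_bot]
      rintro a ⟨x, hx⟩
      rw [← h.jl hx, hj, zero_mul]
    have h2 := hle ht
    rwa [h1, Submodule.mem_bot] at h2
  · apply h.idem_IJ hj ?_ htt
    have h1 : t = t * (u * v - v * u) := by
      rw [hut, hvu, mul_sub, htt, h0, sub_zero]
    rw [h1]
    exact h.mul_IJ hj (hle ht) (h.comm_mem hj (hle hu) (hle hv))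

/-- **Lemma N, part N1d.** A graded left ideal whose component of degree one consists of nilpotent
elements contains no idempotent but zero. -/
theorem n1d [FiniteDimensional k B] [Finite X] (h : Hyp 𝒜 j) (𝒦 : X → Submodule k B)
    (hle : ∀ x, 𝒦 x ≤ 𝒜 x) (hmul : ∀ {x y a b}, a ∈ 𝒜 x → b ∈ 𝒦 y → a * b ∈ 𝒦 (x * y))
    (hnil : ∀ a ∈ 𝒦 1, IsNilpotent a) {t : B} (ht : t ∈ ⨆ x, 𝒦 x) (htt : t * t = t) : t = 0 := by
  by_cases hj : j = 0
  · have h1 : ⨆ x, 𝒦 x ≤ ⊥ := by
      refine iSup_le fun x a ha => ?_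
      rw [Submodule.mem_bot, ← h.jl (hle x ha), hj, zero_mul]
    exact (Submodule.mem_bot k).mp (h1 ht)
  · apply h.idem_IJ hj ?_ htt
    have h1 : ⨆ x, 𝒦 x ≤ h.IJ hj := by
      refine iSup_le fun x a ha => ?_
      refine Submodule.subset_span ⟨x, hle x ha, fun b hb => ?_⟩
      apply hnil
      have := hmul hb ha
      rwa [inv_mul_cancel] at this
    exact h1 ht

end Graded

end Vale.Agent.P180.H897.N1
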