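import Vale.Agent.P180.H897.LemD2
import Vale.Agent.P180.H951.SlAllH

/-!
P180: special linear groups of all ranks over all finite fields of characteristic different from
`p`, every prime `p` (helper897).
-/

set_option linter.all false

namespace Vale.Agent.P180.H897

open Module Subgroup Vale.Agent.P180 Vale.Agent.P180.H768.Gd Vale.Agent.P180.R2.H471.Hc
  Vale.Agent.P180.H951

universe u

/-- **Special linear groups**, all ranks, all primes `p`. -/
theorem oneBd_slAll2 {k : Type u} [Field k] [IsAlgClosed k] {p : ℕ} [Fact p.Prime] [CharP k p]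
    {K V : Type} [Field K] [Finite K] [AddCommGroup V] [Module K V] [Finite V]
    [Finite (V ≃ₗ[K] V)] [Finite (SpecialLinearGroup K V)] (hpK : ¬ p ∣ Nat.card K)
    {n : ℕ} {Q : Subgroup (SpecialLinearGroup K V)} (hQ : IsPGroup p Q) (hQn : Nat.card Q ≤ n)
    (hab : ∀ x ∈ Q, ∀ y ∈ Q, x * y = y * x) : OneBd k Q (slC p n) :=
  oneBd_slAll_ofA hpK (fun S hS hmax hT => MatD.rowA2 hpK S hS hmax hT) hQ hQn hab

end Vale.Agent.P180.H897
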