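import Vale.Agent.P180.H897.TowStep

/-!
P180, abstract TOWER THEOREM: the dimension inequality of one step (helper897).
-/

set_option linter.all false

namespace Vale.Agent.P180.H897

universe u

open Finset Vale.Agent.P180 Vale.Agent.P180.R2.H799

section dim

variable {K : Type u} [Field K] {A : Type*} [Ring A] [Algebra K A] [FiniteDimensional K A]

/-- span of the products `x Z y`, `x ∈ V`, `y ∈ W` -/
theorem finrank_span_le (V W : Submodule K A) (Z : A) :
    Module.finrank K (Submodule.span K {z | ∃ x ∈ V, ∃ y ∈ W, z = x * Z * y}) ≤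
      Module.finrank K V * Module.finrank K W := by
  classical
  let f : V →ₗ[K] W →ₗ[K] A := LinearMap.mk₂ K (fun x y => (x : A) * Z * y)
    (by
      intro x x' y
      rw [Submodule.coe_add, add_mul, add_mul])
    (by
      intro c x y
      rw [Submodule.coe_smul, smul_mul_assoc, smul_mul_assoc])
    (by
      intro x y y'
      rw [Submodule.coe_add, mul_add])
    (by
      intro c x y
      rw [Submodule.coe_smul, mul_smul_comm])
  have h1 : Submodule.span K {z | ∃ x ∈ V, ∃ y ∈ W, z = x * Z * y} ≤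
      LinearMap.range (TensorProduct.lift f) := by
    rw [Submodule.span_le]
    rintro _ ⟨x, hx, y, hy, rfl⟩
    refine ⟨(⟨x, hx⟩ : V) ⊗ₜ[K] (⟨y, hy⟩ : W), ?_⟩
    rw [TensorProduct.lift.tmul]
    rfl
  refine (Submodule.finrank_mono h1).trans ?_
  refine (LinearMap.finrank_range_le _).trans ?_
  rw [Module.finrank_tensorProduct]

theorem finrank_sup_le' (V W : Submodule K A) :
    Module.finrank K ↥(V ⊔ W) ≤ Module.finrank K V + Module.finrank K W :=
  Submodule.finrank_add_le_finrank_add_finrank V W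

theorem finrank_iSup_le' {ι : Type*} [Fintype ι] (V : ι → Submodule K A) :
    Module.finrank K ↥(⨆ i, V i) ≤ ∑ i, Module.finrank K (V i) := by
  classical
  have h1 : ∀ s : Finset ι, Module.finrank K ↥(⨆ i ∈ s, V i) ≤ ∑ i ∈ s, Module.finrank K (V i) := by
    intro s
    induction s using Finset.induction_on with
    | empty =>
      simp
    | insert a s ha ih =>
      rw [Finset.iSup_insert, Finset.sum_insert ha]
      exact (finrank_sup_le' _ _).trans (Nat.add_le_add_left ih _)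
  have h2 := h1 Finset.univ
  have e : (⨆ i ∈ (Finset.univ : Finset ι), V i) = ⨆ i, V i := by simp
  rw [e] at h2
  exact h2

/-- a complete family of primitive idempotents of `B` -/
structure Prims (B : Subalgebra K A) {I : Type*} (ep : I → A) : Prop where
  mem : ∀ ψ, ep ψ ∈ B
  idem : ∀ ψ, ep ψ * ep ψ = ep ψ
  diag : ∀ ψ, ∀ x ∈ B, ∃ c : K, ep ψ * x * ep ψ = c • ep ψ
  off : ∀ ψ θ, ψ ≠ θ → ∀ x ∈ B, ep ψ * x * ep θ = 0
  one : (1 : A) ∈ Submodule.span K {z | ∃ ψ, ∃ x ∈ B, ∃ y ∈ B, z = x * ep ψ * y}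

variable {B₀ B₁ B₂ : Subalgebra K A} {E' X' E X T : A} {a : K} {L' L : Finset K} {P' P : K → A}
  {I₀ I₁ : Type*} [Fintype I₀] [Fintype I₁] {ep₀ : I₀ → A} {ep₁ : I₁ → A}

open scoped Classical in
/-- the part coming from `B₁` -/
noncomputable def V1 (ep₁ : I₁ → A) (P : K → A) (l u : K) (ψ θ : I₁) : Submodule K A :=
  if l = u ∧ ψ = θ then Submodule.span K {ep₁ ψ * P l} else ⊥

theorem finrank_V1 (l u : K) (ψ θ : I₁) [Decidable (l = u ∧ ψ = θ)] :
    Module.finrank K (V1 ep₁ P l u ψ θ) ≤ if l = u ∧ ψ = θ then 1 else 0 := by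
  unfold V1
  by_cases h : l = u ∧ ψ = θ
  · rw [if_pos h, if_pos h]
    refine (finrank_span_le_card _).trans ?_
    simp
  · rw [if_neg h, if_neg h]
    simp

/-- the part coming from `T` -/
noncomputable def V2 (B₁ : Subalgebra K A) (ep₀ : I₀ → A) (ep₁ : I₁ → A) (P' : K → A) (Z : A)
    (l u : K) (ψ θ : I₁) : Submodule K A :=
  ⨆ φ : I₀, Submodule.span K {z | ∃ x ∈ NN B₁ (ep₁ ψ) (P' u * ep₀ φ),
    ∃ y ∈ NN B₁ (ep₀ φ * P' l) (ep₁ θ), z = x * Z * y}

theorem finrank_V2 (Z : A) (l u : K) (ψ θ : I₁) :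
    Module.finrank K (V2 B₁ ep₀ ep₁ P' Z l u ψ θ) ≤
      ∑ φ : I₀, Module.finrank K (NN B₁ (ep₁ ψ) (P' u * ep₀ φ)) *
        Module.finrank K (NN B₁ (ep₀ φ * P' l) (ep₁ θ)) := by
  unfold V2
  refine (finrank_iSup_le' _).trans ?_
  exact Finset.sum_le_sum fun φ _ => finrank_span_le _ _ _

theorem mem_V1 (h1 : Prims B₁ ep₁) (hS : Spec E X L P) (hP : ∀ l, ∀ x ∈ B₁, P l * x = x * P l)
    (l u : K) (ψ θ : I₁) {y : A} (hy : y ∈ B₁) :
    ep₁ ψ * y * ep₁ θ * (P l * P u) ∈ V1 ep₁ P l u ψ θ := by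
  classical
  unfold V1
  by_cases h : l = u ∧ ψ = θ
  · rw [if_pos h, ← h.1, ← h.2, hS.idem]
    obtain ⟨c, hc⟩ := h1.diag ψ y hy
    rw [hc, smul_mul_assoc]
    exact Submodule.smul_mem _ _ (Submodule.mem_span_singleton_self _)
  · rw [if_neg h]
    by_cases hψ : ψ = θ
    · have hlu : l ≠ u := fun h' => h ⟨h', hψ⟩
      rw [hS.orth l u hlu, mul_zero]
      exact Submodule.zero_mem _
    · rw [h1.off ψ θ hψ y hy, zero_mul]
      exact Submodule.zero_mem _

theorem Step.mem_V2 (h : Step B₀ B₁ B₂ E' X' E X T a L' L P' P) (h0 : Prims B₀ ep₀)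
    (h1 : Prims B₁ ep₁) (l u : K) (ψ θ : I₁) {y y' : A} (hy : y ∈ B₁) (hy' : y' ∈ B₁) :
    ep₁ ψ * (y * (P' u * (P l * T * P u) * P' l) * y') * ep₁ θ ∈
      V2 B₁ ep₀ ep₁ P' (P l * T * P u) l u ψ θ := by
  classical
  set Z := P l * T * P u with hZ
  let F : A →ₗ[K] A := (LinearMap.mulLeft K (ep₁ ψ * y * P' u)) ∘ₗ
    (LinearMap.mulRight K (Z * (P' l * y' * ep₁ θ)))
  have hF : ∀ r, F r = (ep₁ ψ * y * P' u) * (r * (Z * (P' l * y' * ep₁ θ))) := fun r => rfl
  have h2 : F 1 ∈ V2 B₁ ep₀ ep₁ P' Z l u ψ θ := by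
    have h3 : (1 : A) ∈ (V2 B₁ ep₀ ep₁ P' Z l u ψ θ).comap F := by
      refine (Submodule.span_le.2 ?_) h0.one
      rintro _ ⟨φ, x₀, hx₀, y₀, hy₀, rfl⟩
      rw [SetLike.mem_coe, Submodule.mem_comap, hF]
      unfold V2
      refine Submodule.mem_iSup_of_mem φ (Submodule.subset_span ?_)
      refine ⟨ep₁ ψ * (y * x₀) * (P' u * ep₀ φ), ?_, ep₀ φ * P' l * (y₀ * y') * ep₁ θ, ?_, ?_⟩
      · refine mul_mul_mem_NN (h1.idem ψ) ?_ (h1.mem ψ) ?_ ?_
        · rw [mul_assoc, ← mul_assoc (ep₀ φ), ← h.P'_comm u _ (h0.mem φ), mul_assoc (P' u), h0.idem,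
            ← mul_assoc, h.S'.idem]
        · exact Subalgebra.mul_mem _ (h.P'_mem u) (h.le₀ (h0.mem φ))
        · exact Subalgebra.mul_mem _ hy (h.le₀ hx₀)
      · refine mul_mul_mem_NN ?_ (h1.idem θ) ?_ (h1.mem θ) ?_
        · rw [mul_assoc, ← mul_assoc (P' l), h.P'_comm l _ (h0.mem φ), mul_assoc (ep₀ φ) (P' l),
            h.S'.idem, ← mul_assoc, h0.idem]
        · exact Subalgebra.mul_mem _ (h.le₀ (h0.mem φ)) (h.P'_mem l)
        · exact Subalgebra.mul_mem _ (h.le₀ hy₀) hy'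
      · -- move everything
        have e1 : P' u * x₀ = x₀ * P' u := h.P'_comm u x₀ hx₀
        have e2 : P' l * y₀ = y₀ * P' l := h.P'_comm l y₀ hy₀
        have e3 : Z * y₀ = y₀ * Z := by rw [hZ]; exact h.Z_comm l u hy₀
        have e4 : Z * ep₀ φ = ep₀ φ * Z := by rw [hZ]; exact h.Z_comm l u (h0.mem φ)
        have e5 := h0.idem φ
        calc ep₁ ψ * y * P' u * (x₀ * ep₀ φ * y₀ * (Z * (P' l * y' * ep₁ θ)))
            = ep₁ ψ * y * (P' u * x₀) * (ep₀ φ * ep₀ φ) * (y₀ * Z) * (P' l * y' * ep₁ θ) := by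
              rw [e5]; simp only [mul_assoc]
          _ = ep₁ ψ * y * (x₀ * P' u) * (ep₀ φ * ep₀ φ) * (Z * y₀) * (P' l * y' * ep₁ θ) := by
              rw [e1, ← e3]
          _ = ep₁ ψ * y * x₀ * P' u * ep₀ φ * (ep₀ φ * Z) * (y₀ * P' l) * (y' * ep₁ θ) := by
              simp only [mul_assoc]
          _ = ep₁ ψ * y * x₀ * P' u * ep₀ φ * (Z * ep₀ φ) * (P' l * y₀) * (y' * ep₁ θ) := by
              rw [← e4, ← e2]
          _ = ep₁ ψ * (y * x₀) * (P' u * ep₀ φ) * Z * (ep₀ φ * P' l * (y₀ * y') * ep₁ θ) := by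
              simp only [mul_assoc]
    exact h3
  have h4 : F 1 = ep₁ ψ * (y * (P' u * Z * P' l) * y') * ep₁ θ := by
    rw [hF, one_mul]
    simp only [mul_assoc]
  rw [← h4]
  exact h2

/-- **the inequality of one step** -/
theorem Step.finrank_le (h : Step B₀ B₁ B₂ E' X' E X T a L' L P' P) (h0 : Prims B₀ ep₀)
    (h1 : Prims B₁ ep₁)
    (gen : ∀ x ∈ B₂, E * x * E ∈ Submodule.span K {z | ∃ y ∈ B₁, ∃ y' ∈ B₁,
      z = y * E ∨ z = y * X ∨ z = y * T * y'}) (l u : K) (ψ θ : I₁) [DecidableEq I₁]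
      [DecidableEq K] :
    Module.finrank K (NN B₂ (ep₁ ψ * P l) (P u * ep₁ θ)) ≤
      (if l = u ∧ ψ = θ then 1 else 0) +
      ∑ φ : I₀, Module.finrank K (NN B₁ (ep₁ ψ) (P' u * ep₀ φ)) *
        Module.finrank K (NN B₁ (ep₀ φ * P' l) (ep₁ θ)) := by
  set Z := P l * T * P u with hZ
  obtain ⟨w, hw, hZw⟩ := h.Z_eq l u
  have hle : NN B₂ (ep₁ ψ * P l) (P u * ep₁ θ) ≤
      V1 ep₁ P l u ψ θ ⊔ V2 B₁ ep₀ ep₁ P' Z l u ψ θ := by
    rintro x ⟨hx, hx1, hx2⟩
    let F : A →ₗ[K] A := (LinearMap.mulLeft K (ep₁ ψ * P l)) ∘ₗ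
      (LinearMap.mulRight K (P u * ep₁ θ))
    have hF : ∀ r, F r = (ep₁ ψ * P l) * (r * (P u * ep₁ θ)) := fun r => rfl
    have h2 : F (E * x * E) = x := by
      rw [hF]
      calc ep₁ ψ * P l * (E * x * E * (P u * ep₁ θ)) = ep₁ ψ * (P l * E) * x * ((E * P u) * ep₁ θ) := by
            simp only [mul_assoc]
        _ = (ep₁ ψ * P l) * x * (P u * ep₁ θ) := by rw [h.S.PE, h.S.EP]
        _ = x := by rw [hx1, hx2]
    have h3 : E * x * E ∈ (V1 ep₁ P l u ψ θ ⊔ V2 B₁ ep₀ ep₁ P' Z l u ψ θ).comap F := by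
      refine (Submodule.span_le.2 ?_) (gen x hx)
      rintro z ⟨y, hy, y', hy', hz⟩
      rw [SetLike.mem_coe, Submodule.mem_comap, hF]
      have hc : ∀ b ∈ B₁, P l * P u * b = b * (P l * P u) := by
        intro b hb
        rw [mul_assoc, h.P_comm u b hb, ← mul_assoc, h.P_comm l b hb, mul_assoc]
      rcases hz with hz | hz | hz
      · have e1 : ep₁ ψ * P l * (z * (P u * ep₁ θ)) = ep₁ ψ * y * ep₁ θ * (P l * P u) := by
          rw [hz]
          calc ep₁ ψ * P l * (y * E * (P u * ep₁ θ)) = ep₁ ψ * (P l * y) * (E * P u) * ep₁ θ := by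
                simp only [mul_assoc]
            _ = ep₁ ψ * y * (P l * P u * ep₁ θ) := by
                rw [h.P_comm l y hy, h.S.EP]; simp only [mul_assoc]
            _ = _ := by rw [hc _ (h1.mem θ)]; simp only [mul_assoc]
        rw [e1]
        exact Submodule.mem_sup_left (mem_V1 h1 h.S h.P_comm l u ψ θ hy)
      · have e1 : ep₁ ψ * P l * (z * (P u * ep₁ θ)) = u • (ep₁ ψ * y * ep₁ θ * (P l * P u)) := by
          rw [hz]
          calc ep₁ ψ * P l * (y * X * (P u * ep₁ θ)) = ep₁ ψ * (P l * y) * (X * P u) * ep₁ θ := by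
                simp only [mul_assoc]
            _ = u • (ep₁ ψ * y * (P l * P u * ep₁ θ)) := by
                rw [h.P_comm l y hy, h.S.XP, mul_smul_comm, smul_mul_assoc]; simp only [mul_assoc]
            _ = _ := by rw [hc _ (h1.mem θ)]; simp only [mul_assoc]
        rw [e1]
        exact Submodule.smul_mem _ _
          (Submodule.mem_sup_left (mem_V1 h1 h.S h.P_comm l u ψ θ hy))
      · have e1 : ep₁ ψ * P l * (z * (P u * ep₁ θ)) =
            ep₁ ψ * (y * (P' u * Z * P' l) * y') * ep₁ θ +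
              ep₁ ψ * (y * w * y') * ep₁ θ * (P l * P u) := by
          rw [hz]
          calc ep₁ ψ * P l * (y * T * y' * (P u * ep₁ θ)) =
                ep₁ ψ * (P l * y) * T * (y' * P u) * ep₁ θ := by
                simp only [mul_assoc]
            _ = ep₁ ψ * y * Z * y' * ep₁ θ := by
                rw [h.P_comm l y hy, ← h.P_comm u y' hy', hZ]; simp only [mul_assoc]
            _ = ep₁ ψ * y * (P' u * Z * P' l + w * (P l * P u)) * y' * ep₁ θ := by
                rw [← hZw]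
            _ = ep₁ ψ * (y * (P' u * Z * P' l) * y') * ep₁ θ +
              ep₁ ψ * y * w * (P l * P u * (y' * ep₁ θ)) := by
                simp only [mul_add, add_mul, mul_assoc]
            _ = _ := by
                rw [hc _ (Subalgebra.mul_mem _ hy' (h1.mem θ))]
                simp only [mul_assoc]
        rw [e1]
        refine Submodule.add_mem _ (Submodule.mem_sup_right ?_) (Submodule.mem_sup_left ?_)
        · exact h.mem_V2 h0 h1 l u ψ θ hy hy'
        · exact mem_V1 h1 h.S h.P_comm l u ψ θ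
            (Subalgebra.mul_mem _ (Subalgebra.mul_mem _ hy hw) hy')
    rw [← h2]
    exact h3
  refine (Submodule.finrank_mono hle).trans ((finrank_sup_le' _ _).trans ?_)
  exact Nat.add_le_add (finrank_V1 l u ψ θ) (finrank_V2 Z l u ψ θ)

/-- the inequality at the bottom -/
theorem finrank_le_bot (hS : Spec E X L P) (hP : ∀ l, ∀ x ∈ B₁, P l * x = x * P l)
    (h1 : Prims B₁ ep₁)
    (gen : ∀ x ∈ B₂, E * x * E ∈ Submodule.span K {z | ∃ y ∈ B₁, z = y * E ∨ z = y * X})
    (l u : K) (ψ θ : I₁) [DecidableEq I₁] [DecidableEq K] :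
    Module.finrank K (NN B₂ (ep₁ ψ * P l) (P u * ep₁ θ)) ≤
      (if l = u ∧ ψ = θ then 1 else 0) := by
  have hle : NN B₂ (ep₁ ψ * P l) (P u * ep₁ θ) ≤ V1 ep₁ P l u ψ θ := by
    rintro x ⟨hx, hx1, hx2⟩
    let F : A →ₗ[K] A := (LinearMap.mulLeft K (ep₁ ψ * P l)) ∘ₗ
      (LinearMap.mulRight K (P u * ep₁ θ))
    have hF : ∀ r, F r = (ep₁ ψ * P l) * (r * (P u * ep₁ θ)) := fun r => rfl
    have h2 : F (E * x * E) = x := by
      rw [hF]
      calc ep₁ ψ * P l * (E * x * E * (P u * ep₁ θ)) = ep₁ ψ * (P l * E) * x * ((E * P u) * ep₁ θ) := by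
            simp only [mul_assoc]
        _ = (ep₁ ψ * P l) * x * (P u * ep₁ θ) := by rw [hS.PE, hS.EP]
        _ = x := by rw [hx1, hx2]
    have h3 : E * x * E ∈ (V1 ep₁ P l u ψ θ).comap F := by
      refine (Submodule.span_le.2 ?_) (gen x hx)
      rintro z ⟨y, hy, hz⟩
      rw [SetLike.mem_coe, Submodule.mem_comap, hF]
      have hc : ∀ b ∈ B₁, P l * P u * b = b * (P l * P u) := by
        intro b hb
        rw [mul_assoc, hP u b hb, ← mul_assoc, hP l b hb, mul_assoc]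
      rcases hz with hz | hz
      · have e1 : ep₁ ψ * P l * (z * (P u * ep₁ θ)) = ep₁ ψ * y * ep₁ θ * (P l * P u) := by
          rw [hz]
          calc ep₁ ψ * P l * (y * E * (P u * ep₁ θ)) = ep₁ ψ * (P l * y) * (E * P u) * ep₁ θ := by
                simp only [mul_assoc]
            _ = ep₁ ψ * y * (P l * P u * ep₁ θ) := by
                rw [hP l y hy, hS.EP]; simp only [mul_assoc]
            _ = _ := by rw [hc _ (h1.mem θ)]; simp only [mul_assoc]
        rw [e1]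
        exact mem_V1 h1 hS hP l u ψ θ hy
      · have e1 : ep₁ ψ * P l * (z * (P u * ep₁ θ)) = u • (ep₁ ψ * y * ep₁ θ * (P l * P u)) := by
          rw [hz]
          calc ep₁ ψ * P l * (y * X * (P u * ep₁ θ)) = ep₁ ψ * (P l * y) * (X * P u) * ep₁ θ := by
                simp only [mul_assoc]
            _ = u • (ep₁ ψ * y * (P l * P u * ep₁ θ)) := by
                rw [hP l y hy, hS.XP, mul_smul_comm, smul_mul_assoc]; simp only [mul_assoc]
            _ = _ := by rw [hc _ (h1.mem θ)]; simp only [mul_assoc]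
        rw [e1]
        exact Submodule.smul_mem _ _ (mem_V1 h1 hS hP l u ψ θ hy)
    rw [← h2]
    exact h3
  exact (Submodule.finrank_mono hle).trans (finrank_V1 l u ψ θ)

end dim

end Vale.Agent.P180.H897
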