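import Vale.Agent.P180.H897.TowDim
import Vale.Agent.P180.H897.TowDef

/-!
P180, abstract TOWER THEOREM: the primitive idempotents of a group algebra (helper897).
-/

set_option linter.all false

namespace Vale.Agent.P180.H897

universe u

open Finset Vale.Agent.P180 Vale.Agent.P180.R2.H799 Vale.Agent.P180.R2.H471.Hc
open Vale.Agent.P180.R2.H12.Sl
open Vale.Agent.P180.H393 (IsIr IsCF ev)
open Vale.Agent.P180.H337

section

variable {K : Type u} [Field K] [IsAlgClosed K] [CharZero K] {H : Type} [Group H] [Fintype H]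

/-- the Wedderburn idempotents -/
theorem exists_wedp (K : Type u) [Field K] [IsAlgClosed K] [CharZero K] (H : Type) [Group H]
    [Fintype H] : ∃ (n : ℕ) (f : Fin n → MonoidAlgebra K H), (∀ i, f i ≠ 0) ∧
      (∀ i, f i * f i = f i) ∧ (∀ i x, ∃ c : K, f i * x * f i = c • f i) ∧
      (∀ i j, i ≠ j → ∀ x, f i * x * f j = 0) ∧
      (1 : MonoidAlgebra K H) ∈ Submodule.span K {z | ∃ i x y, z = x * f i * y} := by
  classical
  have : NeZero (Nat.card H : K) := ⟨by
    have : Nat.card H ≠ 0 := Nat.card_pos.ne'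
    exact_mod_cast this⟩
  have hfin : FiniteDimensional K (MonoidAlgebra K H) :=
    Module.Finite.equiv (MonoidAlgebra.coeffLinearEquiv K (M := H) (S := K)).symm
  have hss : IsSemisimpleRing (MonoidAlgebra K H) := by
    unfold IsSemisimpleRing
    infer_instance
  obtain ⟨n, d, hd, ⟨e⟩⟩ :=
    IsSemisimpleRing.exists_algEquiv_pi_matrix_of_isAlgClosed K (MonoidAlgebra K H)
  let g : ∀ i : Fin n, Fin (d i) → Fin (d i) → (∀ i, Matrix (Fin (d i)) (Fin (d i)) K) :=
    fun i a b => Pi.single i (Matrix.single a b 1)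
  let F : Fin n → MonoidAlgebra K H := fun i => e.symm (g i 0 0)
  have heF : ∀ i, e (F i) = g i 0 0 := fun i => e.apply_symm_apply _
  have hgg : ∀ i a b c, g i a b * g i b c = g i a c := by
    intro i a b c
    funext j
    rw [Pi.mul_apply]
    by_cases hj : j = i
    · subst hj
      change (Pi.single j (Matrix.single a b (1:K)) : ∀ i, Matrix (Fin (d i)) (Fin (d i)) K) j *
        (Pi.single j (Matrix.single b c (1:K)) : ∀ i, Matrix (Fin (d i)) (Fin (d i)) K) j =
        (Pi.single j (Matrix.single a c (1:K)) : ∀ i, Matrix (Fin (d i)) (Fin (d i)) K) j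
      rw [Pi.single_eq_same, Pi.single_eq_same, Pi.single_eq_same, Matrix.single_mul_single_same,
        mul_one]
    · change (Pi.single i (Matrix.single a b (1:K)) : ∀ i, Matrix (Fin (d i)) (Fin (d i)) K) j *
        (Pi.single i (Matrix.single b c (1:K)) : ∀ i, Matrix (Fin (d i)) (Fin (d i)) K) j =
        (Pi.single i (Matrix.single a c (1:K)) : ∀ i, Matrix (Fin (d i)) (Fin (d i)) K) j
      rw [Pi.single_eq_of_ne hj, Pi.single_eq_of_ne hj, Pi.single_eq_of_ne hj, mul_zero]
  refine ⟨n, F, ?_, ?_, ?_, ?_, ?_⟩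
  · intro i h
    have h1 := congrArg e h
    rw [heF, map_zero] at h1
    have h2 := congrFun (congrFun (congrFun h1 i) 0) 0
    change (Pi.single i (Matrix.single 0 0 (1:K)) : ∀ i, Matrix (Fin (d i)) (Fin (d i)) K) i 0 0 = 0
      at h2
    rw [Pi.single_eq_same, Matrix.single_apply_same] at h2
    exact one_ne_zero h2
  · intro i
    apply e.injective
    rw [map_mul, heF, hgg]
  · intro i x
    refine ⟨e x i 0 0, ?_⟩
    apply e.injective
    rw [map_mul, map_mul, map_smul, heF]
    funext j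
    rw [Pi.mul_apply, Pi.mul_apply, Pi.smul_apply]
    by_cases hj : j = i
    · subst hj
      change (Pi.single j (Matrix.single 0 0 (1:K)) : ∀ i, Matrix (Fin (d i)) (Fin (d i)) K) j *
        e x j * (Pi.single j (Matrix.single 0 0 (1:K)) : ∀ i, Matrix (Fin (d i)) (Fin (d i)) K) j =
        e x j 0 0 •
        (Pi.single j (Matrix.single 0 0 (1:K)) : ∀ i, Matrix (Fin (d i)) (Fin (d i)) K) j
      rw [Pi.single_eq_same, Matrix.single_mul_mul_single, one_mul, mul_one, Matrix.smul_single,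
        smul_eq_mul, mul_one]
    · change (Pi.single i (Matrix.single 0 0 (1:K)) : ∀ i, Matrix (Fin (d i)) (Fin (d i)) K) j *
        e x j * (Pi.single i (Matrix.single 0 0 (1:K)) : ∀ i, Matrix (Fin (d i)) (Fin (d i)) K) j =
        e x i 0 0 •
        (Pi.single i (Matrix.single 0 0 (1:K)) : ∀ i, Matrix (Fin (d i)) (Fin (d i)) K) j
      rw [Pi.single_eq_of_ne hj, mul_zero, smul_zero]
  · intro i j hij x
    apply e.injective
    rw [map_mul, map_mul, map_zero, heF, heF]
    funext l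
    rw [Pi.mul_apply, Pi.mul_apply]
    change (Pi.single i (Matrix.single 0 0 (1:K)) : ∀ i, Matrix (Fin (d i)) (Fin (d i)) K) l *
        e x l * (Pi.single j (Matrix.single 0 0 (1:K)) : ∀ i, Matrix (Fin (d i)) (Fin (d i)) K) l = 0
    by_cases hl : l = i
    · subst hl
      rw [Pi.single_eq_of_ne hij, mul_zero]
    · rw [Pi.single_eq_of_ne hl, zero_mul, zero_mul]
  · have h1 : (1 : MonoidAlgebra K H) = ∑ i, ∑ a : Fin (d i),
        e.symm (g i a 0) * F i * e.symm (g i 0 a) := by
      apply e.injective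
      rw [map_one, map_sum]
      have h2 : ∀ i, e (∑ a : Fin (d i), e.symm (g i a 0) * F i * e.symm (g i 0 a)) =
          Pi.single i 1 := by
        intro i
        rw [map_sum]
        have h3 : ∀ a : Fin (d i), e (e.symm (g i a 0) * F i * e.symm (g i 0 a)) = g i a a := by
          intro a
          rw [map_mul, map_mul, heF, e.apply_symm_apply, e.apply_symm_apply, hgg, hgg]
        rw [Finset.sum_congr rfl fun a _ => h3 a]
        funext j
        rw [Finset.sum_apply]
        by_cases hj : j = i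
        · subst hj
          have h4 : ∀ a : Fin (d j), g j a a j = Matrix.single a a (1 : K) := by
            intro a
            change (Pi.single j (Matrix.single a a (1:K)) :
              ∀ i, Matrix (Fin (d i)) (Fin (d i)) K) j = _
            rw [Pi.single_eq_same]
          rw [Finset.sum_congr rfl fun a _ => h4 a, Pi.single_eq_same]
          ext a b
          rw [Matrix.sum_apply, Matrix.one_apply]
          by_cases hab : a = b
          · subst hab
            rw [if_pos rfl, Finset.sum_eq_single a]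
            · rw [Matrix.single_apply_same]
            · intro c _ hc
              rw [Matrix.single_apply, if_neg (fun h => hc h.1)]
            · intro h
              exact absurd (Finset.mem_univ _) h
          · rw [if_neg hab]
            refine Finset.sum_eq_zero fun c _ => ?_
            rw [Matrix.single_apply, if_neg (fun h => hab (h.1.symm.trans h.2))]
        · rw [Pi.single_eq_of_ne hj]
          refine Finset.sum_eq_zero fun a _ => ?_
          change (Pi.single i (Matrix.single a a (1:K)) :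
            ∀ i, Matrix (Fin (d i)) (Fin (d i)) K) j = _
          rw [Pi.single_eq_of_ne hj]
      rw [Finset.sum_congr rfl fun i _ => h2 i]
      funext j
      rw [Finset.sum_apply, Finset.sum_eq_single j]
      · rw [Pi.single_eq_same, Pi.one_apply]
      · intro i _ hi
        rw [Pi.single_eq_of_ne hi.symm]
      · intro h
        exact absurd (Finset.mem_univ _) h
    rw [h1]
    exact Submodule.sum_mem _ fun i _ => Submodule.sum_mem _ fun a _ =>
      Submodule.subset_span ⟨i, _, _, rfl⟩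

theorem ev_tr {χ : H → K} (h : IsCF χ) (x y : MonoidAlgebra K H) :
    ev χ (x * y) = ev χ (y * x) := by
  classical
  have h1 : ∀ g : H, ev χ (MonoidAlgebra.single g 1 * y) = ev χ (y * MonoidAlgebra.single g 1) := by
    intro g
    have h2 : (evL χ) ∘ₗ (LinearMap.mulLeft K (MonoidAlgebra.single g 1)) =
        (evL χ) ∘ₗ (LinearMap.mulRight K (MonoidAlgebra.single g (1 : K))) := by
      apply lin_ext
      intro b
      change ev χ (MonoidAlgebra.single g 1 * MonoidAlgebra.single b 1) =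
        ev χ (MonoidAlgebra.single b 1 * MonoidAlgebra.single g 1)
      rw [MonoidAlgebra.single_mul_single, MonoidAlgebra.single_mul_single, ev_single, ev_single]
      congr 1
      have := h g (b * g)
      rw [← this]
      congr 1
      group
    exact LinearMap.congr_fun h2 y
  have h3 : (evL χ) ∘ₗ (LinearMap.mulRight K y) = (evL χ) ∘ₗ (LinearMap.mulLeft K y) := by
    apply lin_ext
    intro g
    exact h1 g
  exact LinearMap.congr_fun h3 x

/-- one primitive idempotent for each irreducible character -/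
theorem exists_prims (K : Type u) [Field K] [IsAlgClosed K] [CharZero K] (H : Type) [Group H]
    [Fintype H] : ∃ ep : IrK K H → MonoidAlgebra K H,
      (∀ ψ, ep ψ * ep ψ = ep ψ) ∧ (∀ ψ x, ∃ c : K, ep ψ * x * ep ψ = c • ep ψ) ∧
      (∀ ψ θ, ψ ≠ θ → ∀ x, ep ψ * x * ep θ = 0) ∧
      ((1 : MonoidAlgebra K H) ∈ Submodule.span K {z | ∃ ψ x y, z = x * ep ψ * y}) ∧
      (∀ ψ, ev ψ.1 (ep ψ) = 1) ∧ (∀ ψ θ, ψ ≠ θ → ev ψ.1 (ep θ) = 0) := by
  classical
  have hfin : FiniteDimensional K (MonoidAlgebra K H) := finite_MA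
  obtain ⟨n, f, f0, f1, f2, f3, f4⟩ := exists_wedp K H
  -- the sums of squares
  have hsq : ∀ i, ∃ m : IrK K H → ℕ, (∀ χ, ev χ.1 (f i) = m χ) ∧ ∑ χ, m χ ^ 2 = 1 := by
    intro i
    obtain ⟨m, hm, hs⟩ := exists_ev_nat (f1 i)
    refine ⟨m, hm, ?_⟩
    rw [← hs]
    have h1 : NN (⊤ : Subalgebra K (MonoidAlgebra K H)) (f i) (f i) =
        Submodule.span K {f i} := by
      apply le_antisymm
      · rintro x ⟨_, hx1, hx2⟩
        obtain ⟨c, hc⟩ := f2 i x
        rw [hx1, hx2] at hc
        rw [hc]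
        exact Submodule.smul_mem _ _ (Submodule.mem_span_singleton_self _)
      · rw [Submodule.span_le]
        rintro _ rfl
        exact ⟨Algebra.mem_top, f1 i, f1 i⟩
    rw [h1, finrank_span_singleton (f0 i)]
  have hoff : ∀ i j, i ≠ j → ∀ χ : IrK K H, ev χ.1 (f i) * ev χ.1 (f j) = 0 := by
    intro i j hij
    obtain ⟨l, m, hl, hm, hs⟩ := exists_ev_nat₂ (f1 i) (f1 j)
    have h1 : NN (⊤ : Subalgebra K (MonoidAlgebra K H)) (f i) (f j) = ⊥ := by
      rw [eq_bot_iff]
      rintro x ⟨_, hx1, hx2⟩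
      rw [Submodule.mem_bot, ← hx2, ← hx1]
      exact f3 i j hij x
    rw [h1, finrank_bot] at hs
    intro χ
    have h2 := (Finset.sum_eq_zero_iff.1 hs.symm) χ (Finset.mem_univ χ)
    rw [hl, hm, ← Nat.cast_mul, h2, Nat.cast_zero]
  have hex : ∀ ψ : IrK K H, ∃ i, ev ψ.1 (f i) ≠ 0 := by
    intro ψ
    by_contra hc
    push Not at hc
    have h1 : ev ψ.1 (1 : MonoidAlgebra K H) = 0 := by
      have h2 : (1 : MonoidAlgebra K H) ∈ LinearMap.ker (evL ψ.1) := by
        refine (Submodule.span_le.2 ?_) f4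
        rintro _ ⟨i, x, y, rfl⟩
        rw [SetLike.mem_coe, LinearMap.mem_ker, evL_apply]
        obtain ⟨c, hc'⟩ := f2 i (y * x)
        have h3 : x * f i * y = (x * f i) * (f i * y) := by
          rw [mul_assoc x (f i) (f i * y), ← mul_assoc (f i) (f i) y, f1, mul_assoc]
        have h4 : f i * y * (x * f i) = f i * (y * x) * f i := by
          simp only [mul_assoc]
        rw [h3, ev_tr (fun x y => ψ.2.1.conj x y), h4, hc']
        have h5 := (evL ψ.1).map_smul c (f i)
        rw [evL_apply, evL_apply] at h5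
        rw [h5, hc, smul_zero]
      exact h2
    rw [ev_one] at h1
    exact one_ne ψ.2 h1
  choose σ hσ using hex
  have huniq : ∀ i (ψ θ : IrK K H), ev ψ.1 (f i) ≠ 0 → ψ ≠ θ →
      ev ψ.1 (f i) = 1 ∧ ev θ.1 (f i) = 0 := by
    intro i ψ θ h1 h2
    obtain ⟨m, hm, hs⟩ := hsq i
    have h3 : m ψ ≠ 0 := fun h => h1 (by rw [hm, h, Nat.cast_zero])
    have h4 : m ψ ^ 2 + m θ ^ 2 ≤ 1 := by
      rw [← hs, ← Finset.sum_pair h2 (f := fun j => m j ^ 2)]
      exact Finset.sum_le_sum_of_subset (Finset.subset_univ _)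
    have h5 : 1 ≤ m ψ ^ 2 := Nat.one_le_iff_ne_zero.2 (pow_ne_zero 2 h3)
    have h6 : m θ ^ 2 = 0 := by omega
    have h7 : m ψ ^ 2 = 1 := by omega
    have h8 : m θ = 0 := (pow_eq_zero_iff two_ne_zero).1 h6
    have h9 : m ψ = 1 := (Nat.pow_eq_one.1 h7).resolve_right two_ne_zero
    rw [hm, hm, h8, h9]
    exact ⟨Nat.cast_one, Nat.cast_zero⟩
  have hval : ∀ i (ψ : IrK K H), ev ψ.1 (f i) ≠ 0 → ev ψ.1 (f i) = 1 := by
    intro i ψ h1
    obtain ⟨m, hm, hs⟩ := hsq i
    have h3 : m ψ ≠ 0 := fun h => h1 (by rw [hm, h, Nat.cast_zero])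
    have h4 : m ψ ^ 2 ≤ 1 := by
      rw [← hs]
      exact Finset.single_le_sum (f := fun j => m j ^ 2) (fun _ _ => Nat.zero_le _)
        (Finset.mem_univ ψ)
    have h5 : 1 ≤ m ψ ^ 2 := Nat.one_le_iff_ne_zero.2 (pow_ne_zero 2 h3)
    have h7 : m ψ ^ 2 = 1 := by omega
    have h9 : m ψ = 1 := (Nat.pow_eq_one.1 h7).resolve_right two_ne_zero
    rw [hm, h9, Nat.cast_one]
  have hinj : ∀ ψ θ, ψ ≠ θ → σ ψ ≠ σ θ := by
    intro ψ θ hne h
    have h1 := (huniq (σ ψ) ψ θ (hσ ψ) hne).2
    rw [h] at h1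
    exact hσ θ h1
  have hsur : ∀ i, ∃ ψ, σ ψ = i := by
    intro i
    obtain ⟨m, hm, hs⟩ := hsq i
    obtain ⟨ψ, _, hψ⟩ : ∃ ψ ∈ Finset.univ, m ψ ^ 2 ≠ 0 := by
      apply Finset.exists_ne_zero_of_sum_ne_zero
      rw [hs]
      exact one_ne_zero
    refine ⟨ψ, ?_⟩
    by_contra hne
    have h1 := hoff _ _ hne ψ
    rcases mul_eq_zero.1 h1 with h2 | h2
    · exact hσ ψ h2
    · rw [hm] at h2
      apply hψ
      rw [Nat.cast_eq_zero.1 h2]
      rfl
  refine ⟨fun ψ => f (σ ψ), fun ψ => f1 _, fun ψ x => f2 _ x, fun ψ θ hne x =>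
    f3 _ _ (hinj ψ θ hne) x, ?_, fun ψ => hval _ ψ (hσ ψ), ?_⟩
  · refine Submodule.span_mono ?_ f4
    rintro _ ⟨i, x, y, rfl⟩
    obtain ⟨ψ, rfl⟩ := hsur i
    exact ⟨ψ, x, y, rfl⟩
  · intro ψ θ hne
    exact (huniq (σ θ) θ ψ (hσ θ) hne.symm).2

/-! ### transport to the ambient group algebra -/

/-- the inclusion of the group algebra of a subgroup -/
noncomputable def inc (S : Subgroup H) : MonoidAlgebra K S →ₐ[K] MonoidAlgebra K H :=
  MonoidAlgebra.mapDomainAlgHom K K S.subtype

theorem inc_single (S : Subgroup H) (s : S) (c : K) :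
    inc S (MonoidAlgebra.single s c) = MonoidAlgebra.single (s : H) c := by
  unfold inc
  rw [MonoidAlgebra.mapDomainAlgHom_apply]
  exact MonoidAlgebra.mapDomain_single ..

theorem inc_mem (S : Subgroup H) [Fintype S] (x : MonoidAlgebra K S) : inc S x ∈ SubAlg K S := by
  rw [H393.eq_sum_single x, map_sum]
  refine Subalgebra.sum_mem _ fun s _ => ?_
  rw [map_smul, inc_single]
  exact Subalgebra.smul_mem _ (single_mem_SubAlg s.2 1) _

theorem rs_inc (S : Subgroup H) [Fintype S] (x : MonoidAlgebra K S) : rs S (inc S x) = x := by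
  classical
  have h1 : (rsL (K := K) S) ∘ₗ (inc S).toLinearMap = LinearMap.id := by
    apply (MonoidAlgebra.basis S K).ext
    intro s
    rw [MonoidAlgebra.basis_apply]
    change rs S (inc S (MonoidAlgebra.single s 1)) = MonoidAlgebra.single s 1
    rw [inc_single]
    apply MonoidAlgebra.coeff_injective
    ext t
    rw [rs_coeff, MonoidAlgebra.coeff_single, MonoidAlgebra.coeff_single, Finsupp.single_apply,
      Finsupp.single_apply]
    by_cases h : s = t
    · rw [if_pos h, if_pos (congrArg Subtype.val h)]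
    · rw [if_neg h, if_neg (fun h' => h (Subtype.ext h'))]
  exact LinearMap.congr_fun h1 x

theorem inc_rs (S : Subgroup H) [Fintype S] {x : MonoidAlgebra K H} (hx : x ∈ SubAlg K S) :
    inc S (rs S x) = x := by
  apply rs_inj (inc_mem S _) hx
  rw [rs_inc]

/-- **the family of primitive idempotents of the algebra of a subgroup** -/
theorem exists_fam (S : Subgroup H) [Fintype S] : ∃ ep : IrK K S → MonoidAlgebra K H,
    Prims (SubAlg K S) ep ∧ (∀ ψ, ev ψ.1 (rs S (ep ψ)) = 1) ∧
      ∀ ψ θ, ψ ≠ θ → ev ψ.1 (rs S (ep θ)) = 0 := by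
  classical
  obtain ⟨ep, h1, h2, h3, h4, h5, h6⟩ := exists_prims K S
  refine ⟨fun ψ => inc S (ep ψ), ⟨?_, ?_, ?_, ?_, ?_⟩, ?_, ?_⟩
  · exact fun ψ => inc_mem S _
  · intro ψ
    rw [← map_mul, h1]
  · intro ψ x hx
    obtain ⟨c, hc⟩ := h2 ψ (rs S x)
    refine ⟨c, ?_⟩
    conv_lhs => rw [← inc_rs S hx]
    rw [← map_mul, ← map_mul, hc, map_smul]
  · intro ψ θ hne x hx
    have h7 := h3 ψ θ hne (rs S x)
    conv_lhs => rw [← inc_rs S hx]
    rw [← map_mul, ← map_mul, h7, map_zero]
  · have h7 : (1 : MonoidAlgebra K S) ∈ (Submodule.span K {z : MonoidAlgebra K H | ∃ ψ,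
        ∃ x ∈ SubAlg K S, ∃ y ∈ SubAlg K S, z = x * inc S (ep ψ) * y}).comap
          (inc S).toLinearMap := by
      refine (Submodule.span_le.2 ?_) h4
      rintro _ ⟨ψ, x, y, rfl⟩
      rw [SetLike.mem_coe, Submodule.mem_comap]
      refine Submodule.subset_span ⟨ψ, inc S x, inc_mem S x, inc S y, inc_mem S y, ?_⟩
      change inc S (x * ep ψ * y) = _
      rw [map_mul, map_mul]
    rw [Submodule.mem_comap] at h7
    have h8 : (inc S).toLinearMap 1 = (1 : MonoidAlgebra K H) := map_one (inc S)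
    rwa [h8] at h7
  · intro ψ
    rw [rs_inc]
    exact h5 ψ
  · intro ψ θ hne
    rw [rs_inc]
    exact h6 ψ θ hne

/-- a trace form on the algebra of a subgroup -/
theorem tr_expand {S : Subgroup H} [Fintype S] {ep : IrK K S → MonoidAlgebra K H}
    (hmem : ∀ ψ, ep ψ ∈ SubAlg K S)
    (h1 : ∀ ψ, ev ψ.1 (rs S (ep ψ)) = 1) (h0 : ∀ ψ θ, ψ ≠ θ → ev ψ.1 (rs S (ep θ)) = 0)
    (t : MonoidAlgebra K H →ₗ[K] K)
    (ht : ∀ x ∈ SubAlg K S, ∀ y ∈ SubAlg K S, t (x * y) = t (y * x))
    {x : MonoidAlgebra K H} (hx : x ∈ SubAlg K S) :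
    t x = ∑ ψ : IrK K S, t (ep ψ) * ev ψ.1 (rs S x) := by
  classical
  let t' : MonoidAlgebra K S →ₗ[K] K := t ∘ₗ (inc S).toLinearMap
  have ht' : ∀ z, t' z = t (inc S z) := fun z => rfl
  let θ : S → K := fun s => t' (MonoidAlgebra.single s 1)
  have hθ : IsCF θ := by
    intro a b
    change t' (MonoidAlgebra.single (a * b * a⁻¹) 1) = t' (MonoidAlgebra.single b 1)
    have e1 : MonoidAlgebra.single (a * b * a⁻¹) (1 : K) =
        MonoidAlgebra.single (a * b) 1 * MonoidAlgebra.single a⁻¹ 1 := by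
      rw [MonoidAlgebra.single_mul_single, one_mul]
    have e2 : MonoidAlgebra.single a⁻¹ (1 : K) * MonoidAlgebra.single (a * b) 1 =
        MonoidAlgebra.single b 1 := by
      rw [MonoidAlgebra.single_mul_single, one_mul]
      congr 1
      group
    rw [e1, ht', ht', map_mul, ht _ (inc_mem S _) _ (inc_mem S _), ← map_mul, e2]
  have hev : ∀ z, t' z = ev θ z := by
    intro z
    exact (H393.ev_eq t' z).symm
  have hco : ∀ z, t' z = ∑ ψ : IrK K S, ip θ ψ.1 * ev ψ.1 z := by
    intro z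
    rw [hev]
    conv_lhs => rw [show θ = fun g => ∑ χ : IrK K S, ip θ χ.1 * χ.1 g from
      funext (complete hθ)]
    rw [ev_sum]
  have h2 : ∀ ψ, t (ep ψ) = ip θ ψ.1 := by
    intro ψ
    have h3 : t (ep ψ) = t' (rs S (ep ψ)) := by
      rw [ht', inc_rs S (hmem ψ)]
    rw [h3, hco, Finset.sum_eq_single ψ]
    · rw [h1, mul_one]
    · intro φ _ hne
      rw [h0 φ ψ hne, mul_zero]
    · intro h
      exact absurd (Finset.mem_univ ψ) h
  have h3 : t x = t' (rs S x) := by
    rw [ht', inc_rs S hx]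
  rw [h3, hco]
  exact Finset.sum_congr rfl fun ψ _ => by rw [h2]

end

end Vale.Agent.P180.H897
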