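import Mathlib.LinearAlgebra.Lagrange
import Vale.Agent.P180.R2.H799.Cross

/-!
P180, abstract TOWER THEOREM: the spectral projections and the algebra of one step (helper897).
-/

set_option linter.all false

namespace Vale.Agent.P180.H897

universe u

open Finset Polynomial Vale.Agent.P180 Vale.Agent.P180.R2.H799

section proj

variable {K : Type u} [Field K] {A : Type*} [Ring A] [Algebra K A]

/-- the spectral projections of a diagonalizable element which is invertible in a corner -/
structure Spec (E X : A) (L : Finset K) (P : K → A) : Prop where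
  nz : (0 : K) ∉ L
  off : ∀ l, l ∉ L → P l = 0
  idem : ∀ l, P l * P l = P l
  orth : ∀ l l', l ≠ l' → P l * P l' = 0
  sum : ∑ l ∈ L, P l = E
  XP : ∀ l, X * P l = l • P l
  PX : ∀ l, P l * X = l • P l
  adj : ∀ l, P l ∈ Algebra.adjoin K {X}

theorem exists_spec {E X : A} (EX : E * X = X) (inv : ∃ y, y * X = E)
    (diag : ∃ L : Finset K, aeval X (∏ l ∈ L, (Polynomial.X - C l)) = 0) :
    ∃ (L : Finset K) (P : K → A), Spec E X L P := by
  classical
  obtain ⟨L, hL⟩ := diag
  obtain ⟨y, hy⟩ := inv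
  -- the Lagrange projections
  let D : K → K[X] := fun l => ∏ l' ∈ L.erase l, (Polynomial.X - C l')
  let w : K → K := fun l => (∏ l' ∈ L.erase l, (l - l'))⁻¹
  have hw : ∀ l ∈ L, w l ≠ 0 := by
    intro l hl
    apply inv_ne_zero
    rw [Finset.prod_ne_zero_iff]
    intro l' hl'
    exact sub_ne_zero.2 (Finset.ne_of_mem_erase hl').symm
  let Q : K → A := fun l => if l ∈ L then aeval X (C (w l) * D l) else 0
  have hQ : ∀ l, l ∉ L → Q l = 0 := fun l hl => if_neg hl
  have hQ' : ∀ l ∈ L, Q l = aeval X (C (w l) * D l) := fun l hl => if_pos hl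
  have hXQ : ∀ l, X * Q l = l • Q l := by
    intro l
    by_cases hl : l ∈ L
    · rw [hQ' l hl]
      have h1 : aeval X ((Polynomial.X - C l) * (C (w l) * D l)) = (0 : A) := by
        have h2 : (Polynomial.X - C l) * (C (w l) * D l) =
            C (w l) * ∏ l ∈ L, (Polynomial.X - C l) := by
          rw [← Finset.mul_prod_erase L _ hl]
          ring
        rw [h2, map_mul, hL, mul_zero]
      rw [map_mul, map_sub, aeval_X, aeval_C, sub_mul, sub_eq_zero] at h1
      rw [h1, Algebra.smul_def]
    · rw [hQ l hl, mul_zero, smul_zero]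
  have hadj : ∀ l, Q l ∈ Algebra.adjoin K {X} := by
    intro l
    by_cases hl : l ∈ L
    · rw [hQ' l hl]
      exact aeval_mem_adjoin_singleton K X
    · rw [hQ l hl]
      exact Subalgebra.zero_mem _
  have hcX : ∀ z ∈ Algebra.adjoin K {X}, z * X = X * z := by
    intro z hz
    have h1 : ∀ z ∈ Algebra.adjoin K {X}, Commute X z := by
      intro z hz
      induction hz using Algebra.adjoin_induction with
      | mem z hz =>
        rw [Set.mem_singleton_iff.1 hz]
      | algebraMap r => exact (Algebra.commutes r X).symm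
      | add a b _ _ ha hb => exact ha.add_right hb
      | mul a b _ _ ha hb => exact ha.mul_right hb
    exact (h1 z hz).eq.symm
  have hQX : ∀ l, Q l * X = l • Q l := by
    intro l
    rw [hcX _ (hadj l), hXQ]
  have horth : ∀ l l', l ≠ l' → Q l * Q l' = 0 := by
    intro l l' hll
    have h1 : Q l * X * Q l' = l • (Q l * Q l') := by rw [hQX, smul_mul_assoc]
    have h2 : Q l * X * Q l' = l' • (Q l * Q l') := by rw [mul_assoc, hXQ, mul_smul_comm]
    have h3 : (l - l') • (Q l * Q l') = 0 := by rw [sub_smul, ← h1, h2, sub_self]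
    exact (smul_eq_zero.1 h3).resolve_left (sub_ne_zero.2 hll)
  have hone : L.Nonempty → ∑ l ∈ L, Q l = 1 := by
    intro hne
    have h1 : ∑ l ∈ L, Lagrange.basis L id l = 1 :=
      Lagrange.sum_basis (Set.injOn_id _) hne
    have h2 : ∀ l ∈ L, Q l = aeval X (Lagrange.basis L id l) := by
      intro l hl
      rw [hQ' l hl]
      congr 1
      unfold Lagrange.basis Lagrange.basisDivisor
      rw [Finset.prod_mul_distrib]
      congr 1
      change C ((∏ l' ∈ L.erase l, (l - l'))⁻¹) = _
      rw [← Finset.prod_inv_distrib, map_prod]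
      rfl
    rw [Finset.sum_congr rfl h2, ← map_sum, h1, map_one]
  have hone' : ∑ l ∈ L, Q l = 1 := by
    by_cases hne : L.Nonempty
    · exact hone hne
    · rw [Finset.not_nonempty_iff_eq_empty.1 hne] at hL ⊢
      rw [Finset.sum_empty]
      rw [Finset.prod_empty, map_one] at hL
      exact hL.symm
  have hidem : ∀ l, Q l * Q l = Q l := by
    intro l
    by_cases hl : l ∈ L
    · have h1 : Q l * ∑ l' ∈ L, Q l' = Q l := by rw [hone', mul_one]
      rw [Finset.mul_sum, Finset.sum_eq_single l] at h1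
      · exact h1
      · intro l' _ hne
        exact horth l l' hne.symm
      · intro h
        exact absurd hl h
    · rw [hQ l hl, mul_zero]
  -- the eigenvalue zero
  have h0 : E * Q 0 = 0 := by
    rw [← hy, mul_assoc, hXQ, zero_smul, mul_zero]
  have hE : ∀ l, l ≠ 0 → E * Q l = Q l := by
    intro l hl
    have h1 : E * (X * Q l) = X * Q l := by rw [← mul_assoc, EX]
    rw [hXQ, mul_smul_comm] at h1
    have h2 : l⁻¹ • (l • (E * Q l)) = l⁻¹ • (l • Q l) := by rw [h1]
    rwa [inv_smul_smul₀ hl, inv_smul_smul₀ hl] at h2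
  refine ⟨L.erase 0, fun l => if l = 0 then 0 else Q l, ?_, ?_, ?_, ?_, ?_, ?_, ?_, ?_⟩
  · exact Finset.notMem_erase 0 L
  · intro l hl
    by_cases h : l = 0
    · exact if_pos h
    · beta_reduce
      rw [if_neg h]
      exact hQ l fun h' => hl (Finset.mem_erase.2 ⟨h, h'⟩)
  · intro l
    by_cases h : l = 0
    · simp only [if_pos h, mul_zero]
    · simp only [if_neg h, hidem]
  · intro l l' hll
    by_cases h : l = 0
    · simp only [if_pos h, zero_mul]
    · by_cases h' : l' = 0
      · simp only [if_pos h', mul_zero]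
      · simp only [if_neg h, if_neg h']
        exact horth l l' hll
  · have h1 : E * ∑ l ∈ L, Q l = E := by rw [hone', mul_one]
    rw [Finset.mul_sum] at h1
    rw [← h1]
    by_cases hz : (0 : K) ∈ L
    · rw [← Finset.add_sum_erase L _ hz, h0, zero_add]
      refine Finset.sum_congr rfl fun l hl => ?_
      have h2 : l ≠ 0 := (Finset.mem_erase.1 hl).1
      rw [if_neg h2, hE l h2]
    · rw [Finset.erase_eq_of_notMem hz]
      refine Finset.sum_congr rfl fun l hl => ?_
      have h2 : l ≠ 0 := fun h => hz (h ▸ hl)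
      rw [if_neg h2, hE l h2]
  · intro l
    by_cases h : l = 0
    · simp only [if_pos h, mul_zero, smul_zero]
    · simp only [if_neg h, hXQ]
  · intro l
    by_cases h : l = 0
    · simp only [if_pos h, zero_mul, smul_zero]
    · simp only [if_neg h, hQX]
  · intro l
    by_cases h : l = 0
    · simp only [if_pos h]
      exact Subalgebra.zero_mem _
    · simp only [if_neg h]
      exact hadj l

/-- rescaling -/
theorem Spec.smul {E X : A} {L : Finset K} {P : K → A} (h : Spec E X L P) {g : K} (hg : g ≠ 0) :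
    ∃ (L' : Finset K) (P' : K → A), Spec E (g • X) L' P' := by
  classical
  refine ⟨L.image (fun l => g * l), fun l => P (g⁻¹ * l), ?_, ?_, ?_, ?_, ?_, ?_, ?_, ?_⟩
  · intro h0
    obtain ⟨l, hl, h1⟩ := Finset.mem_image.1 h0
    rcases mul_eq_zero.1 h1 with h2 | h2
    · exact hg h2
    · exact h.nz (h2 ▸ hl)
  · intro l hl
    apply h.off
    intro h1
    apply hl
    rw [Finset.mem_image]
    exact ⟨_, h1, mul_inv_cancel_left₀ hg l⟩
  · intro l
    exact h.idem _
  · intro l l' hll
    exact h.orth _ _ fun h1 => hll (mul_left_cancel₀ (inv_ne_zero hg) h1)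
  · rw [Finset.sum_image (fun a _ b _ hab => mul_left_cancel₀ hg hab), ← h.sum]
    refine Finset.sum_congr rfl fun l _ => ?_
    rw [inv_mul_cancel_left₀ hg]
  · intro l
    rw [smul_mul_assoc, h.XP, smul_smul, mul_inv_cancel_left₀ hg]
  · intro l
    rw [mul_smul_comm, h.PX, smul_smul, mul_inv_cancel_left₀ hg]
  · intro l
    have h1 : Algebra.adjoin K ({X} : Set A) ≤ Algebra.adjoin K ({g • X} : Set A) := by
      apply Algebra.adjoin_le
      intro z hz
      rw [Set.mem_singleton_iff.1 hz]
      have h3 : g • X ∈ Algebra.adjoin K ({g • X} : Set A) :=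
        Algebra.subset_adjoin (Set.mem_singleton (g • X))
      have h2 := Subalgebra.smul_mem _ h3 g⁻¹
      rwa [inv_smul_smul₀ hg] at h2
    exact h1 (h.adj _)

theorem Spec.EP {E X : A} {L : Finset K} {P : K → A} (h : Spec E X L P) (l : K) :
    E * P l = P l := by
  classical
  by_cases hl : l ∈ L
  · rw [← h.sum, Finset.sum_mul, Finset.sum_eq_single l]
    · exact h.idem l
    · intro l' _ hne
      exact h.orth l' l hne
    · intro h'
      exact absurd hl h'
  · rw [h.off l hl, mul_zero]

theorem Spec.PE {E X : A} {L : Finset K} {P : K → A} (h : Spec E X L P) (l : K) :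
    P l * E = P l := by
  classical
  by_cases hl : l ∈ L
  · rw [← h.sum, Finset.mul_sum, Finset.sum_eq_single l]
    · exact h.idem l
    · intro l' _ hne
      exact h.orth l l' hne.symm
    · intro h'
      exact absurd hl h'
  · rw [h.off l hl, zero_mul]

theorem comm_adjoin {X x : A} (h : X * x = x * X) {z : A}
    (hz : z ∈ Algebra.adjoin K ({X} : Set A)) : z * x = x * z := by
  induction hz using Algebra.adjoin_induction with
  | mem z hz => rw [Set.mem_singleton_iff.1 hz, h]
  | algebraMap r => exact Algebra.commutes r x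
  | add a b _ _ ha hb => rw [add_mul, mul_add, ha, hb]
  | mul a b _ _ ha hb => rw [mul_assoc, hb, ← mul_assoc, ha, mul_assoc]

end proj

section step

variable {K : Type u} [Field K] {A : Type*} [Ring A] [Algebra K A]

/-- one step of the tower: `B₀ ≤ B₁ ≤ B₂` -/
structure Step (B₀ B₁ B₂ : Subalgebra K A) (E' X' E X T : A) (a : K) (L' L : Finset K)
    (P' P : K → A) : Prop where
  le₀ : B₀ ≤ B₁
  le₁ : B₁ ≤ B₂
  S' : Spec E' X' L' P'
  S : Spec E X L P
  P'_mem : ∀ l, P' l ∈ B₁
  P_mem : ∀ l, P l ∈ B₂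
  T_mem : T ∈ B₂
  P'_comm : ∀ l, ∀ x ∈ B₀, P' l * x = x * P' l
  P_comm : ∀ l, ∀ x ∈ B₁, P l * x = x * P l
  T_comm : ∀ x ∈ B₀, T * x = x * T
  X'_mem : X' ∈ B₁
  E'_mem : E' ∈ B₁
  ET : E' * T = T
  TE : T * E' = T
  a_ne : a ≠ 0
  XT : X * T = a • (X * E') + T * X'
  TX : T * X = a • (X * E') + X' * T

variable {B₀ B₁ B₂ : Subalgebra K A} {E' X' E X T : A} {a : K} {L' L : Finset K} {P' P : K → A}

theorem Step.PP' (h : Step B₀ B₁ B₂ E' X' E X T a L' L P' P) {l : K} (hl : l ≠ 0) :
    P l * P' l = 0 := by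
  have e1 : P l * (X * T) * (P l * P' l) = l • (P l * T * (P l * P' l)) := by
    rw [← mul_assoc (P l) X T, h.S.PX, smul_mul_assoc, smul_mul_assoc]
  have e2 : P l * (X * T) * (P l * P' l) =
      (a * l) • (P l * P' l) + l • (P l * T * (P l * P' l)) := by
    rw [h.XT, mul_add, add_mul]
    congr 1
    · rw [mul_smul_comm, smul_mul_assoc, ← mul_assoc (P l) X E', h.S.PX, smul_mul_assoc,
        smul_mul_assoc, smul_smul, mul_assoc (P l) E', ← mul_assoc E' (P l),
        ← h.P_comm l E' h.E'_mem, mul_assoc (P l) E', h.S'.EP, ← mul_assoc, h.S.idem]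
    · rw [← mul_assoc (P l) T X', mul_assoc (P l * T) X', ← mul_assoc X' (P l),
        ← h.P_comm l X' h.X'_mem, mul_assoc (P l) X', h.S'.XP, mul_smul_comm, mul_smul_comm]
  rw [e1] at e2
  have e3 : (a * l) • (P l * P' l) = 0 := by
    rwa [eq_comm, add_eq_right] at e2
  exact (smul_eq_zero.1 e3).resolve_left (mul_ne_zero h.a_ne hl)

/-- the middle element -/
theorem Step.Z_eq (h : Step B₀ B₁ B₂ E' X' E X T a L' L P' P) (l u : K) :
    ∃ w ∈ B₁, P l * T * P u = P' u * (P l * T * P u) * P' l + w * (P l * P u) := by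
  classical
  set Z := P l * T * P u with hZ
  -- left
  have hX'Z : X' * Z = u • Z - a • (u • (E' * (P l * P u))) := by
    have h1 : X' * T = T * X - a • (X * E') := by rw [h.TX]; abel
    rw [hZ, ← mul_assoc, ← mul_assoc, ← h.P_comm l X' h.X'_mem, mul_assoc (P l) X', h1, mul_sub,
      sub_mul]
    congr 1
    · rw [mul_assoc, mul_assoc T, h.S.XP, mul_smul_comm, mul_smul_comm, ← mul_assoc]
    · rw [mul_smul_comm, smul_mul_assoc, mul_assoc, mul_assoc X, ← h.P_comm u E' h.E'_mem,
        ← mul_assoc X, h.S.XP, smul_mul_assoc, mul_smul_comm, h.P_comm u E' h.E'_mem,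
        ← mul_assoc (P l) E', h.P_comm l E' h.E'_mem, mul_assoc]
  have hZX' : Z * X' = l • Z - a • (l • (E' * (P l * P u))) := by
    have h1 : T * X' = X * T - a • (X * E') := by rw [h.XT]; abel
    rw [hZ, mul_assoc, h.P_comm u X' h.X'_mem, ← mul_assoc, mul_assoc (P l) T X', h1, mul_sub,
      sub_mul]
    congr 1
    · rw [← mul_assoc, h.S.PX, smul_mul_assoc, smul_mul_assoc]
    · rw [mul_smul_comm, smul_mul_assoc, ← mul_assoc, h.S.PX, smul_mul_assoc, smul_mul_assoc,
        h.P_comm l E' h.E'_mem, mul_assoc]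
  have hE'Z : E' * Z = Z := by
    rw [hZ, ← mul_assoc, ← mul_assoc, ← h.P_comm l E' h.E'_mem, mul_assoc (P l) E', h.ET]
  have hZE' : Z * E' = Z := by
    rw [hZ, mul_assoc, h.P_comm u E' h.E'_mem, ← mul_assoc, mul_assoc (P l) T, h.TE]
  have hleft : ∀ v, (u - v) • (P' v * Z) = a • (u • (P' v * (P l * P u))) := by
    intro v
    have h1 : P' v * X' * Z = v • (P' v * Z) := by rw [h.S'.PX, smul_mul_assoc]
    rw [mul_assoc, hX'Z, mul_sub, mul_smul_comm, mul_smul_comm, mul_smul_comm, ← mul_assoc (P' v) E',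
      h.S'.PE] at h1
    rw [sub_smul, ← h1]
    abel
  have hright : ∀ v, (l - v) • (Z * P' v) = a • (l • (P' v * (P l * P u))) := by
    intro v
    have h1 : Z * X' * P' v = v • (Z * P' v) := by rw [mul_assoc, h.S'.XP, mul_smul_comm]
    have h2 : E' * (P l * P u) * P' v = P' v * (P l * P u) := by
      rw [mul_assoc, mul_assoc, h.P_comm u _ (h.P'_mem v), ← mul_assoc (P l), h.P_comm l _ (h.P'_mem v),
        mul_assoc (P' v), ← mul_assoc E', h.S'.EP]
    rw [hZX', sub_mul, smul_mul_assoc, smul_mul_assoc, smul_mul_assoc, h2] at h1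
    rw [sub_smul, ← h1]
    abel
  -- first decomposition
  have hsum : Z = ∑ v ∈ L', P' v * Z := by
    rw [← Finset.sum_mul, h.S'.sum, hE'Z]
  have hA : Z = P' u * Z + (∑ v ∈ L'.erase u, (a * u / (u - v)) • P' v) * (P l * P u) := by
    have h1 : ∀ v ∈ L'.erase u, P' v * Z = ((a * u / (u - v)) • P' v) * (P l * P u) := by
      intro v hv
      have h2 : u - v ≠ 0 := sub_ne_zero.2 (Finset.ne_of_mem_erase hv).symm
      have h3 := congrArg (fun z => (u - v)⁻¹ • z) (hleft v)
      beta_reduce at h3
      rw [inv_smul_smul₀ h2] at h3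
      rw [h3, smul_mul_assoc, smul_smul, smul_smul]
      congr 1
      field_simp
    rw [Finset.sum_mul, ← Finset.sum_congr rfl h1]
    by_cases hu : u ∈ L'
    · rw [Finset.add_sum_erase L' (fun v => P' v * Z) hu]
      exact hsum
    · rw [Finset.erase_eq_of_notMem hu, h.S'.off u hu, zero_mul, zero_add]
      exact hsum
  -- second decomposition
  have hB : P' u * Z = P' u * Z * P' l := by
    have h0 : P' u * Z = ∑ v ∈ L', P' u * Z * P' v := by
      rw [← Finset.mul_sum, h.S'.sum, mul_assoc, hZE']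
    have h1 : ∀ v, v ≠ l → P' u * Z * P' v = 0 := by
      intro v hv
      have h2 : l - v ≠ 0 := sub_ne_zero.2 hv.symm
      have h3 := congrArg (fun z => P' u * z) (hright v)
      beta_reduce at h3
      rw [mul_smul_comm, mul_smul_comm, mul_smul_comm, ← mul_assoc, ← mul_assoc (P' u) (P' v)] at h3
      have h4 : P' u * P' v * (P l * P u) = 0 := by
        by_cases huv : u = v
        · rw [h.S.orth l u (fun h' => hv (by rw [← huv, h'])), mul_zero]
        · rw [h.S'.orth u v huv, zero_mul]
      rw [h4, smul_zero, smul_zero] at h3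
      exact (smul_eq_zero.1 h3).resolve_left h2
    by_cases hl : l ∈ L'
    · rw [Finset.sum_eq_single l (fun v _ hv => h1 v hv) (fun h' => absurd hl h')] at h0
      exact h0
    · rw [Finset.sum_eq_zero (fun v hv => h1 v (fun h' => hl (h' ▸ hv)))] at h0
      rw [h0, zero_mul]
  refine ⟨∑ v ∈ L'.erase u, (a * u / (u - v)) • P' v, ?_, ?_⟩
  · exact Subalgebra.sum_mem _ fun v _ => Subalgebra.smul_mem _ (h.P'_mem v) _
  · rw [← hB]
    exact hA

theorem Step.Z_comm (h : Step B₀ B₁ B₂ E' X' E X T a L' L P' P) (l u : K) {x : A} (hx : x ∈ B₀) :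
    P l * T * P u * x = x * (P l * T * P u) := by
  rw [mul_assoc, h.P_comm u x (h.le₀ hx), ← mul_assoc, mul_assoc (P l), h.T_comm x hx,
    ← mul_assoc (P l), h.P_comm l x (h.le₀ hx), mul_assoc, mul_assoc, mul_assoc (P l)]

end step

end Vale.Agent.P180.H897
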