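import Vale.Agent.P179.H905.TwoMT0

/-!
P180 H897 (block B4b of theorem B): the second main theorem for two characters separated by
a class function modulo `p`.
-/

set_option linter.all false

namespace Vale.Agent.P180.H897.TwoMt

open P179H524 P179C P179A Finset P179P

open scoped Classical

section

variable {k : Type*} [Field k] {p : ℕ} [hp : Fact p.Prime] [CharP k p] (red : AA →+* k)
  {G : Type*} [Group G] [Fintype G]

/-- the values of `lam` on the restriction of a class function of `G` to a subgroup -/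
theorem lam_restr (H : Subgroup G) [Fintype (ConjClasses G)] (ζ : Irr H) {a : G → k}
    (ha : IsCF a) : lam red ζ.1 (fun h : H => a h) =
      ∑ D : ConjClasses G, a D.out * redC red (om ζ.1 (fun h : H => ind D (h : G))) := by
  have h1 : (fun h : H => a h) = ∑ D : ConjClasses G, a D.out • (fun h : H => ((ind D (h : G) : ℤ) : k)) := by
    ext h
    rw [Finset.sum_apply]
    exact cf_eq_sum ha (h : G)
  have hlin : ∀ (s : Finset (ConjClasses G)) (f : ConjClasses G → H → k),
      lam red ζ.1 (∑ i ∈ s, f i) = ∑ i ∈ s, lam red ζ.1 (f i) := by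
    intro s f
    induction s using Finset.induction_on with
    | empty => simp [lam]
    | insert i s hi ih => rw [Finset.sum_insert hi, Finset.sum_insert hi, lam_add, ih]
  rw [h1, hlin]
  refine Finset.sum_congr rfl fun D _ => ?_
  rw [lam_smul, lam_int red ζ.2 (isCF_restr (isCF_ind D) H)]

/-- **(B4b)** -/
theorem two_mt_lam (χ : Irr G) (x : G) (hx : ∃ n : ℕ, x ^ p ^ n = 1) (H : Subgroup G)
    (hH : ∀ y, y ∈ H ↔ y * x = x * y) (ζ : Irr H) {a : G → k} (ha : IsCF a)
    (hne : lam red χ.1 a ≠ lam red ζ.1 (fun h : H => a h)) :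
    ∑ s : H, (if ¬ p ∣ orderOf s then χ.1 (s * x) * ζ.1 s⁻¹ else 0) = 0 := by
  have _ : Fintype (ConjClasses G) := Fintype.ofFinite _
  by_contra hcon
  refine hne ?_
  rw [lam_restr red H ζ ha, lam, finsum_eq_sum_of_fintype]
  refine Finset.sum_congr rfl fun D _ => ?_
  by_contra h1
  refine hcon (two_mt p red χ x hx H hH ζ (ind D) (isCF_ind D) fun h2 => h1 ?_)
  have h3 : redC red (om χ.1 (ind D)) = red (omA χ (ind D) (isCF_ind D)) :=
    redC_of_mem red (isIntegral_om χ.2 (isCF_ind D))
  have h4 : redC red (om ζ.1 (fun h : H => ind D (h : G))) =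
      red (omA ζ (fun h : H => ind D (h : G)) (isCF_restr (isCF_ind D) H)) :=
    redC_of_mem red (isIntegral_om ζ.2 (isCF_restr (isCF_ind D) H))
  rw [h3, h4, h2]

/-- **(B4b)**, in the group algebra, for the centralizer. -/
theorem two_mt_c (χ : Irr G) (x : G) (hx : ∃ n : ℕ, x ^ p ^ n = 1)
    [Fintype (Subgroup.centralizer ({x} : Set G))]
    (ζ : Irr (Subgroup.centralizer ({x} : Set G))) {e : MonoidAlgebra k G}
    (he : ∀ y, y * e = e * y) (h1 : lam red χ.1 (fun g => e.coeff g) = 1)
    (h0 : lam red ζ.1 (fun h : Subgroup.centralizer ({x} : Set G) => e.coeff (h : G)) = 0) :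
    ∑ s : Subgroup.centralizer ({x} : Set G),
      (if p ∣ orderOf s then 0 else χ.1 (s * x) * ζ.1 s⁻¹) = 0 := by
  have hcf : IsCF fun g => e.coeff g :=
    (mem_center_iff e).1 (Subalgebra.mem_center_iff.2 fun y => he y)
  have h2 := two_mt_lam (p := p) red χ x hx (Subgroup.centralizer ({x} : Set G))
    (fun y => Subgroup.mem_centralizer_singleton_iff) ζ hcf (by
      rw [h1]
      intro h3
      exact one_ne_zero (h3.trans h0))
  refine Eq.trans (Finset.sum_congr (by ext; simp) fun s _ => ?_) h2
  by_cases hs : p ∣ orderOf s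
  · rw [if_pos hs, if_neg (not_not.2 hs)]
  · rw [if_neg hs, if_pos hs]

end

end Vale.Agent.P180.H897.TwoMt
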